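import Vale.Agent.P076N.Fun
import Vale.Agent.P076N.Amp
import Vale.Agent.P076T.Wt

/-!
# P076N / KEY : definitions and the tool rows (notes/P076/key.md)
-/

set_option linter.all false

open MeasureTheory Finset
open scoped RealInnerProductSpace

namespace Vale.Agent.P076N.KEY

open Vale.Agent.P076 Vale.Agent.P076N Vale.Agent.P076T

noncomputable section

variable {d : ℕ}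

/-- smooth compactly supported profiles -/
structure Smo (a : E d → ℝ) : Prop where
  cd : ContDiff ℝ (⊤ : ℕ∞) a
  cs : HasCompactSupport a

/-- bumps: `1` on the ball of radius `R₁`, `0` off the ball of radius `R₂` -/
structure Bmp (R₁ R₂ : ℝ) (a : E d → ℝ) : Prop where
  smo : Smo a
  nn : ∀ η, 0 ≤ a η
  le1 : ∀ η, a η ≤ 1
  one : ∀ η, ‖η‖ ≤ R₁ → a η = 1
  supp : ∀ η, a η ≠ 0 → ‖η‖ ≤ R₂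

/-- smooth partitions of unity along the lattice -/
structure Prt (ψ : E d → ℝ) : Prop where
  smo : Smo ψ
  nn : ∀ η, 0 ≤ ψ η
  supp : ∀ η, ψ η ≠ 0 → ∀ l, |η l| < 1
  le1 : ∀ (Θ : Finset (Zv d)) (η : E d), ∑ θ ∈ Θ, ψ (η - toV θ) ≤ 1
  one : ∀ (Θ : Finset (Zv d)) (η : E d), (∀ θ : Zv d, (∀ l, |η l - θ l| < 1) → θ ∈ Θ) → ∑ θ ∈ Θ, ψ (η - toV θ) = 1

/-- the profile at the scale `1 / L` around `c` -/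
def bp (a : E d → ℝ) (L : ℝ) (c : E d) (η : E d) : ℂ := (a (L • (η - c)) : ℂ)

/-- the centre of the cap `θ` of size `1 / M` -/
def ce (M : ℝ) (θ : Zv d) : E d := M⁻¹ • toV θ

/-- the piece of `g` in the cap `θ` -/
def cp (ψ : E d → ℝ) (M : ℝ) (θ : Zv d) (g : E d → ℂ) (η : E d) : ℂ := bp ψ M (ce M θ) η * g η

/-- the piece of `g` in a set of caps -/
def cs (ψ : E d → ℝ) (M : ℝ) (S : Finset (Zv d)) (g : E d → ℂ) (η : E d) : ℂ := ∑ θ ∈ S, cp ψ M θ g η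

open Classical in
/-- all caps with centre in the ball of radius `4` -/
def Th (d : ℕ) (M : ℝ) : Finset (Zv d) :=
  (Fintype.piFinset fun _ => Finset.Icc (-⌈4 * M⌉) ⌈4 * M⌉).filter fun θ => ‖ce M θ‖ ≤ 4

/-- support within `R / L` of `c` -/
def Nr (R L : ℝ) (c : E d) (h : E d → ℂ) : Prop := ∀ η, h η ≠ 0 → L * ‖η - c‖ ≤ R

/-- cut the solution at the time `t₀` to the set `Ω`, then apply the multiplier `a` -/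
def cut (a : E d → ℂ) (t₀ : ℝ) (Ω : Set (E d)) (h : E d → ℂ) (η : E d) : ℂ :=
  a η * Complex.exp (2 * Real.pi * Complex.I * ((t₀ * ‖η‖ ^ 2 : ℝ) : ℂ)) *
    ∫ y in Ω, Complex.exp (-(2 * Real.pi * Complex.I * ((⟪y, η⟫ : ℝ) : ℂ))) * Uu h (y, t₀)

/-- measurable bounded sets -/
def MB (Ω : Set (E d)) : Prop := MeasurableSet Ω ∧ Bornology.IsBounded Ω

/-- the truncated density -/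
def Dn (ψ : E d → ℝ) (M Λ : ℝ) (g : E d → ℂ) (p : E d × ℝ) (ρ : ℝ) : ℝ :=
  ∑ θ ∈ Th d M, min (lE (cp ψ M θ g) p ρ / ρ ^ d) Λ

/-- near in space and time -/
def Nb (τ : ℝ) (p p' : E d × ℝ) : Prop := ‖p'.1 - p.1‖ ≤ τ ∧ |p'.2 - p.2| ≤ τ

/-- the kernel majorant inside a block -/
def kS (N : ℕ) (r : ℝ) (c : E d) (p p' : E d × ℝ) : ℝ :=
  (1 + |p'.2 - p.2| / r ^ 2) ^ (-(d : ℝ) / 2) *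
    wE N (r + |p'.2 - p.2| / r) (p'.1 - p.1 - (2 * (p'.2 - p.2)) • c)

open Classical in
/-- the kernel majorant between different blocks -/
def kD (R r : ℝ) (c : E d) (p p' : E d × ℝ) : ℝ :=
  if ‖p'.1 - p.1 - (2 * (p'.2 - p.2)) • c‖ ≤ R * |p'.2 - p.2| / r then (1 + |p'.2 - p.2| / r ^ 2) ^ (-(d : ℝ) / 2) else 0

open Classical in
/-- the kernel majorant -/
def kk {ι β : Type} (N : ℕ) (R r : ℝ) (c : E d) (p : ι → E d × ℝ) (bl : ι → β) (i j : ι) : ℝ :=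
  if bl i = bl j then kS N r c (p i) (p j) else kD R r c (p i) (p j)

/-! ## the tools -/

/-- **[BMP]** -/
def BMP (d : ℕ) : Prop := (∀ R₁ R₂ : ℝ, 0 < R₁ → R₁ < R₂ → ∃ a : E d → ℝ, Bmp R₁ R₂ a) ∧ ∃ ψ : E d → ℝ, Prt ψ

/-- **[BAS]** basic facts -/
def BAS (d : ℕ) : Prop :=
  (∀ (R : ℝ) (h : E d → ℂ), Bd R h → Integrable h ∧ Continuous (Uu h) ∧ 0 ≤ en h ∧
    (∀ t, Integrable (fun x => ‖Uu h (x, t)‖ ^ 2) ∧ ∫ x, ‖Uu h (x, t)‖ ^ 2 = en h) ∧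
    (∀ p ρ, 0 ≤ lE h p ρ ∧ lE h p ρ ≤ en h) ∧ (∀ p ρ ρ', ρ ≤ ρ' → lE h p ρ ≤ lE h p ρ') ∧
    ∀ (R₀ L : ℝ) (c : E d) p, 0 < L → 0 ≤ R₀ → Nr R₀ L c h → ‖Uu h p‖ ^ 2 ≤ (2 * R₀ / L) ^ d * en h) ∧
  (∀ (R : ℝ) (ι : Type) (I : Finset ι) (h : ι → E d → ℂ), (∀ i ∈ I, Bd R (h i)) →
    Bd R (fun η => ∑ i ∈ I, h i η) ∧ ∀ p, Uu (fun η => ∑ i ∈ I, h i η) p = ∑ i ∈ I, Uu (h i) p) ∧
  (∀ (R : ℝ) (g h : E d → ℂ), Bd R g → Bd R h → Bd R (g - h) ∧ (∀ p, Uu (g - h) p = Uu g p - Uu h p) ∧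
    en (g - h) ≤ 2 * en g + 2 * en h) ∧
  (∀ (ψ : E d → ℝ) (R M : ℝ) (g : E d → ℂ), Prt ψ → 0 < M → Bd R g →
    (∀ θ, Bd R (cp ψ M θ g) ∧ Nr d M (ce M θ) (cp ψ M θ g)) ∧
    (∀ S, Bd R (cs ψ M S g) ∧ en (cs ψ M S g) ≤ en g ∧ ∑ θ ∈ S, en (cp ψ M θ g) ≤ en g ∧
      ∀ p, Uu (cs ψ M S g) p = ∑ θ ∈ S, Uu (cp ψ M θ g) p) ∧
    (R ≤ 3 → (d : ℝ) ≤ M → 1 ≤ M → cs ψ M (Th d M) g = g)) ∧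
  (∀ M : ℝ, 1 ≤ M → (#(Th d M) : ℝ) ≤ 11 ^ d * M ^ d)

/-- **[KER]** the kernel of a smooth cap: dispersion and decay off the tube -/
def KER (d : ℕ) : Prop := ∀ a : E d → ℝ, Smo a → ∀ N : ℕ, ∃ C : ℝ, 0 ≤ C ∧ ∀ (L : ℝ) (c x : E d) (s : ℝ), 0 < L →
  ‖evo (bp a L c) x s 0‖ ≤ C * (L ^ d)⁻¹ * (1 + |s| / L ^ 2) ^ (-(d : ℝ) / 2) * wE N (L + |s| / L) (x - (2 * s) • c)

/-- the properties of `cut` -/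
def CUTS (d : ℕ) : Prop :=
  (∀ (a : E d → ℝ) (L : ℝ) (c : E d) (t₀ R : ℝ) (Ω : Set (E d)) (h : E d → ℂ), Smo a → 0 < L → MB Ω → Bd R h →
    Measurable (cut (bp a L c) t₀ Ω h) ∧ (∃ b : ℝ, ∀ η, ‖cut (bp a L c) t₀ Ω h η‖ ≤ b) ∧
    (∀ x t, Uu (cut (bp a L c) t₀ Ω h) (x, t) = ∫ y in Ω, evo (bp a L c) (x - y) (t - t₀) 0 * Uu h (y, t₀)) ∧
    ∀ x t, Uu (fun η => bp a L c η * h η) (x, t) = ∫ y, evo (bp a L c) (x - y) (t - t₀) 0 * Uu h (y, t₀)) ∧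
  (∀ (ι : Type) (I : Finset ι) (a : ι → E d → ℂ) (t₀ R : ℝ) (Ω : Set (E d)) (h : E d → ℂ), MB Ω → Bd R h →
    (∀ i ∈ I, Measurable (a i)) → (∀ η, ∑ i ∈ I, ‖a i η‖ ^ 2 ≤ 1) →
    ∑ i ∈ I, en (cut (a i) t₀ Ω h) ≤ ∫ y in Ω, ‖Uu h (y, t₀)‖ ^ 2) ∧
  ∀ (ι : Type) (I : Finset ι) (a : E d → ℂ) (t₀ R : ℝ) (Ω : ι → Set (E d)) (h : E d → ℂ), (∀ i ∈ I, MB (Ω i)) →
    Bd R h → (∀ i ∈ I, ∀ j ∈ I, i ≠ j → Disjoint (Ω i) (Ω j)) →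
    cut a t₀ (⋃ i ∈ I, Ω i) h = fun η => ∑ i ∈ I, cut a t₀ (Ω i) h η

/-- **[CUT]** -/
def CUT (d : ℕ) : Prop := BAS d → KER d → CUTS d

/-- tails and sup bounds for `cut` -/
def TLS (d : ℕ) : Prop := ∀ a : E d → ℝ, Smo a → ∀ N : ℕ, ∃ C : ℝ, 0 ≤ C ∧
  ∀ (L : ℝ) (c : E d) (t₀ R : ℝ) (Ω : Set (E d)) (h : E d → ℂ) (x : E d) (t : ℝ), 0 < L → MB Ω → Bd R h →
    (∀ m : ℝ, 1 ≤ m → Metric.ball (x - (2 * (t - t₀)) • c) (m * (L + |t - t₀| / L)) ⊆ Ω →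
      ‖Uu (fun η => bp a L c η * h η) (x, t) - Uu (cut (bp a L c) t₀ Ω h) (x, t)‖ ^ 2 ≤
        C * (m ^ N)⁻¹ * (L ^ d)⁻¹ * en h) ∧
    ∀ A : ℝ, 0 ≤ A → |t - t₀| ≤ 2 * L ^ 2 → (∀ y ∈ Ω, ‖Uu h (y, t₀)‖ ≤ A) →
      ‖Uu (cut (bp a L c) t₀ Ω h) (x, t)‖ ≤ C * A

/-- **[TL]** -/
def TL (d : ℕ) : Prop := BAS d → KER d → CUTS d → TLS d

/-- localisation -/
def LOCZ (d : ℕ) : Prop := ∀ (R₀ R₁ : ℝ) (N : ℕ), 0 < R₀ → R₀ < R₁ → ∃ C : ℝ, 0 ≤ C ∧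
  ∀ (L : ℝ) (c : E d) (t₀ R : ℝ) (Ω : Set (E d)) (h : E d → ℂ), 0 < L → MB Ω → Bd R h → Nr R₀ L c h →
    ∃ h' : E d → ℂ, Bd (‖c‖ + R₁ / L) h' ∧ Nr R₁ L c h' ∧ en h' ≤ ∫ y in Ω, ‖Uu h (y, t₀)‖ ^ 2 ∧
      ∀ (x : E d) (t m : ℝ), 1 ≤ m → Metric.ball (x - (2 * (t - t₀)) • c) (m * (L + |t - t₀| / L)) ⊆ Ω →
        ‖Uu h (x, t) - Uu h' (x, t)‖ ^ 2 ≤ C * (m ^ N)⁻¹ * (L ^ d)⁻¹ * en h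

/-- finite speed -/
def FS (d : ℕ) : Prop := ∀ (R₀ : ℝ) (N : ℕ), 0 < R₀ → ∃ C : ℝ, 0 ≤ C ∧
  ∀ (L : ℝ) (c : E d) (R : ℝ) (h : E d → ℂ) (p p₀ : E d × ℝ) (ρ ρ₀ m : ℝ), 0 < L → 1 ≤ m → 0 ≤ ρ → Bd R h →
    Nr R₀ L c h → ‖p.1 - (2 * (p.2 - p₀.2)) • c - p₀.1‖ + ρ + m * (L + |p.2 - p₀.2| / L) ≤ ρ₀ →
    lE h p ρ ≤ 2 * lE h p₀ ρ₀ + C * (m ^ N)⁻¹ * (ρ / L) ^ d * en h

/-- reverse orthogonality -/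
def RORT (d : ℕ) : Prop := ∀ (ψ : E d → ℝ) (N : ℕ), Prt ψ → ∃ C : ℝ, 0 ≤ C ∧
  ∀ (M R : ℝ) (g : E d → ℂ) (p : E d × ℝ) (ρ m : ℝ), 1 ≤ M → 1 ≤ m → 0 ≤ ρ → Bd R g →
    ∑ θ ∈ Th d M, lE (cp ψ M θ g) p ρ ≤ 2 * lE g p (ρ + m * M) + C * (m ^ N)⁻¹ * ρ ^ d * en g

/-- **[FSR]** -/
def FSR (d : ℕ) : Prop := BAS d → BMP d → CUTS d → TLS d → LOCZ d ∧ FS d ∧ RORT d

/-- **[ORTC]** orthogonality at the critical scale -/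
def ORTC (d : ℕ) : Prop := ∀ R₀ : ℝ, 0 < R₀ → ∃ C : ℝ, 0 ≤ C ∧
  ∀ (r R : ℝ) (I : Finset (Zv d)) (V : Zv d → E d → ℂ), 0 < r → (∀ θ ∈ I, Bd R (V θ) ∧ Nr R₀ r (ce r θ) (V θ)) →
    en (fun η => ∑ θ ∈ I, V θ η) ≤ C * ∑ θ ∈ I, en (V θ) ∧
    ∀ (A : ℝ) (p : E d × ℝ), (∀ θ ∈ I, ∀ y, ‖Uu (V θ) (y, p.2)‖ ≤ A) →
      lE (fun η => ∑ θ ∈ I, V θ η) p r ≤ C * #I * r ^ d * A ^ 2

/-! ## velocity averaging -/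

/-- **[VA1]** -/
def VA1 (d : ℕ) : Prop := ∃ C : ℝ, 0 ≤ C ∧ ∀ (M s κ : ℝ) (k : E d) (Θ : Finset (Zv d)) (c : Zv d → ℂ),
  1 ≤ M → 0 < s → 0 < κ → Θ ⊆ Th d M → κ ≤ s * ‖k‖ →
  ∫ σ in Set.Icc (-s) s, ‖∑ θ ∈ Θ, c θ * Complex.exp (-(2 * Real.pi * Complex.I * ((2 * σ * ⟪k, ce M θ⟫ : ℝ) : ℂ)))‖ ^ 2 ≤
    C * s * M ^ d * (M⁻¹ + κ⁻¹) * ∑ θ ∈ Θ, ‖c θ‖ ^ 2

/-- velocity averaging, in measure -/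
def VA (d : ℕ) : Prop := ∃ C : ℝ, 0 ≤ C ∧ ∀ (M lam K Λ y : ℝ) (F : Zv d → E d → ℝ),
  1 ≤ M → 0 < lam → 1 ≤ K → 0 < y → (∀ θ, Measurable (F θ) ∧ Integrable (F θ) ∧ ∀ z, 0 ≤ F θ z ∧ F θ z ≤ Λ) →
  volume {p : E d × ℝ | |p.2| ≤ K * lam ∧ y ≤ ∑ θ ∈ Th d M, (F θ (p.1 - (2 * p.2) • ce M θ) -
      ⨍ z in Metric.ball (p.1 - (2 * p.2) • ce M θ) lam, F θ z)} ≤
    ENNReal.ofReal (C * (K * lam) * M ^ d * (M⁻¹ + (√K)⁻¹) * Λ * (∑ θ ∈ Th d M, ∫ z, F θ z) / y ^ 2)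

/-- **[VA2]** -/
def VA2 (d : ℕ) : Prop := BAS d → VA1 d → VA d

open Classical in
/-- one step of the chain: few cubes where the truncated density drops between the scales `ρ` and `ρ₂` -/
def STP (d : ℕ) : Prop := ∀ (ψ : E d → ℝ) (N : ℕ), Prt ψ → ∃ C : ℝ, 1 ≤ C ∧
  ∀ (g : E d → ℂ) (M Λ y ρ ρ₂ K m T : ℝ) (A : Finset (E d × ℝ)), Bd 3 g → 1 ≤ M → 0 < Λ → 0 < y → 1 ≤ K → 1 ≤ m →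
    0 < ρ → 10 * ρ ≤ ρ₂ → K * ρ₂ ≤ T → m * (M + K * ρ₂ / M) ≤ ρ → C * (m ^ N)⁻¹ * en g ≤ y →
    (∀ p ∈ A, 0 ≤ p.2 ∧ p.2 ≤ T ∧ C * Dn ψ M Λ g p ρ₂ + y ≤ Dn ψ M Λ g p ρ) →
    (#(A.image (cub ρ)) : ℝ) * ρ ^ (d + 1) * y ^ 2 ≤ C * T * M ^ d * (M⁻¹ + (√K)⁻¹) * Λ * en g

/-- **[STEP]** -/
def STEP (d : ℕ) : Prop := BAS d → FS d → VA d → STP d

/-! ## `TT*` bounds -/

open Classical in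
/-- restricted `TT*` bound with the lossy bound in time windows of length `τ₁` -/
def TTS (d : ℕ) : Prop := ∀ ε B : ℝ, 0 < ε → ∃ C : ℝ, 0 ≤ C ∧
  ∀ (ℓ τ₁ ρ n₁ n₂ β : ℝ) (V : E d → ℂ) (A : Finset (E d × ℝ)), 1 ≤ τ₁ → τ₁ ≤ ℓ → 1 ≤ ρ → 0 ≤ β → 0 ≤ n₁ → Bd (7 / 2) V →
    WG B ℓ A → (∀ p ∈ A, β ≤ ‖Uu V p‖) → (#A : ℝ) ≤ n₂ → (∀ p ∈ A, (#(A.filter (Nb ρ p)) : ℝ) ≤ n₁) →
    β ^ 2 * #A ≤ C * (τ₁ ^ ((d : ℝ) / (d + 1) + ε) + n₁ * τ₁ ^ (-(d : ℝ) / 2) + n₂ * ρ ^ (-(d : ℝ) / 2)) * en V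

/-- **[TTL]** -/
def TTL (d : ℕ) : Prop := BAS d → BMP d → KER d → T1 d → TTS d

/-- the linear bound with the local energy -/
def LCP (d : ℕ) : Prop := ∀ (B : ℝ) (N : ℕ), ∃ C : ℝ, 1 ≤ C ∧
  ∀ (ℓ r e β : ℝ) (V : E d → ℂ) (A : Finset (E d × ℝ)), C ≤ r → 1 ≤ e → C * e ≤ ℓ → 0 < β → Bd (13 / 4) V →
    WG B ℓ A → (∀ p ∈ A, β ≤ ‖Uu V p‖) → (#A : ℝ) ^ 8 ≤ r ^ d → (∀ p ∈ A, lE V p r ≤ e * β ^ 2) →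
    C * (r ^ N)⁻¹ * en V ≤ β ^ 2 → β ^ 2 * #A ≤ C * e ^ (8 / (4 * (d : ℝ) + 3)) * en V

/-- **[LOCP]** -/
def LOCP (d : ℕ) : Prop := BAS d → LOCZ d → TTS d → LCP d

/-- caps of size `1 / M` within `R₀ / r` of `c` -/
structure Cap (R₀ M r : ℝ) (c : E d) (Θ : Finset (Zv d)) : Prop where
  one : 1 ≤ R₀
  le : R₀ ≤ r
  rM : r ≤ M
  big : 20 ≤ M
  bd : ‖c‖ ≤ 5
  nr : ∀ θ ∈ Θ, r * ‖ce M θ - c‖ ≤ R₀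

/-- the sum of the kernels of the fine caps between far points -/
def KSS (d : ℕ) : Prop := ∀ (a : E d → ℝ) (R₀ : ℝ) (N : ℕ), Smo a → ∃ C : ℝ, 0 ≤ C ∧
  ∀ (M r : ℝ) (c : E d) (Θ : Finset (Zv d)) (p p' : E d × ℝ), Cap R₀ M r c Θ →
    (M ^ 3 ≤ ‖p'.1 - p.1‖ ∨ M ^ 3 ≤ |p'.2 - p.2|) →
    ∑ θ ∈ Θ, ‖evo (bp a M (ce M θ)) (p'.1 - p.1) (p'.2 - p.2) 0‖ ≤
      C * (r ^ d)⁻¹ * (kD (4 * R₀) r c p p' + (r / M) ^ N)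

/-- **[KSUM]** -/
def KSUM (d : ℕ) : Prop := KER d → KSS d

/-- Bessel inequality with a set of caps for each block -/
def BSS (d : ℕ) : Prop := ∀ (R₀ R₁ : ℝ) (N : ℕ), 0 < R₁ → R₁ ≤ R₀ → ∃ C : ℝ, 0 ≤ C ∧
  ∀ (M r R σ : ℝ) (c : E d) (Θ : Finset (Zv d)) (h : Zv d → E d → ℂ) (ι β : Type) (I : Finset ι)
    (p : ι → E d × ℝ) (bl : ι → β) (L : β → Finset (Zv d)), Cap R₀ M r c Θ →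
    (∀ θ ∈ Θ, Bd R (h θ) ∧ Nr R₁ M (ce M θ) (h θ)) → (∀ b, L b ⊆ Θ) →
    (∀ i ∈ I, ∀ j ∈ I, bl i ≠ bl j → M ^ 3 ≤ ‖(p j).1 - (p i).1‖ ∨ M ^ 3 ≤ |(p j).2 - (p i).2|) → 0 ≤ σ →
    (∀ i ∈ I, ∑ j ∈ I, kk N (4 * R₀) r c p bl i j ≤ σ) →
    ∑ i ∈ I, ‖∑ θ ∈ L (bl i), Uu (h θ) (p i)‖ ^ 2 ≤ C * (r ^ d)⁻¹ * (σ + #I * (r / M) ^ N) * ∑ θ ∈ Θ, en (h θ)

/-- **[BES]** -/
def BES (d : ℕ) : Prop := BAS d → BMP d → KER d → KSS d → BSS d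

/-- local Bessel inequality: only the light part of the energy is seen -/
def LBS (d : ℕ) : Prop := ∀ (ψ : E d → ℝ) (R₀ : ℝ) (N : ℕ), Prt ψ → 2 * (d : ℝ) ≤ R₀ → ∃ C : ℝ, 1 ≤ C ∧
  ∀ (g : E d → ℂ) (M r m Λ ρ₀ ρ₂ T a σ : ℝ) (c : E d) (Θ : Finset (Zv d)) (ι β : Type) (J : Finset ι)
    (p : ι → E d × ℝ) (bl : ι → β) (base : β → E d × ℝ) (L : β → Finset (Zv d)) (p₀ : E d × ℝ),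
    Bd 3 g → Cap R₀ M r c Θ → Θ ⊆ Th d M → (∀ b, L b ⊆ Θ) → 1 ≤ m → 0 ≤ ρ₀ → ρ₀ ≤ T → ρ₀ ≤ ρ₂ → m * (M + 2 * T / M) ≤ ρ₀ →
    (∀ i ∈ J, ∀ j ∈ J, bl i ≠ bl j → M ^ 3 ≤ ‖(p j).1 - (p i).1‖ ∨ M ^ 3 ≤ |(p j).2 - (p i).2|) →
    (∀ j ∈ J, Nb (ρ₀ / 20) (base (bl j)) (p j) ∧ |(p j).2 - p₀.2| ≤ T ∧ a ≤ ‖Uu (cs ψ M (L (bl j)) g) (p j)‖ ∧
      ∀ θ ∈ L (bl j), ‖(p j).1 - (2 * ((p j).2 - p₀.2)) • ce M θ - p₀.1‖ + ρ₀ ≤ ρ₂ ∧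
        lE (cp ψ M θ g) (base (bl j)) (5 * ρ₀) ≤ Λ * (5 * ρ₀) ^ d) →
    0 ≤ σ → (∀ i ∈ J, ∑ j ∈ J, kk N (4 * R₀) r c p bl i j ≤ σ) → #J * (r / M) ^ N ≤ 1 →
    0 < a → C * (m ^ N)⁻¹ * en g ≤ a ^ 2 → C * (m ^ N)⁻¹ * en g ≤ Λ →
    a ^ 2 * #J ≤ C * (r ^ d)⁻¹ * (σ + 1) * ∑ θ ∈ Θ, min (lE (cp ψ M θ g) p₀ ρ₂) (Λ * ρ₂ ^ d)

/-- **[LB]** -/
def LB (d : ℕ) : Prop := BAS d → LOCZ d → FS d → BSS d → LBS d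

open Classical in
/-- **[REC]** the Schur sum closes -/
def REC (d : ℕ) : Prop := ∃ c₀ : ℝ, 0 < c₀ ∧ ∀ (N : ℕ) (R r τ₀ τm σ₀ : ℝ) (c : E d) (ι β : Type) (I : Finset ι)
  (p : ι → E d × ℝ) (bl : ι → β), 0 ≤ R → 0 < r → 0 < τ₀ → 0 ≤ σ₀ → (∀ i ∈ I, ∀ j ∈ I, |(p j).2 - (p i).2| ≤ τm) →
    (∀ i ∈ I, ∀ j ∈ I, bl i = bl j → |(p j).2 - (p i).2| ≤ τ₀) →
    (∀ i ∈ I, ∑ j ∈ I.filter (fun j => |(p j).2 - (p i).2| ≤ τ₀), kk N R r c p bl i j ≤ σ₀) →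
    (∀ σ : ℝ, 0 ≤ σ → (∀ i ∈ I, ∑ j ∈ I, kk N R r c p bl i j ≤ σ) → ∀ i ∈ I, ∀ τ : ℝ, τ₀ ≤ τ → τ ≤ τm →
      (#(I.filter fun j => |(p j).2 - (p i).2| ≤ τ ∧
        ‖(p j).1 - (p i).1 - (2 * ((p j).2 - (p i).2)) • c‖ ≤ R * τ / r) : ℝ) ≤
        (σ + 1) * c₀ * (τ / r ^ 2) ^ ((d : ℝ) / 2) * (τ / τm) ^ (1 / 4 : ℝ)) →
    ∀ i ∈ I, ∑ j ∈ I, kk N R r c p bl i j ≤ 2 * σ₀ + 1

end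

end Vale.Agent.P076N.KEY
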