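import Vale.Agent.P076N.KEY.Sc

/-!
# P076N / KEY : row ABS
-/

set_option linter.all false

open MeasureTheory Finset

namespace Vale.Agent.P076N.KEY

open Vale.Agent.P076 Vale.Agent.P076N Vale.Agent.P076T

noncomputable section

open Classical

namespace AbsAux

variable {d : ℕ}

/-- the cell of side `1 / r` -/
def cel (r : ℝ) (c : Zv d) : Set (E d) :=
  WithLp.ofLp ⁻¹' Set.pi Set.univ fun l => Set.Ico (c l / r) ((c l + 1) / r)

theorem cel_meas (r : ℝ) (c : Zv d) : MeasurableSet (cel r c) :=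
  (PiLp.volume_preserving_ofLp (Fin d)).measurable (MeasurableSet.univ_pi fun _ => measurableSet_Ico)

theorem cel_vol {r : ℝ} (hr : 0 < r) (c : Zv d) : (volume : Measure (E d)).real (cel r c) = (r ^ d)⁻¹ := by
  rw [Measure.real, cel, (PiLp.volume_preserving_ofLp (Fin d)).measure_preimage
    (MeasurableSet.univ_pi fun _ => measurableSet_Ico).nullMeasurableSet,
    Real.volume_pi_Ico_toReal fun l => div_le_div_of_nonneg_right (by linarith) hr.le]
  simp only [← sub_div, add_sub_cancel_left, prod_const, card_univ, Fintype.card_fin, one_div, inv_pow]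

theorem cel_floor {r : ℝ} (hr : 0 < r) {c : Zv d} {η : E d} (h : η ∈ cel r c) (l : Fin d) : ⌊η l * r⌋ = c l := by
  have := h l (Set.mem_univ l)
  rw [Set.mem_Ico, div_le_iff₀ hr, lt_div_iff₀ hr] at this
  exact Int.floor_eq_iff.2 this

theorem cel_near {r : ℝ} (hr : 0 < r) {c : Zv d} {η : E d} (h : η ∈ cel r c) : ‖η - ce r c‖ ≤ d * r⁻¹ :=
  norm_le_mul fun l => by
    have := h l (Set.mem_univ l)
    rw [Set.mem_Ico, add_div, one_div, div_eq_inv_mul] at this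
    simp only [ce, toV, PiLp.sub_apply, PiLp.smul_apply, smul_eq_mul]
    rw [abs_le]
    constructor <;> linarith [this.1, this.2, inv_pos.2 hr]

theorem cel_count {r : ℝ} (hr : 0 < r) (I : Finset (Zv d)) {U : Set (E d)} (hU : Bornology.IsBounded U)
    (h : ∀ c ∈ I, cel r c ⊆ U) : (#I : ℝ) ≤ (volume : Measure (E d)).real U * r ^ d := by
  have hf := hU.measure_lt_top (μ := (volume : Measure (E d)))
  have h1 : (volume : Measure (E d)).real (⋃ c ∈ I, cel r c) = ∑ c ∈ I, (volume : Measure (E d)).real (cel r c) :=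
    measureReal_biUnion_finset (fun c _ c' _ hc => Set.disjoint_left.2 fun η h1 h2 =>
      hc (funext fun l => (cel_floor hr h1 l).symm.trans (cel_floor hr h2 l))) (fun c _ => cel_meas r c)
      fun c hc => ((measure_mono (h c hc)).trans_lt hf).ne
  have h2 : (volume : Measure (E d)).real (⋃ c ∈ I, cel r c) ≤ (volume : Measure (E d)).real U :=
    measureReal_mono (Set.iUnion₂_subset h) hf.ne
  rw [h1, sum_congr rfl fun c _ => cel_vol hr c, sum_const, nsmul_eq_mul, ← div_eq_mul_inv,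
    div_le_iff₀ (pow_pos hr d)] at h2
  exact h2

theorem bp_nr {ψ : E d → ℝ} (hψ : Prt ψ) {M : ℝ} (hM : 0 < M) {c η : E d} (h : bp ψ M c η ≠ 0) :
    M * ‖η - c‖ ≤ d := by
  have h1 := norm_le_mul (r := 1) fun l => (hψ.supp _ (Complex.ofReal_ne_zero.1 h) l).le
  rwa [norm_smul, Real.norm_of_nonneg hM.le, mul_one] at h1

theorem bp_sq {ψ : E d → ℝ} (hψ : Prt ψ) {M : ℝ} (hM : 0 < M) (T : Finset (Zv d)) (η : E d) :
    ∑ θ ∈ T, ‖bp ψ M (ce M θ) η‖ ^ 2 ≤ 1 := by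
  refine le_trans (sum_le_sum fun θ _ => ?_) (hψ.le1 T (M • η))
  have e : M • (η - ce M θ) = M • η - toV θ := by rw [ce, smul_sub, smul_inv_smul₀ hM.ne']
  have h1 := hψ.le1 {θ} (M • η)
  rw [sum_singleton] at h1
  rw [bp, e, Complex.norm_real, Real.norm_of_nonneg (hψ.nn _), sq]
  exact mul_le_of_le_one_right (hψ.nn _) h1

theorem bp_meas {ψ : E d → ℝ} (hψ : Prt ψ) (M : ℝ) (c : E d) : Measurable (bp ψ M c) :=
  (Complex.continuous_ofReal.comp (hψ.smo.cd.continuous.comp (by fun_prop))).measurable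

theorem cub_near {τ : ℝ} (hτ : 0 < τ) (p : E d × ℝ) :
    ‖p.1 - (cor τ (cub τ p)).1‖ ≤ d * τ ∧ |p.2 - (cor τ (cub τ p)).2| ≤ τ := by
  have key : ∀ x : ℝ, |x - τ * ⌊x / τ⌋| ≤ τ := fun x => by
    have h1 := Int.floor_le (x / τ)
    have h2 := Int.lt_floor_add_one (x / τ)
    rw [le_div_iff₀ hτ] at h1
    rw [div_lt_iff₀ hτ] at h2
    rw [abs_le]
    constructor <;> linarith
  exact ⟨norm_le_mul fun l => key _, key _⟩

/-- the part of `f` in a set of caps is small near a ball with small energy -/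
theorem small (hB : BAS d) (hC : CUTS d) (hT : TLS d) {ψ : E d → ℝ} (hψ : Prt ψ) (N : ℕ) : ∃ C : ℝ, 0 ≤ C ∧
    ∀ (M m ρ : ℝ) (f : E d → ℂ) (T : Finset (Zv d)) (p p₀ : E d × ℝ), 1 ≤ M → 1 ≤ m → Bd 3 f → T ⊆ Th d M →
      ‖p.1 - p₀.1‖ + 8 * |p.2 - p₀.2| + m * (M + |p.2 - p₀.2| / M) ≤ ρ →
      ‖∑ θ ∈ T, Uu (cp ψ M θ f) p‖ ^ 2 ≤ 2 * (22 * d) ^ d * lE f p₀ ρ + C * M ^ d * (m ^ N)⁻¹ * en f := by
  obtain ⟨C, hC0, hT⟩ := hT ψ hψ.smo N
  refine ⟨2 * 121 ^ d * C, by positivity, fun M m ρ f T p p₀ hM hm hf hTh hρ => ?_⟩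
  have hM0 : 0 < M := by linarith
  have hΩ : MB (Metric.ball p₀.1 ρ) := ⟨measurableSet_ball, Metric.isBounded_ball⟩
  have hen : 0 ≤ en f := (hB.1 3 f hf).2.2.1
  set k : Zv d → E d → ℂ := fun θ => cut (bp ψ M (ce M θ)) p₀.2 (Metric.ball p₀.1 ρ) f with hk
  have h1 : ∀ θ ∈ T, ‖Uu (cp ψ M θ f) p‖ ^ 2 ≤
      2 * ((2 * d / M) ^ d * en (k θ)) + 2 * (C * (m ^ N)⁻¹ * (M ^ d)⁻¹ * en f) := fun θ hθ => by
    have h4 := mem_Th_norm (hTh hθ)
    have a1 := (hT M (ce M θ) p₀.2 3 _ f p.1 p.2 hM0 hΩ hf).1 m hm (Metric.ball_subset_ball' (by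
      rw [dist_eq_norm, sub_right_comm]
      have b1 := norm_sub_le (p.1 - p₀.1) ((2 * (p.2 - p₀.2)) • ce M θ)
      rw [norm_smul, Real.norm_eq_abs, abs_mul, abs_two] at b1
      have b2 := mul_le_mul_of_nonneg_left h4 (by positivity : 0 ≤ 2 * |p.2 - p₀.2|)
      linarith))
    obtain ⟨a2, a3, -⟩ := hC.1 ψ M (ce M θ) p₀.2 3 _ f hψ.smo hM0 hΩ hf
    have a4 : Nr d M (ce M θ) (k θ) := fun η hη => bp_nr hψ hM0 (left_ne_zero_of_mul (left_ne_zero_of_mul hη))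
    have a5 : Bd (4 + d) (k θ) := ⟨a2, a3, fun η hη => by
      have b1 := norm_add_le (η - ce M θ) (ce M θ)
      have b2 := (le_mul_of_one_le_left (norm_nonneg _) hM).trans (a4 η hη)
      rw [sub_add_cancel] at b1
      linarith⟩
    have a6 := (hB.1 _ _ a5).2.2.2.2.2.2 d M (ce M θ) p hM0 (Nat.cast_nonneg d) a4
    have a7 : ‖Uu (cp ψ M θ f) p‖ ≤ ‖Uu (cp ψ M θ f) p - Uu (k θ) p‖ + ‖Uu (k θ) p‖ := norm_le_norm_sub_add _ _
    have a8 : ‖Uu (cp ψ M θ f) p - Uu (k θ) p‖ ^ 2 ≤ C * (m ^ N)⁻¹ * (M ^ d)⁻¹ * en f := a1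
    have a9 := pow_le_pow_left₀ (norm_nonneg _) a7 2
    nlinarith [sq_nonneg (‖Uu (cp ψ M θ f) p - Uu (k θ) p‖ - ‖Uu (k θ) p‖)]
  have h2 : ∑ θ ∈ T, en (k θ) ≤ lE f p₀ ρ :=
    hC.2.1 _ T (fun θ => bp ψ M (ce M θ)) p₀.2 3 _ f hΩ hf (fun θ _ => bp_meas hψ _ _) (bp_sq hψ hM0 T)
  have h3 : (#T : ℝ) ≤ 11 ^ d * M ^ d := (Nat.cast_le.2 (card_le_card hTh)).trans (hB.2.2.2.2 M hM)
  have h4 : ∑ θ ∈ T, ‖Uu (cp ψ M θ f) p‖ ^ 2 ≤
      2 * ((2 * d / M) ^ d * lE f p₀ ρ) + 11 ^ d * M ^ d * (2 * (C * (m ^ N)⁻¹ * (M ^ d)⁻¹ * en f)) := by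
    refine (sum_le_sum h1).trans ?_
    rw [sum_add_distrib, ← mul_sum, ← mul_sum, sum_const, nsmul_eq_mul]
    gcongr
  refine (pow_le_pow_left₀ (norm_nonneg _) (norm_sum_le _ _) 2).trans (sq_sum_le_card_mul_sum_sq.trans
    ((mul_le_mul h3 h4 (by positivity) (by positivity)).trans_eq ?_))
  rw [div_pow, show (22 : ℝ) * d = 11 * (2 * d) by ring, mul_pow 11, show (121 : ℝ) = 11 * 11 by norm_num, mul_pow 11]
  field_simp

end AbsAux

theorem abs_ (d : ℕ) (hd : 2 ≤ d) : ABS d := fun hB hC hT ψ hψ => by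
  obtain ⟨C, hC0, hS⟩ := AbsAux.small hB hC hT hψ (401 * d + 1300 * (d + 2) * (20 * d) + 1)
  have hd' : (2 : ℝ) ≤ d := by exact_mod_cast hd
  have hK : (0 : ℝ) ≤ (22 * d) ^ d := by positivity
  refine ⟨3 * d + 1 + 64 * (22 * d) ^ d + 128 * C, fun S g α φ q hw hg hα hen ⟨h, hh, hen', hφ, hE⟩ => ?_⟩
  have hM := S.M_pos
  have hr := S.r_pos
  have hw0 := S.w_pos
  refine ⟨(Th d S.M).filter fun θ => cp ψ S.M θ h ≠ 0, ?_, fun T hT hdis p hp => ?_⟩
  · refine (AbsAux.cel_count hr _ (Bornology.IsBounded.thickening (δ := (S.w ^ 48)⁻¹)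
      ((Metric.isBounded_closedBall (x := (0 : E d)) (r := 3)).subset fun η hη =>
        mem_closedBall_zero_iff.2 (hh.supp η hη))) fun c hc η' hη' => ?_).trans
      (mul_le_mul_of_nonneg_right hφ (by positivity))
    obtain ⟨θ, hθ, rfl⟩ := mem_image.1 hc
    obtain ⟨η, hη⟩ := Function.ne_iff.1 (mem_filter.1 hθ).2
    refine Metric.mem_thickening_iff.2 ⟨η, right_ne_zero_of_mul hη, ?_⟩
    have a1 := AbsAux.cel_near hr hη'
    have a2 : ‖ce S.M θ - ce S.r (S.par θ)‖ ≤ d * S.r⁻¹ := by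
      rw [← div_eq_mul_inv, le_div_iff₀' hr]
      exact S.par_near θ
    have a3 : ‖η - ce S.M θ‖ ≤ d * S.r⁻¹ := by
      rw [← div_eq_mul_inv, le_div_iff₀' hr]
      exact (mul_le_mul_of_nonneg_right S.r_le_M (norm_nonneg _)).trans
        (AbsAux.bp_nr hψ hM (left_ne_zero_of_mul hη))
    have a4 : dist η' η ≤ 3 * d * S.r⁻¹ := by
      have := dist_triangle4 η' (ce S.r (S.par θ)) (ce S.M θ) η
      rw [dist_comm (ce S.r (S.par θ)), dist_comm (ce S.M θ) η, dist_eq_norm η' (ce _ _), dist_eq_norm (ce _ _),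
        dist_eq_norm η] at this
      linarith
    refine a4.trans_lt ?_
    rw [← div_eq_mul_inv, ← one_div, div_lt_div_iff₀ hr (S.pw_pos _), one_mul]
    exact (mul_lt_mul_of_pos_right (by linarith : 3 * (d : ℝ) < 3 * d + 1) (S.pw_pos _)).trans_le
      ((S.mul_pw_le (by linarith) (by norm_num)).trans S.le_r)
  · obtain ⟨hf, -, hef⟩ := hB.2.2.1 3 g h hg hh
    have e : Uu (cs ψ S.M T g) p = ∑ θ ∈ T, Uu (cp ψ S.M θ (g - h)) p := by
      rw [((hB.2.2.2.1 ψ 3 S.M g hψ hM hg).2.1 T).2.2.2 p]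
      refine sum_congr rfl fun θ hθ => ?_
      have h0 : cp ψ S.M θ h = 0 := by
        by_contra h0
        exact disjoint_left.1 hdis hθ (mem_filter.2 ⟨hT hθ, h0⟩)
      congr 1
      funext η
      have := congrFun h0 η
      simp only [cp, Pi.sub_apply, Pi.zero_apply, mul_sub] at this ⊢
      rw [this, sub_zero]
    have hl := S.l1_pos d
    obtain ⟨n1, n2⟩ := AbsAux.cub_near hl p
    rw [hp] at n1 n2
    have n3 : S.w * S.M ≤ S.l1 d := by
      rw [S.l1_eq]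
      exact (mul_le_mul_of_nonneg_left S.M_le hw0.le).trans (S.mul_pw_le le_rfl (by omega))
    have n4 : S.w * (|p.2 - (cor (S.l1 d) q).2| / S.M) ≤ S.l1 d := by
      rw [mul_div_left_comm]
      exact (mul_le_of_le_one_right (abs_nonneg _) ((div_le_one hM).2 S.w_le_M)).trans n2
    have h1 := hS S.M S.w (100 * d * S.l1 d) (g - h) T p (cor (S.l1 d) q) S.one_le_M S.one_le_w hf hT
      (by nlinarith)
    have hα2 : 0 < α ^ 2 := by positivity
    have h2 : 2 * (22 * (d : ℝ)) ^ d * lE (g - h) (cor (S.l1 d) q) (100 * d * S.l1 d) ≤ α ^ 2 / 32 := by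
      refine (mul_le_mul_of_nonneg_left hE (by positivity)).trans ?_
      have b1 : 64 * (22 * (d : ℝ)) ^ d ≤ S.l d ^ (10 * d) := by
        unfold Sc.l
        rw [← pow_mul]
        have := S.mul_pw_le (c := 64 * (22 * (d : ℝ)) ^ d) (by linarith) (a := 0)
          (b := 1300 * (d + 2) * (10 * d)) (Nat.mul_pos (by omega) (by omega))
        rwa [pow_zero, mul_one] at this
      rw [← mul_assoc, ← div_eq_mul_inv, div_eq_inv_mul (α ^ 2)]
      refine mul_le_mul_of_nonneg_right ?_ hα2.le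
      rw [div_le_iff₀ (pow_pos (S.l_pos d) _)]
      linarith
    have h3 : C * S.M ^ d * (S.w ^ (401 * d + 1300 * (d + 2) * (20 * d) + 1))⁻¹ * en (g - h) ≤ α ^ 2 / 32 := by
      have b1 : S.M ^ d ≤ S.w ^ (401 * d) := by
        rw [pow_mul]
        exact pow_le_pow_left₀ hM.le S.M_le d
      have b2 : en (g - h) ≤ 4 * (S.w ^ (1300 * (d + 2) * (20 * d)) * α ^ 2) := by
        have := mul_le_mul_of_nonneg_right (pow_le_pow_right₀ (S.one_le_l d) (by omega : 2 * d ≤ 20 * d)) hα2.le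
        rw [pow_mul]
        unfold Sc.l at this hen hen'
        linarith
      calc _ ≤ C * S.w ^ (401 * d) * (S.w ^ (401 * d + 1300 * (d + 2) * (20 * d) + 1))⁻¹ *
            (4 * (S.w ^ (1300 * (d + 2) * (20 * d)) * α ^ 2)) := by
            have := (hB.1 3 _ hf).2.2.1
            gcongr
        _ = 4 * C / S.w * α ^ 2 := by
            rw [pow_succ, pow_add]
            field_simp
        _ ≤ 32⁻¹ * α ^ 2 := mul_le_mul_of_nonneg_right (by rw [div_le_iff₀ hw0]; linarith) hα2.le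
        _ = _ := by ring
    rw [e]
    exact (pow_le_pow_iff_left₀ (norm_nonneg _) (by positivity) two_ne_zero).1 (h1.trans (by linarith))

end

end Vale.Agent.P076N.KEY
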