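import Vale.Agent.P076N.KEY.Sc

/-!
# P076N / KEY : row BAD, few crowded caps
-/

set_option linter.all false

open MeasureTheory Finset

namespace Vale.Agent.P076N.KEY

open Vale.Agent.P076 Vale.Agent.P076N Vale.Agent.P076T

noncomputable section

variable {d : ℕ}

namespace BadP

open Classical in
theorem caps {r W s : ℝ} (hr : 0 < r) (hW : 2 ≤ W) (hs : s ≠ 0) (y : E d) (I : Finset (Zv d)) :
    (#(I.filter fun c => ‖y - (2 * s) • ce r c‖ ≤ W * |s| / r) : ℝ) ≤ (2 * W) ^ d := by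
  have h := card_ball (r := 1) (T := W / 2) one_pos (by linarith)
    (I.filter fun c => ‖y - (2 * s) • ce r c‖ ≤ W * |s| / r) (fun c => (toV c : E d)) (by
      intro i _ j _ h
      funext k
      simpa [toV] using h k) ((r / (2 * s)) • y) (by
      intro c hc k
      have h1 := (abs_apply_le (y - (2 * s) • ce r c) k).trans (mem_filter.1 hc).2
      have h0 : 0 < |s| := abs_pos.2 hs
      have e : (toV c : E d) k - ((r / (2 * s)) • y) k = -(r / (2 * s)) * (y - (2 * s) • ce r c) k := by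
        simp only [ce, PiLp.smul_apply, PiLp.sub_apply, smul_eq_mul]
        field_simp
        ring
      rw [e, abs_mul, abs_neg, abs_div, abs_mul, abs_of_pos hr, abs_two]
      calc r / (2 * |s|) * |(y - (2 * s) • ce r c) k| ≤ r / (2 * |s|) * (W * |s| / r) :=
            mul_le_mul_of_nonneg_left h1 (by positivity)
        _ = W / 2 := by field_simp)
  exact h.trans (pow_le_pow_left₀ (by positivity) (by linarith) d)

theorem term {x : ℝ} {k : ℕ} (h : 4 ^ k ≤ x) : x⁻¹ ^ ((d : ℝ) / 2) ≤ ((2 : ℝ) ^ k)⁻¹ ^ d := by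
  have h0 : (0 : ℝ) < 4 ^ k := by positivity
  have h1 : x⁻¹ ≤ ((2 : ℝ) ^ k)⁻¹ ^ 2 := by
    rw [inv_pow, ← pow_mul, mul_comm, pow_mul]
    exact inv_anti₀ (by positivity) (by norm_num; exact h)
  refine (Real.rpow_le_rpow (inv_pos.2 (h0.trans_le h)).le h1 (by positivity)).trans (le_of_eq ?_)
  rw [← Real.rpow_natCast, ← Real.rpow_mul (by positivity), ← Real.rpow_natCast _ d]
  congr 1
  push_cast
  ring

theorem one_add {b : ℝ} (hb : 0 ≤ b) (d : ℕ) : (1 + b) ^ d ≤ 2 ^ d * (1 + b ^ d) := by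
  rcases le_total b 1 with h | h
  · calc (1 + b) ^ d ≤ 2 ^ d := pow_le_pow_left₀ (by positivity) (by linarith) d
      _ ≤ _ := le_mul_of_one_le_right (by positivity) (le_add_of_nonneg_right (by positivity))
  · calc (1 + b) ^ d ≤ (2 * b) ^ d := pow_le_pow_left₀ (by positivity) (by linarith) d
      _ = 2 ^ d * b ^ d := mul_pow _ _ _
      _ ≤ _ := by gcongr; linarith

end BadP

open BadP in
theorem bad (d : ℕ) (hd : 2 ≤ d) : BAD d := by
  classical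
  obtain ⟨w₀, hw₀⟩ := exists_log 2600 (4 * 352 ^ d)
  refine ⟨max w₀ 100, fun S A p I hw hP hI => ?_⟩
  obtain ⟨n, hn1, hn2, hn3⟩ := hw₀ S.w ((le_max_left _ _).trans hw)
  have hw1 : 100 ≤ S.w := (le_max_right _ _).trans hw
  have hw0 := S.w_pos
  have hr := S.r_pos
  have hs := S.s0_pos
  have hr2 : 0 < S.r ^ 2 := by positivity
  have hwr : S.w ^ 2 ≤ S.r := (S.pw_le (by norm_num)).trans S.le_r
  set A₀ := A.filter fun p' => S.r ^ 2 ≤ |p'.2 - p.2| ∧ |p'.2 - p.2| ≤ 2 * S.t0 ∧ ‖p'.1 - p.1‖ ≤ 11 * |p'.2 - p.2|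
    with hA₀
  set f : E d × ℝ → ℝ := fun p' => (S.r ^ 2 / |p'.2 - p.2|) ^ ((d : ℝ) / 2) with hf
  have f0 : ∀ p', 0 ≤ f p' := fun p' => by positivity
  have h1 : ∑ c ∈ I, S.crw A p (ce S.r c) ≤ (2 * S.w ^ 2) ^ d * ∑ p' ∈ A₀, f p' := by
    have a1 : ∀ c ∈ I, S.crw A p (ce S.r c) ≤ ∑ p' ∈ A₀,
        if ‖p'.1 - p.1 - (2 * (p'.2 - p.2)) • ce S.r c‖ ≤ S.w ^ 2 * |p'.2 - p.2| / S.r then f p' else 0 := by
      intro c hc
      rw [← sum_filter]
      refine sum_le_sum_of_subset_of_nonneg (fun p' hp' => ?_) fun _ _ _ => f0 _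
      obtain ⟨b0, b1, b2, b3⟩ := mem_filter.1 hp'
      refine mem_filter.2 ⟨mem_filter.2 ⟨b0, b1, b2, ?_⟩, b3⟩
      have b4 := norm_add_le (p'.1 - p.1 - (2 * (p'.2 - p.2)) • ce S.r c) ((2 * (p'.2 - p.2)) • ce S.r c)
      rw [sub_add_cancel, norm_smul, Real.norm_eq_abs, abs_mul, abs_two] at b4
      have b5 : S.w ^ 2 * |p'.2 - p.2| / S.r ≤ |p'.2 - p.2| := by
        rw [div_le_iff₀ hr, mul_comm]
        exact mul_le_mul_of_nonneg_left hwr (abs_nonneg _)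
      nlinarith [mul_le_mul_of_nonneg_left (hI c hc) (abs_nonneg (p'.2 - p.2))]
    refine (sum_le_sum a1).trans ?_
    rw [sum_comm, mul_sum]
    refine sum_le_sum fun p' hp' => ?_
    rw [← sum_filter, sum_const, nsmul_eq_mul]
    refine mul_le_mul_of_nonneg_right (caps hr (by nlinarith) ?_ _ I) (f0 _)
    exact abs_pos.1 (hr2.trans_le (mem_filter.1 hp').2.1)
  have hk : ∀ p' ∈ A₀, ∃ k : ℕ, 4 ^ k ≤ |p'.2 - p.2| / S.r ^ 2 ∧ |p'.2 - p.2| / S.r ^ 2 < 4 ^ (k + 1) := fun p' hp' =>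
    exists_nat_pow_near (by rw [le_div_iff₀ hr2, one_mul]; exact (mem_filter.1 hp').2.1) (by norm_num)
  choose! k hk using hk
  have ht0 : S.t0 * S.w ^ 16 = S.s0 ^ 2 := div_mul_cancel₀ _ (S.pw_pos _).ne'
  have h88 : 88 * S.t0 ≤ S.s0 ^ 2 := by
    rw [S.t0_eq, S.s0_sq]
    exact S.mul_pw_le (by linarith) (by norm_num)
  have hk2 : ∀ p' ∈ A₀, 4 ^ k p' * S.r ^ 2 ≤ 2 * S.t0 := fun p' hp' =>
    ((le_div_iff₀ hr2).1 (hk p' hp').1).trans (mem_filter.1 hp').2.2.1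
  have hk3 : ∀ p' ∈ A₀, k p' ∈ range (n + 1) := by
    intro p' hp'
    have a1 : (2 : ℝ) ^ k p' ≤ 4 ^ k p' := pow_le_pow_left₀ (by norm_num) (by norm_num) _
    have a2 : (4 : ℝ) ^ k p' ≤ 4 ^ k p' * S.r ^ 2 := le_mul_of_one_le_right (by positivity) (one_le_pow₀ S.one_le_r)
    have a3 : (2 : ℝ) ^ k p' ≤ 2 ^ n := by
      have := S.s0_sq
      have := S.t0_pos
      linarith [hk2 p' hp']
    exact mem_range.2 (Nat.lt_succ_of_le ((pow_le_pow_iff_right₀ (by norm_num)).1 a3))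
  have h2 : ∑ p' ∈ A₀, f p' ≤ (n + 1 : ℕ) * (S.w ^ 2 * 2 ^ d * (1 + (88 * S.r / S.w ^ 8) ^ d)) := by
    rw [← sum_fiberwise_of_maps_to hk3]
    refine (sum_le_card_nsmul _ _ _ fun j _ => ?_).trans (by rw [card_range, nsmul_eq_mul])
    rcases (A₀.filter fun p' => k p' = j).eq_empty_or_nonempty with h | ⟨p₁, hp₁⟩
    · rw [h, sum_empty]; positivity
    have a0 := hk2 p₁ (mem_filter.1 hp₁).1
    rw [(mem_filter.1 hp₁).2] at a0
    have a4 : (1 : ℝ) ≤ 4 ^ j := one_le_pow₀ (by norm_num)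
    have a5 : 1 ≤ S.r ^ 2 := one_le_pow₀ S.one_le_r
    have a1 := hP p (44 * (4 ^ j * S.r ^ 2)) (by nlinarith) (by linarith)
    have a2 : (#(A₀.filter fun p' => k p' = j) : ℝ) ≤ #(A.filter (Nb (44 * (4 ^ j * S.r ^ 2)) p)) := by
      refine Nat.cast_le.2 (card_le_card fun p' hp' => ?_)
      obtain ⟨b0, b1⟩ := mem_filter.1 hp'
      have b2 := (hk p' b0).2
      rw [b1, div_lt_iff₀ hr2, pow_succ] at b2
      obtain ⟨b3, -, -, b4⟩ := mem_filter.1 b0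
      exact mem_filter.2 ⟨b3, by linarith, by linarith [abs_nonneg (p'.2 - p.2)]⟩
    have a3 : ∑ p' ∈ A₀.filter fun p' => k p' = j, f p' ≤ #(A₀.filter fun p' => k p' = j) * ((2 : ℝ) ^ j)⁻¹ ^ d := by
      rw [← nsmul_eq_mul]
      refine sum_le_card_nsmul _ _ _ fun p' hp' => ?_
      obtain ⟨b0, b1⟩ := mem_filter.1 hp'
      have b2 := (hk p' b0).1
      rw [b1] at b2
      simpa only [hf, inv_div] using term (d := d) b2
    have b2 : (0 : ℝ) < 2 ^ j := by positivity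
    have b4 : (4 : ℝ) ^ j = (2 ^ j) ^ 2 := by rw [← pow_mul, mul_comm, pow_mul]; norm_num
    have a6 : 44 * (4 ^ j * S.r ^ 2) / S.s0 * (2 ^ j)⁻¹ ≤ 88 * S.r / S.w ^ 8 := by
      have c1 : 2 ^ j * S.r * S.w ^ 8 ≤ 2 * S.s0 := by
        refine abs_le_of_sq_le_sq' ?_ (by positivity) |>.2
        have c2 := mul_le_mul_of_nonneg_right a0 (S.pw_pos 16).le
        rw [b4] at c2
        nlinarith [sq_nonneg S.s0]
      rw [b4, le_div_iff₀ (by positivity)]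
      calc _ = 44 * S.r * (2 ^ j * S.r * S.w ^ 8) / S.s0 := by field_simp
        _ ≤ 44 * S.r * (2 * S.s0) / S.s0 := by gcongr
        _ = _ := by field_simp; norm_num
    have a7 : ((2 : ℝ) ^ j)⁻¹ ^ d ≤ 1 := pow_le_one₀ (by positivity) (inv_le_one_of_one_le₀ (one_le_pow₀ one_le_two))
    have a8 := one_add (b := 44 * (4 ^ j * S.r ^ 2) / S.s0) (by positivity) d
    have a9 := pow_le_pow_left₀ (by positivity) a6 d
    rw [mul_pow] at a9
    calc _ ≤ S.w ^ 2 * (2 ^ d * (1 + (44 * (4 ^ j * S.r ^ 2) / S.s0) ^ d)) * ((2 : ℝ) ^ j)⁻¹ ^ d :=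
          a3.trans (mul_le_mul_of_nonneg_right (a2.trans (a1.trans (mul_le_mul_of_nonneg_left a8 (by positivity))))
            (by positivity))
      _ = S.w ^ 2 * 2 ^ d * (((2 : ℝ) ^ j)⁻¹ ^ d + (44 * (4 ^ j * S.r ^ 2) / S.s0) ^ d * ((2 : ℝ) ^ j)⁻¹ ^ d) := by ring
      _ ≤ _ := by gcongr
  have hn4 : ((n + 1 : ℕ) : ℝ) * 352 ^ d * 2 ≤ S.w := by
    have c1 : (1 : ℝ) ≤ n := by exact_mod_cast hn1
    have c2 : (n : ℝ) ≤ n ^ 6 := le_self_pow₀ c1 (by norm_num)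
    have c3 : (0 : ℝ) < 352 ^ d := by positivity
    push_cast
    nlinarith
  set N : ℝ := ((n + 1 : ℕ) : ℝ) with hN
  have N0 : 0 ≤ N := Nat.cast_nonneg _
  have e1 : S.w ^ (2 * d + 5) * ((2 * S.w ^ 2) ^ d * (N * (S.w ^ 2 * 2 ^ d * (1 + (88 * S.r / S.w ^ 8) ^ d)))) =
      N * 4 ^ d * S.w ^ (4 * d + 7) + N * 352 ^ d * S.w ^ (4 * d + 7) / S.w ^ (8 * d) * S.r ^ d := by
    have c1 : (4 : ℝ) ^ d = 2 ^ d * 2 ^ d := by rw [← mul_pow]; norm_num
    have c2 : (352 : ℝ) ^ d = 2 ^ d * 2 ^ d * 88 ^ d := by rw [← mul_pow, ← mul_pow]; norm_num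
    rw [c1, c2, div_pow, mul_pow, mul_pow, ← pow_mul, ← pow_mul]
    field_simp
    ring
  have e2 : N * 4 ^ d * S.w ^ (4 * d + 7) * 2 ≤ S.r ^ d := by
    have c1 : N * 4 ^ d * 2 ≤ S.w := le_trans (by gcongr; norm_num) hn4
    have c2 := S.mul_pw_le c1 (show 4 * d + 7 + 1 ≤ 50 * d by omega)
    have c3 : S.w ^ (50 * d) ≤ S.r ^ d := by rw [pow_mul]; exact pow_le_pow_left₀ (by positivity) S.le_r d
    linarith
  have e3 : N * 352 ^ d * S.w ^ (4 * d + 7) / S.w ^ (8 * d) ≤ 1 / 2 := by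
    have c2 := S.mul_pw_le hn4 (show 4 * d + 7 + 1 ≤ 8 * d by omega)
    rw [div_le_iff₀ (S.pw_pos _)]
    linarith
  refine (mul_le_mul_of_nonneg_left (h1.trans (mul_le_mul_of_nonneg_left h2 (by positivity))) (by positivity)).trans ?_
  rw [e1]
  have e4 := mul_le_mul_of_nonneg_right e3 (pow_pos hr d).le
  linarith

end

end Vale.Agent.P076N.KEY
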