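import Vale.Agent.P076N.KEY.Spec1

/-!
# P076N / KEY : the row BAS (basic facts)
-/

set_option linter.all false

open MeasureTheory Finset
open scoped RealInnerProductSpace

namespace Vale.Agent.P076N.KEY

open Vale.Agent.P076 Vale.Agent.P076N Vale.Agent.P076T

noncomputable section

namespace Bas

variable {d : ℕ}

theorem memLp {r : ℝ} {h : E d → ℂ} (hh : Bd r h) (q : ENNReal) : MemLp h q :=
  memLp_of_bdd hh.meas hh.bdd (η0 := 0) (r := r) (fun η hη => by rw [sub_zero]; exact hh.supp η hη) q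

theorem int {r : ℝ} {h : E d → ℂ} (hh : Bd r h) : Integrable h := memLp_one_iff_integrable.mp (memLp hh 1)

theorem int_sq {r : ℝ} {h : E d → ℂ} (hh : Bd r h) : Integrable (fun ξ => ‖h ξ‖ ^ 2) :=
  (memLp hh 2).integrable_norm_pow (by norm_num)

theorem en_nonneg (h : E d → ℂ) : 0 ≤ en h := integral_nonneg fun _ => by positivity

/-- Plancherel at time `s` -/
theorem pl {r : ℝ} {G : E d → ℂ} (hG : Bd r G) (s : ℝ) :
    Integrable (fun x => ‖Uu G (x, s)‖ ^ 2) ∧ ∫ x, ‖Uu G (x, s)‖ ^ 2 = en G := by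
  have h1 := int hG
  have h2 := memLp hG 2
  have hm : AEStronglyMeasurable (H791.sft s G) volume := by
    unfold H791.sft
    exact (by fun_prop : Continuous fun η : E d =>
      Complex.exp (((-(2 * Real.pi * s * ‖η‖ ^ 2) : ℝ) : ℂ) * Complex.I)).aestronglyMeasurable.mul
        h1.aestronglyMeasurable
  have i1 : Integrable (H791.sft s G) :=
    h1.congr' hm (Filter.Eventually.of_forall fun η => (H791.norm_sft s G η).symm)
  have i2 : MemLp (H791.sft s G) 2 :=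
    h2.congr_norm hm (Filter.Eventually.of_forall fun η => (H791.norm_sft s G η).symm)
  have h := planch i1 i2
  simp_rw [fourierInv_eq_evo, H791.evo_sft, zero_add, H791.norm_sft] at h
  exact h

/-- Cauchy-Schwarz on a set which contains the support -/
theorem l1_sq {r : ℝ} {h : E d → ℂ} (hh : Bd r h) {S : Set (E d)} (hS : MeasurableSet S)
    (hfin : volume S ≠ ⊤) (hs : ∀ η, h η ≠ 0 → η ∈ S) :
    (∫ η, ‖h η‖) ^ 2 ≤ (volume : Measure (E d)).real S * en h := by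
  have i1 := (int hh).norm
  have i2 := int_sq hh
  have i3 : Integrable (S.indicator fun _ => (1 : ℝ)) :=
    (integrable_indicator_iff hS).2 (integrableOn_const hfin)
  have key : ∀ t : ℝ, 0 ≤ (volume : Measure (E d)).real S * (t * t) + -(2 * ∫ η, ‖h η‖) * t + en h := by
    intro t
    have e : (volume : Measure (E d)).real S * (t * t) + -(2 * ∫ η, ‖h η‖) * t + en h =
        ∫ η, (S.indicator (fun _ => (1 : ℝ)) η * (t * t) + ‖h η‖ * (-(2 * t)) + ‖h η‖ ^ 2) := by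
      have i4 : Integrable fun η => S.indicator (fun _ => (1 : ℝ)) η * (t * t) + ‖h η‖ * (-(2 * t)) :=
        (i3.mul_const _).add (i1.mul_const _)
      rw [integral_add i4 i2, integral_add (i3.mul_const _) (i1.mul_const _),
        integral_mul_const, integral_mul_const, integral_indicator hS]
      simp only [integral_const, smul_eq_mul, mul_one, measureReal_restrict_apply_univ, en]
      ring
    rw [e]
    refine integral_nonneg fun η => ?_
    by_cases h0 : h η = 0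
    · simp only [h0, norm_zero, Pi.zero_apply]
      have : 0 ≤ S.indicator (fun _ => (1 : ℝ)) η := Set.indicator_nonneg (fun _ _ => zero_le_one) η
      nlinarith [mul_nonneg this (mul_self_nonneg t)]
    · rw [Set.indicator_of_mem (hs η h0)]
      show (0 : ℝ) ≤ _
      nlinarith [sq_nonneg (t - ‖h η‖)]
  have := discrim_le_zero key
  unfold discrim at this
  nlinarith

theorem pw {r : ℝ} {h : E d → ℂ} (hh : Bd r h) {R₀ L : ℝ} {c : E d} (p : E d × ℝ) (hL : 0 < L) (hR : 0 ≤ R₀)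
    (hn : Nr R₀ L c h) : ‖Uu h p‖ ^ 2 ≤ (2 * R₀ / L) ^ d * en h := by
  have hv : volume {x : E d | ∀ i, x i ∈ Set.Icc (c i - R₀ / L) (c i + R₀ / L)} =
      ENNReal.ofReal ((2 * R₀ / L) ^ d) := by
    rw [volume_box_E _ fun _ => measurableSet_Icc]
    simp only [Real.volume_Icc]
    rw [ENNReal.ofReal_pow (by positivity), Finset.prod_congr rfl (g := fun _ => ENNReal.ofReal (2 * R₀ / L))
      (fun i _ => by congr 1; ring)]
    simp
  have h1 := l1_sq hh (S := {x : E d | ∀ i, x i ∈ Set.Icc (c i - R₀ / L) (c i + R₀ / L)})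
    (measurableSet_box_E _ fun _ => measurableSet_Icc) (by rw [hv]; exact ENNReal.ofReal_ne_top) (by
      intro η hη i
      have a1 : ‖η - c‖ ≤ R₀ / L := by
        rw [le_div_iff₀ hL, mul_comm]; exact hn η hη
      have a2 := (abs_apply_le (η - c) i).trans a1
      rw [PiLp.sub_apply, abs_le] at a2
      constructor <;> linarith [a2.1, a2.2])
  rw [Measure.real, hv, ENNReal.toReal_ofReal (by positivity)] at h1
  exact (pow_le_pow_left₀ (norm_nonneg _) (evo_bd h p.1 p.2) 2).trans h1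

theorem bd_sum {R : ℝ} {ι : Type} (I : Finset ι) (h : ι → E d → ℂ) (hh : ∀ i ∈ I, Bd R (h i)) :
    Bd R (fun η => ∑ i ∈ I, h i η) := by
  classical
  refine ⟨Finset.measurable_fun_sum _ fun i hi => (hh i hi).meas, ?_, fun η hη => ?_⟩
  · have : ∀ i, ∃ b : ℝ, i ∈ I → ∀ η, ‖h i η‖ ≤ b := by
      intro i
      by_cases hi : i ∈ I
      · obtain ⟨b, hb⟩ := (hh i hi).bdd
        exact ⟨b, fun _ => hb⟩
      · exact ⟨0, fun h => absurd h hi⟩
    choose b hb using this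
    exact ⟨∑ i ∈ I, b i, fun η => (norm_sum_le _ _).trans (Finset.sum_le_sum fun i hi => hb i hi η)⟩
  · obtain ⟨i, hi, h0⟩ := Finset.exists_ne_zero_of_sum_ne_zero hη
    exact (hh i hi).supp η h0

theorem bd_sub {R : ℝ} {g h : E d → ℂ} (hg : Bd R g) (hh : Bd R h) : Bd R (g - h) := by
  refine ⟨hg.meas.sub hh.meas, ?_, fun η hη => ?_⟩
  · obtain ⟨a, ha⟩ := hg.bdd
    obtain ⟨b, hb⟩ := hh.bdd
    exact ⟨a + b, fun η => (norm_sub_le _ _).trans (add_le_add (ha η) (hb η))⟩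
  · by_cases h0 : g η = 0
    · refine hh.supp η fun h1 => hη ?_
      rw [Pi.sub_apply, h0, h1, sub_zero]
    · exact hg.supp η h0

theorem en_sub {R : ℝ} {g h : E d → ℂ} (hg : Bd R g) (hh : Bd R h) : en (g - h) ≤ 2 * en g + 2 * en h := by
  unfold en
  rw [← integral_const_mul, ← integral_const_mul,
    ← integral_add ((int_sq hg).const_mul _) ((int_sq hh).const_mul _)]
  refine integral_mono (int_sq (bd_sub hg hh)) (((int_sq hg).const_mul _).add ((int_sq hh).const_mul _))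
    fun η => ?_
  have h1 : ‖(g - h) η‖ ≤ ‖g η‖ + ‖h η‖ := norm_sub_le _ _
  have h2 := pow_le_pow_left₀ (norm_nonneg _) h1 2
  show ‖(g - h) η‖ ^ 2 ≤ 2 * ‖g η‖ ^ 2 + 2 * ‖h η‖ ^ 2
  nlinarith [sq_nonneg (‖g η‖ - ‖h η‖)]

theorem smul_ce {M : ℝ} (hM : 0 < M) (θ : Zv d) (η : E d) : M • (η - ce M θ) = M • η - toV θ := by
  rw [ce, smul_sub, smul_smul, mul_inv_cancel₀ hM.ne', one_smul]

theorem prt_le {ψ : E d → ℝ} (hψ : Prt ψ) (η : E d) : ψ η ≤ 1 := by
  have h := hψ.le1 {0} η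
  have e : toV (0 : Zv d) = 0 := by
    ext i; simp [toV]
  rwa [Finset.sum_singleton, e, sub_zero] at h

theorem norm_cp {ψ : E d → ℝ} (hψ : Prt ψ) {M : ℝ} (hM : 0 < M) (θ : Zv d) (g : E d → ℂ) (η : E d) :
    ‖cp ψ M θ g η‖ = ψ (M • η - toV θ) * ‖g η‖ := by
  rw [cp, bp, norm_mul, Complex.norm_real, Real.norm_of_nonneg (hψ.nn _), smul_ce hM]

theorem bd_cp {ψ : E d → ℝ} (hψ : Prt ψ) {M R : ℝ} (hM : 0 < M) (θ : Zv d) {g : E d → ℂ} (hg : Bd R g) :
    Bd R (cp ψ M θ g) := by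
  refine ⟨?_, ?_, fun η hη => hg.supp η fun h0 => hη ?_⟩
  · have hc : Continuous ψ := hψ.smo.cd.continuous
    have : Continuous (bp ψ M (ce M θ)) := by
      unfold bp; fun_prop
    exact this.measurable.mul hg.meas
  · obtain ⟨b, hb⟩ := hg.bdd
    refine ⟨b, fun η => ?_⟩
    rw [norm_cp hψ hM]
    exact (mul_le_of_le_one_left (norm_nonneg _) (prt_le hψ _)).trans (hb η)
  · rw [cp, h0, mul_zero]

theorem nr_cp {ψ : E d → ℝ} (hψ : Prt ψ) {M : ℝ} (hM : 0 < M) (θ : Zv d) (g : E d → ℂ) :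
    Nr d M (ce M θ) (cp ψ M θ g) := by
  intro η hη
  have h1 : ψ (M • (η - ce M θ)) ≠ 0 := by
    intro h0
    apply hη
    rw [cp, bp, h0]; simp
  have h2 := norm_le_mul (v := M • (η - ce M θ)) (r := 1) fun l => (hψ.supp _ h1 l).le
  rwa [norm_smul, Real.norm_of_nonneg hM.le, mul_one] at h2

theorem cs_eq (ψ : E d → ℝ) {M : ℝ} (hM : 0 < M) (S : Finset (Zv d)) (g : E d → ℂ) (η : E d) :
    cs ψ M S g η = ((∑ θ ∈ S, ψ (M • η - toV θ) : ℝ) : ℂ) * g η := by
  rw [cs, Complex.ofReal_sum, Finset.sum_mul]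
  refine Finset.sum_congr rfl fun θ _ => ?_
  rw [cp, bp, smul_ce hM]

theorem en_cs {ψ : E d → ℝ} (hψ : Prt ψ) {M R : ℝ} (hM : 0 < M) (S : Finset (Zv d)) {g : E d → ℂ}
    (hg : Bd R g) : en (cs ψ M S g) ≤ en g := by
  refine integral_mono (int_sq (bd_sum S _ fun θ _ => bd_cp hψ hM θ hg)) (int_sq hg) fun η => ?_
  refine pow_le_pow_left₀ (norm_nonneg _) ?_ 2
  rw [cs_eq ψ hM, norm_mul, Complex.norm_real,
    Real.norm_of_nonneg (Finset.sum_nonneg fun θ _ => hψ.nn _)]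
  exact mul_le_of_le_one_left (norm_nonneg _) (hψ.le1 _ _)

theorem en_cp {ψ : E d → ℝ} (hψ : Prt ψ) {M R : ℝ} (hM : 0 < M) (S : Finset (Zv d)) {g : E d → ℂ}
    (hg : Bd R g) : ∑ θ ∈ S, en (cp ψ M θ g) ≤ en g := by
  unfold en
  rw [← integral_finsetSum _ fun θ _ => int_sq (bd_cp hψ hM θ hg)]
  refine integral_mono (integrable_finsetSum _ fun θ _ => int_sq (bd_cp hψ hM θ hg)) (int_sq hg) fun η => ?_
  have h1 : ∑ θ ∈ S, ‖cp ψ M θ g η‖ ^ 2 ≤ ∑ θ ∈ S, ψ (M • η - toV θ) * ‖g η‖ ^ 2 := by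
    refine Finset.sum_le_sum fun θ _ => ?_
    rw [norm_cp hψ hM, mul_pow]
    refine mul_le_mul_of_nonneg_right ?_ (by positivity)
    have a := hψ.nn (M • η - toV θ)
    have b := prt_le hψ (M • η - toV θ)
    nlinarith
  refine h1.trans ?_
  rw [← Finset.sum_mul]
  exact mul_le_of_le_one_left (by positivity) (hψ.le1 _ _)

theorem mem_Th {M : ℝ} (hM : 0 < M) {θ : Zv d} : θ ∈ Th d M ↔ ‖ce M θ‖ ≤ 4 := by
  unfold Th
  rw [Finset.mem_filter]
  refine ⟨fun h => h.2, fun h => ⟨Fintype.mem_piFinset.2 fun l => ?_, h⟩⟩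
  have h1 := (abs_apply_le (ce M θ) l).trans h
  have e : ce M θ l = M⁻¹ * θ l := by simp [ce, toV]
  rw [e, abs_mul, abs_inv, abs_of_pos hM, inv_mul_le_iff₀ hM, abs_le] at h1
  have h2 := Int.le_ceil (4 * M)
  rw [Finset.mem_Icc]
  constructor
  · have : ((-⌈4 * M⌉ : ℤ) : ℝ) ≤ θ l := by push_cast; linarith [h1.1]
    exact_mod_cast this
  · have : (θ l : ℝ) ≤ (⌈4 * M⌉ : ℤ) := by linarith [h1.2]
    exact_mod_cast this

theorem cs_Th {ψ : E d → ℝ} (hψ : Prt ψ) {M R : ℝ} {g : E d → ℂ} (hg : Bd R g) (hR : R ≤ 3)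
    (hd : (d : ℝ) ≤ M) (hM : 1 ≤ M) : cs ψ M (Th d M) g = g := by
  have hM0 : 0 < M := by linarith
  funext η
  rw [cs_eq ψ hM0]
  by_cases h0 : g η = 0
  · rw [h0, mul_zero]
  rw [hψ.one (Th d M) (M • η) fun θ hθ => ?_]
  · simp
  rw [mem_Th hM0]
  have h1 := norm_le_mul (v := M • (η - ce M θ)) (r := 1) fun l => by
    rw [smul_ce hM0]; exact (hθ l).le
  rw [norm_smul, Real.norm_of_nonneg hM0.le, mul_one] at h1
  have h2 : ‖η - ce M θ‖ ≤ 1 := by
    have : M * ‖η - ce M θ‖ ≤ M * 1 := by linarith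
    exact le_of_mul_le_mul_left this hM0
  have h3 := norm_sub_le η (η - ce M θ)
  rw [sub_sub_cancel] at h3
  linarith [hg.supp η h0]

theorem card_Th {M : ℝ} (hM : 1 ≤ M) : (#(Th d M) : ℝ) ≤ 11 ^ d * M ^ d := by
  have h1 : #(Th d M) ≤ #(Fintype.piFinset fun _ : Fin d => Finset.Icc (-⌈4 * M⌉) ⌈4 * M⌉) := by
    unfold Th; exact Finset.card_filter_le _ _
  rw [Fintype.card_piFinset, Finset.prod_const, Finset.card_univ, Fintype.card_fin] at h1
  have h2 : ((#(Finset.Icc (-⌈4 * M⌉) ⌈4 * M⌉) : ℕ) : ℝ) ≤ 11 * M := by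
    have a1 : 0 ≤ ⌈4 * M⌉ := Int.ceil_nonneg (by linarith)
    have a2 : ((#(Finset.Icc (-⌈4 * M⌉) ⌈4 * M⌉) : ℕ) : ℤ) = ⌈4 * M⌉ + 1 - -⌈4 * M⌉ :=
      Int.card_Icc_of_le _ _ (by omega)
    have a3 : ((#(Finset.Icc (-⌈4 * M⌉) ⌈4 * M⌉) : ℕ) : ℝ) = (⌈4 * M⌉ : ℤ) + 1 - -(⌈4 * M⌉ : ℤ) := by
      exact_mod_cast a2
    have a4 := (Int.ceil_lt_add_one (4 * M)).le
    rw [a3]; linarith
  rw [← mul_pow]
  calc (#(Th d M) : ℝ) ≤ ((#(Finset.Icc (-⌈4 * M⌉) ⌈4 * M⌉) : ℕ) : ℝ) ^ d := by exact_mod_cast h1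
    _ ≤ _ := pow_le_pow_left₀ (Nat.cast_nonneg _) h2 d

end Bas

open Bas

/-- the row BAS -/
theorem bas (d : ℕ) : BAS d := by
  refine ⟨fun R h hh => ⟨int hh, evo_cont (int hh), en_nonneg h, pl hh, fun p ρ => ⟨?_, ?_⟩,
    fun p ρ ρ' hρ => ?_, fun R₀ L c p hL hR hn => pw hh p hL hR hn⟩,
    fun R ι I h hh => ⟨bd_sum I h hh, fun p => evo_sum I (fun i hi => int (hh i hi)) p.1 p.2⟩,
    fun R g h hg hh => ⟨bd_sub hg hh, fun p => ?_, en_sub hg hh⟩,
    fun ψ R M g hψ hM hg => ⟨fun θ => ⟨bd_cp hψ hM θ hg, nr_cp hψ hM θ g⟩,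
      fun S => ⟨bd_sum S _ fun θ _ => bd_cp hψ hM θ hg, en_cs hψ hM S hg, en_cp hψ hM S hg,
        fun p => evo_sum S (fun θ _ => int (bd_cp hψ hM θ hg)) p.1 p.2⟩, cs_Th hψ hg⟩,
    fun M hM => card_Th hM⟩
  · exact integral_nonneg fun _ => by positivity
  · rw [← (pl hh p.2).2]
    exact setIntegral_le_integral (pl hh p.2).1 (Filter.Eventually.of_forall fun _ => by positivity)
  · exact setIntegral_mono_set (pl hh p.2).1.integrableOn (Filter.Eventually.of_forall fun _ => by positivity)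
      (Metric.ball_subset_ball hρ).eventuallyLE
  · have h1 := evo_add (int (bd_sub hg hh)) (int hh) p.1 p.2
    rw [sub_add_cancel] at h1
    exact eq_sub_of_add_eq h1.symm

end

end Vale.Agent.P076N.KEY
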