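import Vale.Agent.P076N.KEY.BesA

/-! # P076N / KEY : the row BES (Bessel inequality with a set of caps for each block) -/

set_option linter.all false

open MeasureTheory Finset
open scoped RealInnerProductSpace

namespace Vale.Agent.P076N.KEY

open Vale.Agent.P076 Vale.Agent.P076N Vale.Agent.P076T

noncomputable section

variable {d : ℕ}

namespace Bes

/-- the real profile -/
def rp (a : E d → ℝ) (L : ℝ) (c : E d) (η : E d) : ℝ := a (L • (η - c))

theorem rp_int {a : E d → ℝ} (ha : Smo a) {L : ℝ} (hL : 0 < L) (c : E d) : Integrable (rp a L c) := by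
  have h1 : Integrable a := ha.cd.continuous.integrable_of_hasCompactSupport ha.cs
  exact (h1.comp_smul hL.ne').comp_sub_right c

theorem gr_rp (a : E d → ℝ) (L : ℝ) (c : E d) (p q : E d × ℝ) :
    gr (rp a L c) p q = evo (bp a L c) (p.1 - q.1) (p.2 - q.2) 0 := rfl

theorem smo_sq {a : E d → ℝ} (ha : Smo a) : Smo fun η => a η ^ 2 := by
  refine ⟨ha.cd.pow 2, ?_⟩
  simp only [sq]
  exact ha.cs.mul_left (f := a)

theorem kS_symm (N : ℕ) (r : ℝ) (c : E d) (p q : E d × ℝ) : kS N r c p q = kS N r c q p := by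
  unfold kS
  have e : q.1 - p.1 - (2 * (q.2 - p.2)) • c = -(p.1 - q.1 - (2 * (p.2 - q.2)) • c) := by module
  rw [e, wE_neg, abs_sub_comm]

theorem kD_symm (R r : ℝ) (c : E d) (p q : E d × ℝ) : kD R r c p q = kD R r c q p := by
  unfold kD
  have e : q.1 - p.1 - (2 * (q.2 - p.2)) • c = -(p.1 - q.1 - (2 * (p.2 - q.2)) • c) := by module
  rw [e, norm_neg, abs_sub_comm]

theorem kS_nn (N : ℕ) {r : ℝ} (hr : 0 < r) (c : E d) (p q : E d × ℝ) : 0 ≤ kS N r c p q := by
  unfold kS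
  exact mul_nonneg (by positivity) (wE_pos (by positivity) _).le

theorem kD_nn (R r : ℝ) (c : E d) (p q : E d × ℝ) : 0 ≤ kD R r c p q := by
  unfold kD
  split_ifs
  · positivity
  · exact le_rfl

/-- bounded overlap of the fine caps inside the coarse cap -/
theorem overlap {R₀ R₁ M r : ℝ} {c : E d} {Θ : Finset (Zv d)} {χ a : E d → ℝ} (h1 : 0 < R₁) (h2 : R₁ ≤ R₀)
    (hχ : Bmp R₁ (2 * R₁) χ) (ha : Bmp (3 * R₀) (4 * R₀) a) (hc : Cap R₀ M r c Θ) (η : E d) :
    ∑ θ ∈ Θ, rp (fun η => χ η ^ 2) M (ce M θ) η ≤ (4 * R₁ + 2) ^ d * rp a r c η := by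
  classical
  have hr : 0 < r := by linarith [hc.one, hc.le]
  have hM : 0 < M := by linarith [hc.big]
  set Z := Θ.filter fun θ => χ (M • (η - ce M θ)) ≠ 0 with hZ
  have e1 : ∑ θ ∈ Θ, rp (fun η => χ η ^ 2) M (ce M θ) η = ∑ θ ∈ Z, rp (fun η => χ η ^ 2) M (ce M θ) η := by
    rw [hZ, Finset.sum_filter]
    refine Finset.sum_congr rfl fun θ _ => ?_
    split_ifs with h
    · rfl
    · unfold rp
      simp only [not_not] at h
      simp [h]
  rw [e1]
  rcases Z.eq_empty_or_nonempty with h0 | ⟨θ₀, h0⟩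
  · rw [h0, Finset.sum_empty]
    exact mul_nonneg (by positivity) (ha.nn _)
  · have hone : rp a r c η = 1 := by
      refine ha.one _ ?_
      obtain ⟨h3, h4⟩ := Finset.mem_filter.1 h0
      have h5 := hχ.supp _ h4
      rw [norm_smul, Real.norm_eq_abs, abs_of_pos hM] at h5
      have h6 := hc.nr θ₀ h3
      rw [norm_smul, Real.norm_eq_abs, abs_of_pos hr]
      have h7 : ‖η - c‖ ≤ ‖η - ce M θ₀‖ + ‖ce M θ₀ - c‖ := norm_sub_le_norm_sub_add_norm_sub _ _ _
      have h8 : r * ‖η - ce M θ₀‖ ≤ M * ‖η - ce M θ₀‖ := mul_le_mul_of_nonneg_right hc.rM (norm_nonneg _)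
      nlinarith
    have hcard : (Z.card : ℝ) ≤ (2 * (2 * R₁) / 1 + 2) ^ d := by
      refine card_ball one_pos (by linarith) Z (fun θ => toV θ) ?_ (M • η) ?_
      · intro i _ j _ hk
        funext k
        have := hk k
        simpa [toV] using this
      · intro θ hθ k
        have h5 := hχ.supp _ (Finset.mem_filter.1 hθ).2
        have e : M • (η - ce M θ) = -(toV θ - M • η) := by
          unfold ce
          rw [smul_sub, smul_smul, mul_inv_cancel₀ hM.ne', one_smul, neg_sub]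
        rw [e, norm_neg] at h5
        exact le_trans (abs_apply_le (toV θ - M • η) k) h5
    rw [hone, mul_one]
    calc ∑ θ ∈ Z, rp (fun η => χ η ^ 2) M (ce M θ) η ≤ ∑ _θ ∈ Z, (1 : ℝ) := by
          refine Finset.sum_le_sum fun θ _ => ?_
          exact pow_le_one₀ (hχ.nn _) (hχ.le1 _)
      _ = Z.card := by simp
      _ ≤ _ := hcard.trans (le_of_eq (by ring_nf))

end Bes

open Bes

open Classical in
theorem bes (d : ℕ) : BES d := by
  intro hB hP hK hS R₀ R₁ N h1 h2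
  obtain ⟨χ, hχ⟩ := hP.1 R₁ (2 * R₁) h1 (by linarith)
  obtain ⟨a, ha⟩ := hP.1 (3 * R₀) (4 * R₀) (by linarith) (by linarith)
  obtain ⟨C₁, hC₁, H₁⟩ := hK a ha.smo N
  obtain ⟨C₂, hC₂, H₂⟩ := hS (fun η => χ η ^ 2) R₀ N (smo_sq hχ.smo)
  set C : ℝ := (4 * R₁ + 2) ^ d * C₁ + C₂ + 1 with hC
  have hA : 0 ≤ (4 * R₁ + 2) ^ d * C₁ := by positivity
  have hC0 : 0 < C := by linarith
  refine ⟨C, hC0.le, ?_⟩
  intro M r R σ c Θ h ι β I p bl L hc hh hL hfar hσ hsum
  have hr : 0 < r := by linarith [hc.one, hc.le]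
  have hM : 0 < M := by linarith [hc.big]
  rcases I.eq_empty_or_nonempty with rfl | hI
  · rw [Finset.sum_empty]
    have : 0 ≤ ∑ θ ∈ Θ, en (h θ) := Finset.sum_nonneg fun θ hθ => (hB.1 R _ (hh θ hθ).1).2.2.1
    positivity
  have hI0 : (0 : ℝ) < #I := by exact_mod_cast hI.card_pos
  set ε : ℝ := (r / M) ^ N with hε
  have hε0 : 0 < ε := by positivity
  set K : ℝ := C * (r ^ d)⁻¹ * (σ + #I * ε) with hKd
  have hK0 : 0 < K := by positivity
  set S : ι → ℂ := fun i => ∑ θ ∈ L (bl i), Uu (h θ) (p i) with hSd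
  set cc : ι → ℂ := fun i => (starRingEnd ℂ) (S i) with hcc
  set X : ℝ := ∑ i ∈ I, ‖S i‖ ^ 2 with hX
  set w : Zv d → E d → ℝ := fun θ => rp (fun η => χ η ^ 2) M (ce M θ) with hw
  have hwi : ∀ θ, Integrable (w θ) := fun θ => rp_int (smo_sq hχ.smo) hM _
  have hw0 : ∀ θ η, 0 ≤ w θ η := fun θ η => sq_nonneg _
  have hai : Integrable (rp a r c) := rp_int ha.smo hr c
  -- duality
  have e1 : ((X : ℝ) : ℂ) = ∑ θ ∈ Θ, ∑ i ∈ I, (if θ ∈ L (bl i) then cc i else 0) * Uu (h θ) (p i) := by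
    rw [Finset.sum_comm, hX, Complex.ofReal_sum]
    refine Finset.sum_congr rfl fun i _ => ?_
    have : ∑ θ ∈ Θ, (if θ ∈ L (bl i) then cc i else 0) * Uu (h θ) (p i) = cc i * S i := by
      simp only [hSd, ite_mul, zero_mul]
      rw [← Finset.sum_filter, Finset.mul_sum]
      refine Finset.sum_congr ?_ fun _ _ => rfl
      ext θ
      simp only [Finset.mem_filter]
      exact ⟨fun h => h.2, fun h => ⟨hL _ h, h⟩⟩
    rw [this, hcc, mul_comm, Complex.mul_conj, Complex.normSq_eq_norm_sq]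
  have e2 : X ≤ K / 2 * ∑ θ ∈ Θ, en (h θ) +
      1 / (2 * K) * ∑ θ ∈ Θ, QQ (w θ) I (fun i => if θ ∈ L (bl i) then cc i else 0) p := by
    have h3 : X ≤ ‖((X : ℝ) : ℂ)‖ := by rw [Complex.norm_real]; exact le_abs_self _
    rw [e1] at h3
    rw [Finset.mul_sum, Finset.mul_sum, ← Finset.sum_add_distrib]
    refine h3.trans ((norm_sum_le _ _).trans (Finset.sum_le_sum fun θ hθ => ?_))
    obtain ⟨hb, hn⟩ := hh θ hθ
    have h4 : MemLp (h θ) 2 := memLp_of_bdd hb.meas hb.bdd (η0 := 0) (r := R) (by simpa using hb.supp) 2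
    refine dual (hB.1 R _ hb).1 ?_ (hwi θ) (hw0 θ) ?_ I _ p hK0
    · exact (memLp_two_iff_integrable_sq_norm h4.1).1 h4
    · intro η hη
      have h5 : χ (M • (η - ce M θ)) = 1 := hχ.one _ (by
        rw [norm_smul, Real.norm_eq_abs, abs_of_pos hM]; exact hn η hη)
      simp only [hw, rp, h5, one_pow]
  -- the blocks
  have e3 : ∀ J : Finset ι, ∑ θ ∈ Θ, QQ (w θ) J cc p ≤
      ∑ i ∈ J, ∑ j ∈ J, ‖cc i‖ * ‖cc j‖ * (C * (r ^ d)⁻¹ * kS N r c (p i) (p j)) := by
    intro J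
    have h3 : ∑ θ ∈ Θ, QQ (w θ) J cc p ≤ (4 * R₁ + 2) ^ d * QQ (rp a r c) J cc p := by
      unfold QQ
      rw [← integral_finsetSum _ fun θ _ => q_int (hwi θ) J cc p, ← integral_const_mul]
      refine integral_mono (integrable_finsetSum _ fun θ _ => q_int (hwi θ) J cc p)
        ((q_int hai J cc p).const_mul _) fun η => ?_
      simp only
      rw [← Finset.sum_mul, ← mul_assoc]
      exact mul_le_mul_of_nonneg_right (overlap h1 h2 hχ ha hc η) (by positivity)
    refine h3.trans ((mul_le_mul_of_nonneg_left (q_le hai J cc p) (by positivity)).trans ?_)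
    rw [Finset.mul_sum]
    refine Finset.sum_le_sum fun i _ => ?_
    rw [Finset.mul_sum]
    refine Finset.sum_le_sum fun j _ => ?_
    have h4 := H₁ r c ((p i).1 - (p j).1) ((p i).2 - (p j).2) hr
    have h5 : ‖gr (rp a r c) (p i) (p j)‖ ≤ C₁ * (r ^ d)⁻¹ * kS N r c (p i) (p j) := by
      rw [gr_rp, kS_symm]
      unfold kS
      rw [← mul_assoc]
      exact h4
    have h6 := kS_nn N hr c (p i) (p j)
    calc (4 * R₁ + 2) ^ d * (‖cc i‖ * ‖cc j‖ * ‖gr (rp a r c) (p i) (p j)‖)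
        ≤ (4 * R₁ + 2) ^ d * (‖cc i‖ * ‖cc j‖ * (C₁ * (r ^ d)⁻¹ * kS N r c (p i) (p j))) := by gcongr
      _ = ‖cc i‖ * ‖cc j‖ * (((4 * R₁ + 2) ^ d * C₁) * (r ^ d)⁻¹ * kS N r c (p i) (p j)) := by ring
      _ ≤ _ := by gcongr; linarith
  set kk' : ι → ι → ℝ := fun i j => C * (r ^ d)⁻¹ * (kk N (4 * R₀) r c p bl i j + ε) with hkk
  have e4 : ∑ θ ∈ Θ, QQ (w θ) I (fun i => if θ ∈ L (bl i) then cc i else 0) p ≤
      ∑ i ∈ I, ∑ j ∈ I, ‖cc i‖ * ‖cc j‖ * kk' i j := by
    refine (Finset.sum_le_sum fun θ _ => q_split (hwi θ) (hw0 θ) I cc p bl fun b => θ ∈ L b).trans ?_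
    rw [Finset.sum_add_distrib, Finset.sum_comm]
    refine (add_le_add (Finset.sum_le_sum fun b _ => e3 _) le_rfl).trans ?_
    rw [← diag_sum, Finset.sum_comm (s := Θ), ← Finset.sum_add_distrib]
    refine Finset.sum_le_sum fun i hi => ?_
    rw [Finset.sum_comm (s := Θ), ← Finset.sum_add_distrib]
    refine Finset.sum_le_sum fun j hj => ?_
    simp only [hkk, kk]
    by_cases hb : bl i = bl j
    · simp only [if_pos hb, Finset.sum_const_zero, add_zero]
      gcongr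
      linarith
    · simp only [if_neg hb, zero_add]
      rw [← Finset.mul_sum]
      have h4 := H₂ M r c Θ (p j) (p i) hc (hfar j hj i hi fun h => hb h.symm)
      rw [kD_symm] at h4
      have h5 := kD_nn (4 * R₀) r c (p i) (p j)
      refine mul_le_mul_of_nonneg_left (le_trans h4 ?_) (by positivity)
      gcongr
      linarith
  have hk0 : ∀ i j, 0 ≤ kk N (4 * R₀) r c p bl i j := fun i j => by
    unfold kk
    split_ifs
    · exact kS_nn N hr c _ _
    · exact kD_nn _ _ c _ _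
  have e5 := schur I (fun i => ‖cc i‖) kk' K (fun i j => by have := hk0 i j; simp only [hkk]; positivity)
    (fun i j => by
      simp only [hkk, kk]
      rw [kS_symm, kD_symm]
      by_cases hb : bl i = bl j
      · rw [if_pos hb, if_pos hb.symm]
      · rw [if_neg hb, if_neg fun h => hb h.symm])
    (fun i hi => by
      simp only [hkk]
      rw [← Finset.mul_sum, Finset.sum_add_distrib, Finset.sum_const, nsmul_eq_mul, hKd]
      have := hsum i hi
      gcongr)
  have e6 : ∑ i ∈ I, ‖cc i‖ ^ 2 = X := Finset.sum_congr rfl fun i _ => by simp only [hcc, Complex.norm_conj]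
  rw [e6] at e5
  have e7 : 1 / (2 * K) * ∑ θ ∈ Θ, QQ (w θ) I (fun i => if θ ∈ L (bl i) then cc i else 0) p ≤ X / 2 := by
    calc _ ≤ 1 / (2 * K) * (K * X) := mul_le_mul_of_nonneg_left (e4.trans e5) (by positivity)
      _ = X / 2 := by field_simp
  linarith

end

end Vale.Agent.P076N.KEY
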