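import Vale.Agent.P076N.KEY.Spec1

/-!
# P076N / KEY : the row BMP (helper83)
-/

set_option linter.all false

open MeasureTheory Finset Real

namespace Vale.Agent.P076N.KEY

open Vale.Agent.P076 Vale.Agent.P076N

namespace BmpX

noncomputable def chi (x : ℝ) : ℝ := smoothTransition (x + 1) - smoothTransition x

theorem chi_nn (x : ℝ) : 0 ≤ chi x := sub_nonneg.2 (smoothTransition.monotone (by linarith))

theorem chi_supp {x : ℝ} (h : chi x ≠ 0) : |x| < 1 := by
  rw [abs_lt]
  constructor <;> by_contra a <;> push Not at a <;> apply h <;> unfold chi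
  · rw [smoothTransition.zero_of_nonpos (by linarith), smoothTransition.zero_of_nonpos (by linarith), sub_self]
  · rw [smoothTransition.one_of_one_le (by linarith), smoothTransition.one_of_one_le a, sub_self]

theorem chi_sum (x : ℝ) : ∑ k ∈ ({⌊x⌋, ⌊x⌋ + 1} : Finset ℤ), chi (x - k) = 1 := by
  have h1 := Int.floor_le x
  have h2 := Int.lt_floor_add_one x
  rw [sum_pair (by omega)]
  unfold chi
  push_cast
  rw [smoothTransition.one_of_one_le (x := x - ⌊x⌋ + 1) (by linarith),
    smoothTransition.zero_of_nonpos (x := x - (⌊x⌋ + 1)) (by linarith), show x - (⌊x⌋ + 1) + 1 = x - ⌊x⌋ by ring]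
  ring

variable {d : ℕ}

noncomputable def psi (η : E d) : ℝ := ∏ l, chi (η l)

theorem psi_supp {η : E d} (h : psi η ≠ 0) (l : Fin d) : |η l| < 1 :=
  chi_supp (prod_ne_zero_iff.1 h l (mem_univ l))

theorem psi_nn (η : E d) : 0 ≤ psi η := prod_nonneg fun _ _ => chi_nn _

/-- the lattice points that matter -/
noncomputable def bx (η : E d) : Finset (Zv d) := Fintype.piFinset fun l => {⌊η l⌋, ⌊η l⌋ + 1}

theorem psi_sum (η : E d) : ∑ θ ∈ bx η, psi (η - toV θ) = 1 := by
  have := prod_univ_sum (fun l : Fin d => ({⌊η l⌋, ⌊η l⌋ + 1} : Finset ℤ)) fun l k => chi (η l - k)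
  simp only [chi_sum, prod_const_one] at this
  exact this.symm

theorem mem_bx {η : E d} {θ : Zv d} (h : psi (η - toV θ) ≠ 0) : θ ∈ bx η := by
  refine Fintype.mem_piFinset.2 fun l => ?_
  have a : |η l - θ l| < 1 := psi_supp h l
  rw [abs_lt] at a
  have h1 : θ l - 1 ≤ ⌊η l⌋ := Int.le_floor.2 (by push_cast; linarith)
  have h2 : ⌊η l⌋ < θ l + 1 := Int.floor_lt.2 (by push_cast; linarith)
  simp only [mem_insert, mem_singleton]
  omega

theorem prt : Prt (psi : E d → ℝ) := by
  classical
  refine ⟨⟨?_, ?_⟩, psi_nn, fun η h => psi_supp h, fun Θ η => ?_, fun Θ η h => ?_⟩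
  · refine contDiff_prod fun l _ => ?_
    have h : ContDiff ℝ (⊤ : ℕ∞) fun η : E d => η l := (EuclideanSpace.proj l : E d →L[ℝ] ℝ).contDiff
    exact (smoothTransition.contDiff.comp (h.add contDiff_const)).sub (smoothTransition.contDiff.comp h)
  · refine HasCompactSupport.intro (isCompact_closedBall (0 : E d) (√d)) fun η hη => ?_
    by_contra h
    apply hη
    rw [mem_closedBall_zero_iff, EuclideanSpace.norm_eq]
    refine Real.sqrt_le_sqrt ((sum_le_card_nsmul _ _ 1 fun l _ => ?_).trans (by simp))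
    exact pow_le_one₀ (norm_nonneg _) (psi_supp h l).le
  · rw [← psi_sum η, ← sum_filter_ne_zero Θ]
    exact sum_le_sum_of_subset_of_nonneg (fun θ a => mem_bx (mem_filter.1 a).2) fun _ _ _ => psi_nn _
  · rw [← psi_sum η, ← sum_filter_ne_zero Θ, ← sum_filter_ne_zero (bx η)]
    refine sum_congr ?_ fun _ _ => rfl
    ext θ
    simp only [mem_filter]
    exact and_congr_left fun a => ⟨fun _ => mem_bx a, fun _ => h θ fun l => psi_supp a l⟩

end BmpX

theorem bmp (d : ℕ) : BMP d := by
  refine ⟨fun R₁ R₂ h1 h2 => ?_, _, BmpX.prt⟩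
  let f : ContDiffBump (0 : E d) := ⟨R₁, R₂, h1, h2⟩
  refine ⟨f, ⟨f.contDiff, f.hasCompactSupport⟩, fun η => f.nonneg, fun η => f.le_one,
    fun η h => f.one_of_mem_closedBall (mem_closedBall_zero_iff.2 h), fun η h => ?_⟩
  have : η ∈ Function.support f := h
  rw [f.support_eq] at this
  exact (mem_ball_zero_iff.1 this).le

end Vale.Agent.P076N.KEY
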