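import Vale.Agent.P076N.KEY.Spec2

/-!
# P076N / KEY : row CLS, density classes
-/

set_option linter.all false

open Finset

namespace Vale.Agent.P076N.KEY

noncomputable section

namespace CLSx

lemma kw_eq {x : ℝ} (hx : 0 < x) : Kw x = x ^ (1 / 4 : ℝ) + (x ^ (1 / 4 : ℝ))⁻¹ := by
  unfold Kw
  rw [Real.inv_rpow hx.le]

lemma kw_pos {x : ℝ} (hx : 0 < x) : 0 < Kw x := by
  rw [kw_eq hx]
  positivity

lemma kw_le {x x' : ℝ} (hx : 0 < x) (h1 : x ≤ x') (h2 : x' ≤ 2 * x) : Kw x' ≤ 2 * Kw x := by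
  rw [kw_eq hx, kw_eq (hx.trans_le h1)]
  have a0 : 0 < x ^ (1 / 4 : ℝ) := by positivity
  have a1 : x ^ (1 / 4 : ℝ) ≤ x' ^ (1 / 4 : ℝ) := Real.rpow_le_rpow hx.le h1 (by norm_num)
  have a2 : x' ^ (1 / 4 : ℝ) ≤ 2 * x ^ (1 / 4 : ℝ) := by
    refine (Real.rpow_le_rpow (hx.le.trans h1) h2 (by norm_num)).trans ?_
    rw [Real.mul_rpow (by norm_num) hx.le]
    exact mul_le_mul_of_nonneg_right (Real.rpow_le_self_of_one_le (by norm_num) (by norm_num)) a0.le
  have a3 := inv_anti₀ a0 a1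
  have a4 : 0 < (x ^ (1 / 4 : ℝ))⁻¹ := by positivity
  linarith

/-- the telescoping function -/
def gg (x : ℝ) : ℝ := x ^ (1 / 4 : ℝ) / (1 + x ^ (1 / 4 : ℝ))

lemma one_lt_q : (1 : ℝ) < 2 ^ (1 / 4 : ℝ) := Real.one_lt_rpow (by norm_num) (by norm_num)

lemma tele {x : ℝ} (hx : 0 < x) :
    1 / Kw x ≤ 2 * 2 ^ (1 / 4 : ℝ) / (2 ^ (1 / 4 : ℝ) - 1) * (gg (x * 2) - gg x) := by
  unfold gg
  rw [kw_eq hx, Real.mul_rpow hx.le (by norm_num)]
  have hq := one_lt_q
  have a0 : 0 < x ^ (1 / 4 : ℝ) := by positivity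
  generalize (2 : ℝ) ^ (1 / 4 : ℝ) = q at hq ⊢
  generalize x ^ (1 / 4 : ℝ) = y at a0 ⊢
  have hq1 : 0 < q - 1 := by linarith
  have e1 : 1 / (y + y⁻¹) = y / (1 + y ^ 2) := by field_simp; ring
  have e2 : 2 * q / (q - 1) * (y * q / (1 + y * q) - y / (1 + y)) = y * (2 * q) / ((1 + y * q) * (1 + y)) := by
    field_simp
    ring
  rw [e1, e2, div_le_div_iff₀ (by positivity) (by positivity), mul_assoc]
  refine mul_le_mul_of_nonneg_left ?_ a0.le
  nlinarith [mul_nonneg (by linarith : 0 ≤ q) (sq_nonneg (y - 1)), mul_nonneg hq1.le (by linarith : 0 ≤ 1 + y)]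

lemma sum_kw {x : ℝ} (hx : 0 < x) (N : ℕ) :
    ∑ n ∈ range N, 1 / Kw (x * 2 ^ n) ≤ 2 * 2 ^ (1 / 4 : ℝ) / (2 ^ (1 / 4 : ℝ) - 1) := by
  have hq := one_lt_q
  have hc : 0 ≤ 2 * 2 ^ (1 / 4 : ℝ) / ((2 : ℝ) ^ (1 / 4 : ℝ) - 1) := div_nonneg (by positivity) (by linarith)
  refine (Finset.sum_le_sum fun n _ => tele (x := x * 2 ^ n) (by positivity)).trans ?_
  rw [← Finset.mul_sum]
  simp only [mul_assoc x, ← pow_succ]
  rw [Finset.sum_range_sub (fun n => gg (x * 2 ^ n)) N]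
  refine mul_le_of_le_one_right hc ?_
  have a1 : gg (x * 2 ^ N) ≤ 1 := by
    unfold gg
    rw [div_le_one (by positivity)]
    linarith
  have a2 : 0 ≤ gg (x * 2 ^ 0) := by unfold gg; positivity
  linarith

end CLSx

open CLSx in
theorem cls (d : ℕ) : CLS d := by
  classical
  obtain ⟨c, hc0, hc⟩ : ∃ c : ℝ, 0 ≤ c ∧ ∀ x : ℝ, 0 < x → ∀ N, ∑ n ∈ range N, 1 / Kw (x * 2 ^ n) ≤ c :=
    ⟨_, div_nonneg (by positivity) (by linarith [one_lt_q]), fun x hx N => sum_kw hx N⟩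
  have h13 : (1 : ℝ) ≤ 13 ^ d := one_le_pow₀ (by norm_num)
  have hc1 : 0 ≤ 2 ^ (d + 1) * c := by positivity
  refine ⟨2 * (13 ^ d + 2 ^ (d + 1) * c), by linarith, fun κ I e a b u Y v z ha hu hY hv hz hI h0 hm hs => ?_⟩
  obtain ⟨N, hN⟩ := pow_unbounded_of_one_lt (2 * b / a) (by norm_num : (1 : ℝ) < 2)
  set J := (range N).filter fun n => a * 2 ^ n ≤ 2 * b with hJ
  have kp : ∀ n : ℕ, 0 < Kw (a / u * 2 ^ n) := fun n => kw_pos (by positivity)
  set f : κ → ℕ → ℝ := fun k n => e k (a * 2 ^ n) / (Kw (a / u * 2 ^ n) * (Y * (a * 2 ^ n) ^ d)) with hf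
  have f0 : ∀ k ∈ I, ∀ n, 0 ≤ f k n := fun k hk n =>
    div_nonneg (h0 k hk _ (by positivity)) (by have := kp n; positivity)
  set lam : κ → ℝ := fun k => z + 2 ^ (d + 1) * v * ∑ n ∈ J, f k n with hlam
  have ex : ∀ k, ∃ i : ℕ, lam k ≤ z * 2 ^ i := fun k => by
    obtain ⟨i, hi⟩ := pow_unbounded_of_one_lt (lam k / z) (by norm_num : (1 : ℝ) < 2)
    rw [div_lt_iff₀ hz] at hi
    exact ⟨i, by linarith⟩
  have tot : ∑ k ∈ I, lam k ≤ (13 ^ d + 2 ^ (d + 1) * c) * v := by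
    have a1 : ∑ k ∈ I, ∑ n ∈ J, f k n ≤ c := by
      rw [Finset.sum_comm]
      refine le_trans (Finset.sum_le_sum fun n hn => ?_) ((Finset.sum_le_sum_of_subset_of_nonneg
        (Finset.filter_subset _ _) fun n _ _ => by have := kp n; positivity).trans (hc (a / u) (by positivity) N))
      have := kp n
      have b1 := hs (a * 2 ^ n) (le_mul_of_one_le_right ha.le (one_le_pow₀ (by norm_num))) (Finset.mem_filter.1 hn).2
      simp only [hf]
      rw [← Finset.sum_div, div_le_div_iff₀ (by positivity) this]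
      nlinarith
    simp only [hlam]
    rw [Finset.sum_add_distrib, Finset.sum_const, nsmul_eq_mul, ← Finset.mul_sum]
    have a2 := mul_le_mul_of_nonneg_left a1 (show 0 ≤ 2 ^ (d + 1) * v by positivity)
    linarith
  have lz : ∀ k ∈ I, z ≤ lam k := fun k hk => by
    have : 0 ≤ 2 ^ (d + 1) * v * ∑ n ∈ J, f k n := mul_nonneg (by positivity) (Finset.sum_nonneg fun n _ => f0 k hk n)
    simp only [hlam]
    linarith
  refine ⟨fun k => Nat.find (ex k), fun i => ?_, fun k hk ρ h1 h2 => ?_⟩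
  · have a1 : ∀ k ∈ I.filter (fun k => Nat.find (ex k) = i), z * 2 ^ i ≤ 2 * lam k := by
      intro k hk
      obtain ⟨k1, k2⟩ := Finset.mem_filter.1 hk
      have := lz k k1
      rcases i with _ | i
      · rw [pow_zero]
        linarith
      · have := Nat.find_min (ex k) (show i < Nat.find (ex k) by omega)
        rw [pow_succ]
        linarith
    calc (#(I.filter fun k => Nat.find (ex k) = i) : ℝ) * (z * 2 ^ i)
        = ∑ _k ∈ I.filter (fun k => Nat.find (ex k) = i), z * 2 ^ i := by rw [Finset.sum_const, nsmul_eq_mul]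
      _ ≤ ∑ k ∈ I.filter (fun k => Nat.find (ex k) = i), 2 * lam k := Finset.sum_le_sum a1
      _ ≤ ∑ k ∈ I, 2 * lam k := Finset.sum_le_sum_of_subset_of_nonneg (Finset.filter_subset _ _) fun k hk _ => by
          have := lz k hk
          linarith
      _ ≤ _ := by
          rw [← Finset.mul_sum]
          linarith
  · have hρ : 0 < ρ := ha.trans_le h1
    obtain ⟨n, n1, n2⟩ : ∃ n : ℕ, ρ ≤ a * 2 ^ n ∧ a * 2 ^ n ≤ 2 * ρ := by
      obtain ⟨n, a1, a2⟩ := exists_nat_pow_near (show 1 ≤ ρ / a by rwa [one_le_div ha]) (by norm_num : (1 : ℝ) < 2)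
      rw [le_div_iff₀ ha] at a1
      rw [div_lt_iff₀ ha] at a2
      exact ⟨n + 1, by linarith, by rw [pow_succ]; linarith⟩
    have nJ : n ∈ J := by
      refine Finset.mem_filter.2 ⟨Finset.mem_range.2 ?_, by linarith⟩
      rw [div_lt_iff₀ ha] at hN
      have : (2 : ℝ) ^ n < 2 ^ N := lt_of_mul_lt_mul_left (a := a) (by linarith) ha.le
      exact (pow_lt_pow_iff_right₀ (by norm_num)).1 this
    have a1 : 2 ^ (d + 1) * v * f k n ≤ z * 2 ^ Nat.find (ex k) := by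
      refine le_trans ?_ (Nat.find_spec (ex k))
      have := mul_le_mul_of_nonneg_left (Finset.single_le_sum (fun n _ => f0 k hk n) nJ)
        (show 0 ≤ 2 ^ (d + 1) * v by positivity)
      simp only [hlam]
      linarith
    have a2 : Kw (a / u * 2 ^ n) ≤ 2 * Kw (ρ / u) := by
      refine kw_le (by positivity) ?_ ?_
      · rw [div_mul_eq_mul_div]
        exact div_le_div_of_nonneg_right n1 hu.le
      · rw [div_mul_eq_mul_div, ← mul_div_assoc]
        exact div_le_div_of_nonneg_right n2 hu.le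
    have a3 : (a * 2 ^ n) ^ d ≤ 2 ^ d * ρ ^ d := by
      rw [← mul_pow]
      exact pow_le_pow_left₀ (by positivity) n2 d
    have a4 := kp n
    have a5 : 0 < Kw (ρ / u) := kw_pos (by positivity)
    have a6 : e k (a * 2 ^ n) = f k n * (Kw (a / u * 2 ^ n) * (Y * (a * 2 ^ n) ^ d)) := by
      simp only [hf]
      rw [div_mul_cancel₀ _ (by positivity)]
    refine (hm k hk ρ _ hρ n1).trans ?_
    rw [a6, le_div_iff₀ hv]
    have a7 := f0 k hk n
    calc f k n * (Kw (a / u * 2 ^ n) * (Y * (a * 2 ^ n) ^ d)) * v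
        ≤ f k n * (2 * Kw (ρ / u) * (Y * (2 ^ d * ρ ^ d))) * v := by gcongr
      _ = 2 ^ (d + 1) * v * f k n * (Kw (ρ / u) * Y * ρ ^ d) := by ring
      _ ≤ z * 2 ^ Nat.find (ex k) * (Kw (ρ / u) * Y * ρ ^ d) := mul_le_mul_of_nonneg_right a1 (by positivity)
      _ = _ := by ring

end

end Vale.Agent.P076N.KEY
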