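import Vale.Agent.P076N.KEY.Cnt1

/-!
# P076N / KEY : row CNT (the number of packets of one class in one cap)
-/

set_option linter.all false

open MeasureTheory Finset
open scoped RealInnerProductSpace

namespace Vale.Agent.P076N.KEY

open Vale.Agent.P076 Vale.Agent.P076N Vale.Agent.P076T

noncomputable section

variable {d : ℕ}

namespace Cnt

theorem num (hd : 1 ≤ d) {a r n σ C c₀ lam Y u τ τm : ℝ} (ha : 0 < a) (hr : 0 < r) (hσ : 0 ≤ σ) (hC : 0 < C)
    (hlam : 0 < lam) (hY : 0 < Y) (hu : 0 < u) (hτ : 0 < τ) (hm : τ ≤ τm)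
    (h1 : a ^ 2 * r ^ d * n ≤ C * (σ + 1) * (lam * Kw (13 * d * τ / r / u) * Y * (13 * d * τ / r) ^ d / r ^ d))
    (h2 : lam * Kw (τm / (r * u)) * Y * τm ^ ((d : ℝ) / 2) ≤ c₀ / (C * (13 * d) ^ (d + 1)) * a ^ 2 * r ^ (2 * d)) :
    n ≤ (σ + 1) * c₀ * (τ / r ^ 2) ^ ((d : ℝ) / 2) * (τ / τm) ^ (1 / 4 : ℝ) := by
  have d1 : (1 : ℝ) ≤ d := by exact_mod_cast hd
  have hτm : 0 < τm := hτ.trans_le hm
  have hx0 : 0 < τ / τm := by positivity
  have hx1 : τ / τm ≤ 1 := (div_le_one hτm).2 hm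
  set q := (τ / τm) ^ (1 / 4 : ℝ) with hq
  set P := τm ^ ((d : ℝ) / 2) with hP
  set t := τ ^ ((d : ℝ) / 2) with ht
  have hq0 : 0 < q := by positivity
  have hP0 : 0 < P := by positivity
  have ht0 : 0 < t := by positivity
  have e1 : τ ^ d = t ^ 2 := by
    rw [ht, sq, ← Real.rpow_add hτ, ← Real.rpow_natCast]; congr 1; ring
  have e2 : t ≤ q ^ 2 * P := by
    have a1 : t = (τ / τm) ^ ((d : ℝ) / 2) * P := by
      rw [ht, hP, ← Real.mul_rpow hx0.le hτm.le, div_mul_cancel₀ _ hτm.ne']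
    have a2 : q ^ 2 = (τ / τm) ^ (1 / 2 : ℝ) := by
      rw [hq, sq, ← Real.rpow_add hx0]; norm_num
    rw [a1, a2]
    exact mul_le_mul_of_nonneg_right (Real.rpow_le_rpow_of_exponent_ge hx0 hx1 (by linarith)) hP0.le
  have e3 : (τ / r ^ 2) ^ ((d : ℝ) / 2) = t / r ^ d := by
    rw [Real.div_rpow hτ.le (by positivity), ← Real.rpow_natCast r 2, ← Real.rpow_mul hr.le, ← Real.rpow_natCast r d]
    congr 2
    push_cast; ring
  have e4 : Kw (13 * d * τ / r / u) ≤ 13 * d / q * Kw (τm / (r * u)) := by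
    have a1 := Kw_le (x := 13 * d * τ / r / u) (y := τm / (r * u)) (K := 13 * d / (τ / τm)) (by positivity)
      (by positivity) (by positivity)
      (by
        have : 13 * d / (τ / τm) * (τm / (r * u)) = 13 * d * (τm * (τm / τ)) / r / u := by field_simp
        rw [this]
        have : 1 ≤ τm / τ := (one_le_div hτ).2 hm
        gcongr
        nlinarith)
      (by
        have : 13 * d / (τ / τm) * (13 * d * τ / r / u) = (13 * d) ^ 2 * (τm / (r * u)) := by field_simp
        rw [this]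
        exact le_mul_of_one_le_left (by positivity) (one_le_pow₀ (by linarith)))
    refine a1.trans (mul_le_mul_of_nonneg_right ?_ (Kw_nonneg (by positivity)))
    rw [Real.div_rpow (by positivity) hx0.le]
    refine div_le_div_of_nonneg_right ?_ hq0.le
    calc (13 * (d : ℝ)) ^ (1 / 4 : ℝ) ≤ (13 * (d : ℝ)) ^ (1 : ℝ) :=
          Real.rpow_le_rpow_of_exponent_le (by linarith) (by norm_num)
      _ = _ := Real.rpow_one _
  have hK := Kw_nonneg (show 0 < τm / (r * u) by positivity)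
  set K := Kw (τm / (r * u))
  have e5 : (13 * d * τ / r) ^ d = (13 * d) ^ d * (t * t) / r ^ d := by rw [div_pow, mul_pow, e1, sq]
  rw [e3]
  have h3 : a ^ 2 * r ^ d * n ≤ a ^ 2 * r ^ d * ((σ + 1) * c₀ * (t / r ^ d) * q) :=
    calc a ^ 2 * r ^ d * n ≤ _ := h1
      _ ≤ C * (σ + 1) * (lam * (13 * d / q * K) * Y * ((13 * d) ^ d * (t * (q ^ 2 * P)) / r ^ d) / r ^ d) := by
          rw [e5]; gcongr
      _ = C * (13 * d) ^ (d + 1) * (σ + 1) * (t * q / r ^ (2 * d)) * (lam * K * Y * P) := by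
          rw [two_mul, pow_add r]; field_simp; ring
      _ ≤ C * (13 * d) ^ (d + 1) * (σ + 1) * (t * q / r ^ (2 * d)) *
          (c₀ / (C * (13 * d) ^ (d + 1)) * a ^ 2 * r ^ (2 * d)) := by gcongr
      _ = _ := by field_simp
  exact le_of_mul_le_mul_left h3 (by positivity)

theorem geo {x y z c c' : E d} {s s' t : ℝ} :
    x - (2 * (s - t)) • c' - z = (x - y - (2 * (s - s')) • c) - (2 * (s - s')) • (c' - c) +
      ((y - z) - (2 * (s' - t)) • c') := by
  simp only [mul_sub, sub_smul, smul_sub]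
  abel

end Cnt

open Cnt in
/-- **[CNT]** -/
theorem cnt (d : ℕ) (hd : 2 ≤ d) : CNT d := by
  classical
  intro hB hL hR hS ψ hψ
  obtain ⟨N, C, w₁, hN1, hN2, hC, hl⟩ := lb1 hd hL hψ
  obtain ⟨c₀, hc₀, hrec⟩ := hR
  obtain ⟨σ₀, w₂, hσ₀, hsr⟩ := hS N hN1
  have d2 : (2 : ℝ) ≤ d := by exact_mod_cast hd
  refine ⟨c₀ / (C * (13 * d) ^ (d + 1)), 5 * (C * (2 * σ₀ + 1 + 1)), max w₁ (max w₂ (max 40 (2 * d))),
    by positivity, by positivity, ?_⟩
  intro S g α φ Y B A β bl base L p₀ c ι I p pt sl a lam u τm hw H F ha hamp hlam hu hτ hτm hE hsm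
  have hw1 : w₁ ≤ S.w := (le_max_left _ _).trans hw
  have hw2 : w₂ ≤ S.w := ((le_max_left _ _).trans (le_max_right _ _)).trans hw
  have w40 : 40 ≤ S.w := (((le_max_left _ _).trans (le_max_right _ _)).trans (le_max_right _ _)).trans hw
  have w2d : 2 * (d : ℝ) ≤ S.w := (((le_max_right _ _).trans (le_max_right _ _)).trans (le_max_right _ _)).trans hw
  have wd : (d : ℝ) ≤ S.w := by linarith
  have hr := S.r_pos
  have hts := S.ts_pos
  have hr0 := S.r0_pos
  have hr0t := r0_le_ts S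
  have hα := H.pos
  have hen : 0 ≤ en g := (hB.1 3 g H.bd).2.2.1
  have hY : 0 < Y := (S.Ys_pos d hα).trans_le H.Y1
  have hE0 := Ee_nonneg S ψ g hα p₀ (ρ := 20 * S.ts) (by linarith) c
  have ha0 : 0 < a := by
    by_contra h
    have := mul_nonpos_of_nonneg_of_nonpos (S.l_pos d).le (not_lt.1 h)
    linarith
  rcases I.eq_empty_or_nonempty with rfl | ⟨i₀, hi₀⟩
  · rw [card_empty, Nat.cast_zero, mul_zero]
    exact mul_nonneg (mul_nonneg (by positivity) (div_pos hts hτ).le) hE0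
  have hθ : ∀ i ∈ I, ∃ θ ∈ L (bl (pt i)), S.par θ = c := by
    intro i hi
    by_contra hne
    have e : ((L (bl (pt i))).filter fun θ => S.par θ = c) = ∅ :=
      filter_eq_empty_iff.2 fun θ h1 h2 => hne ⟨θ, h1, h2⟩
    have h1 := hamp i hi
    rw [e] at h1
    have h2 : Uu (cs ψ S.M ∅ g) (p i) = 0 := by simp [Uu, evo, cs]
    rw [h2, norm_zero] at h1
    linarith
  have hnear : ∀ θ : Zv d, S.par θ = c → ‖ce S.M θ - ce S.r c‖ ≤ d / S.r := by
    intro θ h
    have := S.par_near θ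
    rw [h] at this
    rw [le_div_iff₀ hr]
    linarith
  have hc : ‖ce S.r c‖ ≤ 5 := by
    obtain ⟨θ, h1, h2⟩ := hθ i₀ hi₀
    have a1 := mem_Th_norm (H.sub _ h1)
    have a2 := hnear θ h2
    have a3 : (d : ℝ) / S.r ≤ 1 := (div_le_one hr).2 (wd.trans S.w_le_r)
    have a4 := norm_sub_norm_le (ce S.r c) (ce S.M θ)
    rw [norm_sub_rev] at a4
    linarith
  have hsm1 := sm1 S wd w40
  have hrb : 0 ≤ d * S.rb := mul_nonneg (by linarith) S.rb_pos.le
  have hw103 := S.pw_pos 103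
  have hn : ∀ i ∈ I, Nb (2 * S.ts) p₀ (p i) := fun i hi =>
    Nb_mono (Nb_trans (H.diam _ (F.mem i hi)) (anc F hc wd w40 hi)) (by linarith)
  have hb : ∀ i ∈ I, Nb (S.r0 / 20) (base (bl (pt i))) (p i) := fun i hi =>
    Nb_mono (Nb_trans (H.nb _ (F.mem i hi)) (anc F hc wd w40 hi)) hsm1
  have hI : (#I : ℝ) ≤ S.w ^ N := (card_fm F w40 hn).trans (S.pw_le hN2)
  have hsub : ∀ W ⊆ I, (#W : ℝ) ≤ S.w ^ N := fun W hW =>
    le_trans (by exact_mod_cast card_le_card hW) hI
  have win : ∀ W ⊆ I, (∀ i ∈ W, ∀ j ∈ W, |(p j).2 - (p i).2| ≤ τm) →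
      a ^ 2 * S.r ^ d * #W ≤ C * (2 * σ₀ + 1 + 1) * S.Ee ψ g α p₀ (20 * S.ts) c := by
    intro W hW hdt
    have FW := Fm_sub F hW
    have hrow := hrec N (8 * d) S.r S.t0 τm σ₀ (ce S.r c) ι β W p (fun i => bl (pt i)) (by linarith) hr S.t0_pos hσ₀
      hdt
      (fun i hi j hj hij => by
        have a1 := hb i (hW hi)
        have a2 := hb j (hW hj)
        have hij' : bl (pt i) = bl (pt j) := hij
        rw [← hij'] at a2
        have a3 := (Nb_trans (Nb_symm a1) a2).2
        have a4 : S.r0 ≤ S.t0 := by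
          rw [← S.r0_mul]; exact le_mul_of_one_le_right hr0.le S.one_le_r
        linarith)
      (hsr S A (ce S.r c) ι β W p pt sl (fun i => bl (pt i)) hw2 FW
        (fun i hi => by
          obtain ⟨θ, h1, h2⟩ := hθ i (hW hi)
          have := H.good _ (F.mem i (hW hi)) θ h1
          rwa [h2] at this)
        (hsub W hW))
      (fun σ hσ hrow i hi τ hτ0 hτ1 => by
        obtain ⟨p', hp', hbl, hEe⟩ := hE i (hW hi)
        have hτp : 0 < τ := S.t0_pos.trans_le hτ0
        have hρ0 : S.r0 ≤ τ / S.r := div_le_div_of_nonneg_right hτ0 hr.le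
        have e13 : 13 * d * τ / S.r = 13 * d * (τ / S.r) := by ring
        have hρ1 : S.r0 ≤ 13 * d * τ / S.r := by rw [e13]; nlinarith
        have hρ2 : 13 * d * τ / S.r ≤ 20 * S.ts := by
          rw [div_le_iff₀ hr]
          have : (d : ℝ) ≤ S.r := wd.trans S.w_le_r
          nlinarith
        have hip : Nb (S.r0 / 10) p' (p i) := by
          have a1 : Nb (S.r0 / 20) (base (bl p')) p' := Nb_mono (H.nb _ hp') (by linarith)
          rw [hbl] at a1
          exact Nb_mono (Nb_trans (Nb_symm a1) (hb i (hW hi))) (by linarith)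
        set J := W.filter fun j => |(p j).2 - (p i).2| ≤ τ ∧
          ‖(p j).1 - (p i).1 - (2 * ((p j).2 - (p i).2)) • ce S.r c‖ ≤ 8 * d * τ / S.r with hJ
        have hJW : J ⊆ W := filter_subset _ _
        have key := hl S g α φ Y B A β bl base L p₀ c ι J p pt sl a p' (13 * d * τ / S.r) σ hw1 H hen
          (Fm_sub FW hJW) hc (hsub J (hJW.trans hW)) ha (fun j hj => hamp j (hW (hJW hj))) hρ1
          (fun j hj => by
            obtain ⟨-, b1, b2⟩ := mem_filter.1 hj
            refine ⟨?_, fun θ hθ1 hθ2 => ?_⟩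
            · have := abs_sub_le (p j).2 (p i).2 p'.2
              linarith [hip.2]
            · rw [geo (y := (p i).1) (c := ce S.r c) (s' := (p i).2)]
              have c1 : ‖(2 * ((p j).2 - (p i).2)) • (ce S.M θ - ce S.r c)‖ ≤ 2 * d * (τ / S.r) := by
                rw [norm_smul, Real.norm_eq_abs, abs_mul, abs_two]
                calc 2 * |(p j).2 - (p i).2| * ‖ce S.M θ - ce S.r c‖ ≤ 2 * τ * (d / S.r) :=
                      mul_le_mul (by linarith) (hnear θ hθ2) (norm_nonneg _) (by linarith)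
                  _ = _ := by ring
              have c2 : ‖(2 * ((p i).2 - p'.2)) • ce S.M θ‖ ≤ 8 * (S.r0 / 10) := by
                rw [norm_smul, Real.norm_eq_abs, abs_mul, abs_two]
                calc 2 * |(p i).2 - p'.2| * ‖ce S.M θ‖ ≤ 2 * (S.r0 / 10) * 4 :=
                      mul_le_mul (by linarith [hip.2]) (mem_Th_norm hθ1) (norm_nonneg _) (by linarith)
                  _ = _ := by ring
              have c3 := norm_add_le ((p j).1 - (p i).1 - (2 * ((p j).2 - (p i).2)) • ce S.r c -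
                (2 * ((p j).2 - (p i).2)) • (ce S.M θ - ce S.r c)) ((p i).1 - p'.1 - (2 * ((p i).2 - p'.2)) • ce S.M θ)
              have c4 := norm_sub_le ((p j).1 - (p i).1 - (2 * ((p j).2 - (p i).2)) • ce S.r c)
                ((2 * ((p j).2 - (p i).2)) • (ce S.M θ - ce S.r c))
              have c5 := norm_sub_le ((p i).1 - p'.1) ((2 * ((p i).2 - p'.2)) • ce S.M θ)
              have c6 : 8 * d * τ / S.r = 8 * d * (τ / S.r) := by ring
              have c7 : 2 * (τ / S.r) ≤ d * (τ / S.r) := mul_le_mul_of_nonneg_right d2 (hr0.le.trans hρ0)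
              rw [e13]
              linarith [hip.1])
          hσ (fun k hk => (sum_le_sum_of_subset_of_nonneg hJW fun j _ _ => kk_nonneg _ _ hr _ _ _ _ _).trans
            (hrow k (hJW hk)))
        exact num (by omega) ha0 hr hσ (by linarith) hlam hY hu hτp hτ1
          (key.trans (mul_le_mul_of_nonneg_left (hEe _ hρ1 hρ2) (by positivity))) hsm)
    exact hl S g α φ Y B A β bl base L p₀ c ι W p pt sl a p₀ (20 * S.ts) (2 * σ₀ + 1) hw1 H hen FW hc (hsub W hW) ha
      (fun j hj => hamp j (hW hj)) (by linarith)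
      (fun j hj => by
        have a1 := hn j (hW hj)
        refine ⟨by linarith [a1.2], fun θ hθ1 _ => ?_⟩
        have c2 : ‖(2 * ((p j).2 - p₀.2)) • ce S.M θ‖ ≤ 16 * S.ts := by
          rw [norm_smul, Real.norm_eq_abs, abs_mul, abs_two]
          calc 2 * |(p j).2 - p₀.2| * ‖ce S.M θ‖ ≤ 2 * (2 * S.ts) * 4 :=
                mul_le_mul (by linarith [a1.2]) (mem_Th_norm hθ1) (norm_nonneg _) (by linarith)
            _ = _ := by ring
        have c3 := norm_sub_le ((p j).1 - p₀.1) ((2 * ((p j).2 - p₀.2)) • ce S.M θ)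
        rw [sub_right_comm]
        linarith [a1.1])
      (by linarith) hrow
  set f : ι → ℤ := fun i => ⌊((p i).2 - (p₀.2 - 2 * S.ts)) / τm⌋ with hf
  have h1 : (#(I.image f) : ℝ) ≤ 4 * S.ts / τm + 1 := by
    refine card_int (a := 0) (by positivity) _ fun k hk => ?_
    obtain ⟨i, hi, rfl⟩ := mem_image.1 hk
    have a2 := abs_le.1 (hn i hi).2
    constructor
    · exact_mod_cast Int.floor_nonneg.2 (div_nonneg (by linarith) hτ.le)
    · rw [zero_add]
      exact (Int.floor_le _).trans (div_le_div_of_nonneg_right (by linarith) hτ.le)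
  have h2 : 4 * S.ts / τm + 1 ≤ 5 * (S.ts / τm) := by
    have : 1 ≤ S.ts / τm := (one_le_div hτ).2 hτm
    rw [mul_div_assoc]
    linarith
  have h3 := fib I f (a := a ^ 2 * S.r ^ d) (B := C * (2 * σ₀ + 1 + 1) * S.Ee ψ g α p₀ (20 * S.ts) c)
    (mul_nonneg (by positivity) hE0) (h1.trans h2) fun k => win _ (filter_subset _ _) fun i hi j hj => by
      have e := (mem_filter.1 hj).2.trans (mem_filter.1 hi).2.symm
      have := Int.abs_sub_lt_one_of_floor_eq_floor e
      rw [← sub_div, abs_div, abs_of_pos hτ, div_lt_one hτ] at this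
      have e2 : (p j).2 - (p₀.2 - 2 * S.ts) - ((p i).2 - (p₀.2 - 2 * S.ts)) = (p j).2 - (p i).2 := by ring
      rw [e2] at this
      exact this.le
  calc _ ≤ _ := h3
    _ = _ := by ring

end

end Vale.Agent.P076N.KEY
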