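import Vale.Agent.P076N.KEY.Spec1
import Vale.Agent.P122.FI.Pl

/-!
# P076N / KEY : row CUT
-/

set_option linter.all false

open MeasureTheory Finset
open scoped RealInnerProductSpace FourierTransform

namespace Vale.Agent.P076N.KEY

open Vale.Agent.P076 Vale.Agent.P076N Vale.Agent.P076T

noncomputable section

variable {d : ℕ}

namespace CutAux

/-- the character -/
def ee (r : ℝ) : ℂ := Complex.exp (2 * Real.pi * Complex.I * (r : ℂ))

theorem norm_ee (r : ℝ) : ‖ee r‖ = 1 := by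
  rw [ee, show 2 * Real.pi * Complex.I * (r : ℂ) = ((2 * Real.pi * r : ℝ) : ℂ) * Complex.I by
    push_cast; ring, Complex.norm_exp_ofReal_mul_I]

theorem ee_add (r s : ℝ) : ee (r + s) = ee r * ee s := by
  rw [ee, ee, ee, ← Complex.exp_add]
  congr 1
  push_cast
  ring

theorem ee_cont : Continuous ee := by
  unfold ee
  fun_prop

theorem evo_eq (G : E d → ℂ) (x : E d) (s : ℝ) :
    evo G x s 0 = ∫ η, ee (⟪x, η⟫ - s * ‖η‖ ^ 2) * G η := by
  simp [evo, ee]

theorem four_eq (f : E d → ℂ) (η : E d) : 𝓕 f η = ∫ y, ee (-⟪y, η⟫) * f y := by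
  rw [Real.fourier_eq']
  refine integral_congr_ae (Filter.Eventually.of_forall fun y => ?_)
  simp only [smul_eq_mul, ee]
  congr 2
  push_cast
  ring

theorem cut_eq (a : E d → ℂ) (t₀ : ℝ) (Ω : Set (E d)) (h : E d → ℂ) (η : E d) :
    cut a t₀ Ω h η = a η * ee (t₀ * ‖η‖ ^ 2) * ∫ y in Ω, ee (-⟪y, η⟫) * Uu h (y, t₀) := by
  simp [cut, ee]

theorem cut_four {Ω : Set (E d)} (hΩ : MeasurableSet Ω) (a : E d → ℂ) (t₀ : ℝ) (h : E d → ℂ)
    (η : E d) : cut a t₀ Ω h η =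
      a η * ee (t₀ * ‖η‖ ^ 2) * 𝓕 (Ω.indicator fun y => Uu h (y, t₀)) η := by
  rw [cut_eq, four_eq, ← integral_indicator hΩ]
  congr 2
  ext y
  by_cases hy : y ∈ Ω <;> simp [hy]

theorem intOn {Ω : Set (E d)} (hΩ : MB Ω) {F : Type} [NormedAddCommGroup F] {f : E d → F}
    (hf : Continuous f) : IntegrableOn f Ω :=
  (hf.continuousOn.integrableOn_compact hΩ.2.isCompact_closure).mono_set subset_closure

theorem bp_cont {a : E d → ℝ} (ha : Smo a) (L : ℝ) (c : E d) : Continuous (bp a L c) := by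
  have := ha.cd.continuous
  unfold bp
  fun_prop

theorem bp_int {a : E d → ℝ} (ha : Smo a) {L : ℝ} (hL : 0 < L) (c : E d) :
    Integrable (bp a L c) :=
  (((ha.cd.continuous.integrable_of_hasCompactSupport ha.cs).comp_smul hL.ne').comp_sub_right
    c).ofReal

theorem plan {f : E d → ℂ} (h1 : Integrable f) (h2 : MemLp f 2) :
    Integrable (fun η => ‖𝓕 f η‖ ^ 2) ∧ ∫ η, ‖𝓕 f η‖ ^ 2 = ∫ y, ‖f y‖ ^ 2 := by
  obtain ⟨p1, p2⟩ := P076T.planch h1 h2
  simp_rw [Real.fourierInv_eq_fourier_neg] at p1 p2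
  refine ⟨by simpa only [neg_neg] using p1.comp_neg, ?_⟩
  rw [← p2, integral_neg_eq_self (fun η => ‖𝓕 f η‖ ^ 2)]

/-- a unimodular continuous factor keeps integrability -/
theorem int_ee {X : Type} [MeasurableSpace X] [TopologicalSpace X] [OpensMeasurableSpace X]
    {μ : Measure X} {φ : X → ℝ} (hφ : Continuous φ) {f : X → ℂ} (hf : Integrable f μ) :
    Integrable (fun x => ee (φ x) * f x) μ := by
  refine hf.mono ((ee_cont.comp hφ).aestronglyMeasurable.mul hf.1) ?_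
  filter_upwards with x
  rw [norm_mul, norm_ee, one_mul]

theorem rep1 {g U : E d → ℂ} {Ω : Set (E d)} (hg : Integrable g) (hU : IntegrableOn U Ω)
    (x : E d) (t t₀ : ℝ) :
    evo (fun η => g η * ee (t₀ * ‖η‖ ^ 2) * ∫ y in Ω, ee (-⟪y, η⟫) * U y) x t 0 =
      ∫ y in Ω, evo g (x - y) (t - t₀) 0 * U y := by
  have hF : Integrable (Function.uncurry fun (η y : E d) =>
      ee (⟪x - y, η⟫ - (t - t₀) * ‖η‖ ^ 2) * (g η * U y)) (volume.prod (volume.restrict Ω)) :=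
    int_ee (φ := fun p : E d × E d => ⟪x - p.2, p.1⟫ - (t - t₀) * ‖p.1‖ ^ 2) (by fun_prop)
      (hg.mul_prod hU)
  have e1 : ∀ η : E d, ee (⟪x, η⟫ - t * ‖η‖ ^ 2) *
      (g η * ee (t₀ * ‖η‖ ^ 2) * ∫ y in Ω, ee (-⟪y, η⟫) * U y) =
      ∫ y in Ω, ee (⟪x - y, η⟫ - (t - t₀) * ‖η‖ ^ 2) * (g η * U y) := by
    intro η
    rw [← mul_assoc, ← integral_const_mul]
    congr 1
    ext y
    rw [show ⟪x - y, η⟫ - (t - t₀) * ‖η‖ ^ 2 =
      (⟪x, η⟫ - t * ‖η‖ ^ 2) + (t₀ * ‖η‖ ^ 2 + -⟪y, η⟫) by rw [inner_sub_left]; ring, ee_add, ee_add]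
    ring
  rw [evo_eq]
  simp_rw [e1]
  rw [integral_integral_swap hF]
  congr 1
  ext y
  rw [evo_eq, ← integral_mul_const]
  congr 1
  ext η
  ring

theorem evo_inv (g : E d → ℂ) (s : ℝ) (z : E d) :
    evo g z s 0 = 𝓕⁻ (fun η => ee (-(s * ‖η‖ ^ 2)) * g η) z := by
  rw [evo_eq, Real.fourierInv_eq_fourier_neg, four_eq]
  congr 1
  ext η
  rw [inner_neg_right, neg_neg, real_inner_comm, sub_eq_add_neg, ee_add, mul_assoc]

theorem rep2 {g h : E d → ℂ} (hc : Continuous g) (hg : Integrable g) (hh : Integrable h)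
    (x : E d) (t t₀ : ℝ) (hk : Integrable fun z => evo g z (t - t₀) 0) :
    evo (fun η => g η * h η) x t 0 = ∫ y, evo g (x - y) (t - t₀) 0 * evo h y t₀ 0 := by
  set k : E d → ℂ := fun z => evo g z (t - t₀) 0 with hkd
  set G : E d → ℂ := fun η => ee (-((t - t₀) * ‖η‖ ^ 2)) * g η with hG
  have hkG : k = 𝓕⁻ G := funext fun z => evo_inv g _ z
  have hGc : Continuous G := (ee_cont.comp (by fun_prop)).mul hc
  have hGi : Integrable G := int_ee (by fun_prop) hg
  have hFG : Integrable (𝓕 G) := by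
    have := hk.comp_neg
    rw [hkG] at this
    simpa only [Real.fourierInv_eq_fourier_neg, neg_neg] using this
  have hinv : 𝓕 k = G := by rw [hkG]; exact hGc.fourier_fourierInv_eq hGi hFG
  have hF : Integrable (Function.uncurry fun (y η : E d) =>
      ee (⟪y, η⟫ - t₀ * ‖η‖ ^ 2) * (k (x - y) * h η)) (volume.prod volume) :=
    int_ee (φ := fun p : E d × E d => ⟪p.1, p.2⟫ - t₀ * ‖p.2‖ ^ 2) (by fun_prop)
      ((hk.comp_sub_left x).mul_prod hh)
  have e1 : ∀ y : E d, k (x - y) * evo h y t₀ 0 =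
      ∫ η, ee (⟪y, η⟫ - t₀ * ‖η‖ ^ 2) * (k (x - y) * h η) := by
    intro y
    rw [evo_eq, ← integral_const_mul]
    congr 1
    ext η
    ring
  have e2 : ∀ η : E d, ∫ y, ee (⟪y, η⟫ - t₀ * ‖η‖ ^ 2) * (k (x - y) * h η) =
      ee (⟪x, η⟫ - t * ‖η‖ ^ 2) * (g η * h η) := by
    intro η
    rw [← integral_sub_left_eq_self _ _ x]
    have e3 : ∀ z : E d, ee (⟪x - z, η⟫ - t₀ * ‖η‖ ^ 2) * (k (x - (x - z)) * h η) =
        ee (⟪x, η⟫ - t₀ * ‖η‖ ^ 2) * h η * (ee (-⟪z, η⟫) * k z) := by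
      intro z
      rw [sub_sub_cancel, show ⟪x - z, η⟫ - t₀ * ‖η‖ ^ 2 =
        (⟪x, η⟫ - t₀ * ‖η‖ ^ 2) + -⟪z, η⟫ by rw [inner_sub_left]; ring, ee_add]
      ring
    simp_rw [e3]
    rw [integral_const_mul, ← four_eq, hinv, hG, show ⟪x, η⟫ - t * ‖η‖ ^ 2 =
      (⟪x, η⟫ - t₀ * ‖η‖ ^ 2) + -((t - t₀) * ‖η‖ ^ 2) by ring, ee_add]
    ring
  show _ = ∫ y, k (x - y) * evo h y t₀ 0
  simp_rw [e1]
  rw [integral_integral_swap hF, evo_eq]
  simp_rw [e2]

theorem ker_int (hK : KER d) {a : E d → ℝ} (ha : Smo a) {L : ℝ} (hL : 0 < L) (c : E d) (s : ℝ) :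
    Integrable fun z => evo (bp a L c) z s 0 := by
  obtain ⟨C, -, hC⟩ := hK a ha (d + 1)
  have hc : Continuous fun z => evo (bp a L c) z s 0 := by
    simp_rw [evo_inv, Real.fourierInv_eq_fourier_neg]
    exact (P122.FI.continuous_four (int_ee (by fun_prop) (bp_int ha hL c))).comp continuous_neg
  refine ((wE_integrable (M := ((d + 1 : ℕ) : ℝ)) (L := L + |s| / L) (by push_cast; linarith)
    (by positivity) ((2 * s) • c)).const_mul
      (C * (L ^ d)⁻¹ * (1 + |s| / L ^ 2) ^ (-(d : ℝ) / 2))).mono' hc.aestronglyMeasurable ?_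
  filter_upwards with z
  exact hC L c z s hL

end CutAux

open CutAux in
/-- row K.CUT -/
theorem cut_ (d : ℕ) : CUT d := by
  intro hB hK
  have hU : ∀ {R : ℝ} {h : E d → ℂ}, Bd R h → ∀ t₀ : ℝ, Continuous fun y : E d => Uu h (y, t₀) :=
    fun hh t₀ => (hB.1 _ _ hh).2.1.comp (by fun_prop)
  refine ⟨fun a L c t₀ R Ω h ha hL hΩ hh => ?_, fun ι I a t₀ R Ω h hΩ hh hm hs => ?_,
    fun ι I a t₀ R Ω h hΩ hh hd => ?_⟩
  · have hI := intOn hΩ (hU hh t₀)
    have hf : Integrable (Ω.indicator fun y => Uu h (y, t₀)) :=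
      (integrable_indicator_iff hΩ.1).2 hI
    refine ⟨?_, ?_, fun x t => ?_, fun x t => ?_⟩
    · rw [funext (cut_four hΩ.1 (bp a L c) t₀ h)]
      exact (((bp_cont ha L c).mul (ee_cont.comp (by fun_prop))).mul
        (P122.FI.continuous_four hf)).measurable
    · obtain ⟨b, hb⟩ := ha.cs.exists_bound_of_continuous ha.cd.continuous
      refine ⟨b * ∫ y in Ω, ‖Uu h (y, t₀)‖, fun η => ?_⟩
      rw [cut_eq, norm_mul, norm_mul, norm_ee, mul_one]
      refine mul_le_mul ?_ ((norm_integral_le_integral_norm _).trans (le_of_eq ?_))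
        (norm_nonneg _) ((norm_nonneg _).trans (hb 0))
      · rw [bp, Complex.norm_real]
        exact hb _
      · simp_rw [norm_mul, norm_ee, one_mul]
    · rw [funext (cut_eq (bp a L c) t₀ Ω h)]
      exact rep1 (bp_int ha hL c) hI x t t₀
    · exact rep2 (bp_cont ha L c) (bp_int ha hL c) (hB.1 _ _ hh).1 x t t₀ (ker_int hK ha hL c _)
  · set f : E d → ℂ := Ω.indicator fun y => Uu h (y, t₀) with hfd
    have hf : Integrable f := (integrable_indicator_iff hΩ.1).2 (intOn hΩ (hU hh t₀))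
    have e1 : (fun y => ‖f y‖ ^ 2) = Ω.indicator fun y => ‖Uu h (y, t₀)‖ ^ 2 := by
      ext y
      by_cases hy : y ∈ Ω <;> simp [hfd, hy]
    have hf2 : MemLp f 2 := by
      rw [memLp_two_iff_integrable_sq_norm hf.1, e1]
      exact (integrable_indicator_iff hΩ.1).2 (intOn hΩ ((hU hh t₀).norm.pow 2))
    obtain ⟨p1, p2⟩ := plan hf hf2
    have e2 : ∀ i, en (cut (a i) t₀ Ω h) = ∫ η, ‖a i η‖ ^ 2 * ‖𝓕 f η‖ ^ 2 := by
      intro i
      unfold en
      congr 1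
      ext η
      rw [cut_four hΩ.1, norm_mul, norm_mul, norm_ee, mul_one, mul_pow]
    have hi : ∀ i ∈ I, Integrable fun η => ‖a i η‖ ^ 2 * ‖𝓕 f η‖ ^ 2 := by
      intro i hi
      refine p1.mono' (((hm i hi).norm.pow_const 2).aestronglyMeasurable.mul p1.1) ?_
      filter_upwards with η
      rw [Real.norm_of_nonneg (by positivity)]
      exact mul_le_of_le_one_left (by positivity)
        ((single_le_sum (f := fun i => ‖a i η‖ ^ 2) (fun _ _ => by positivity) hi).trans (hs η))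
    simp_rw [e2]
    rw [← integral_finsetSum _ hi, ← integral_indicator hΩ.1, ← e1, ← p2]
    refine integral_mono (integrable_finsetSum _ hi) p1 fun η => ?_
    simp only
    rw [← sum_mul]
    exact mul_le_of_le_one_left (by positivity) (hs η)
  · ext η
    simp_rw [cut_eq]
    rw [← mul_sum, integral_biUnion_finset I (fun i hi => (hΩ i hi).1)
      (fun i hi j hj hij => hd i hi j hj hij)
      fun i hi => int_ee (φ := fun y : E d => -⟪y, η⟫) (by fun_prop) (intOn (hΩ i hi) (hU hh t₀))]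

end

end Vale.Agent.P076N.KEY
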