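import Vale.Agent.P076N.KEY.Den1

/-!
# P076N / KEY : the row DEN
-/

set_option linter.all false

open MeasureTheory Finset

namespace Vale.Agent.P076N.KEY

open Vale.Agent.P076 Vale.Agent.P076N Vale.Agent.P076T

namespace Den

variable {d : ℕ}

theorem two_pw (S : Sc) {a b c : ℕ} (h1 : a + 1 ≤ c) (h2 : b + 1 ≤ c) : S.w ^ a + S.w ^ b ≤ S.w ^ c := by
  have e1 := S.mul_pw_le S.two h1
  have e2 := S.mul_pw_le S.two h2
  linarith

theorem l_sq (S : Sc) (d : ℕ) : S.l d ^ 2 = S.w ^ (2600 * d + 5200) := by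
  unfold Sc.l; rw [← pow_mul, show 1300 * (d + 2) * 2 = 2600 * d + 5200 by ring]

theorem adm_of (S : Sc) {C : ℝ} (hC : 0 ≤ C) (hw : 4 * C * 2 ^ d ≤ S.w) {ρ ρ₂ : ℝ} {a b c e : ℕ} (h1 : S.w ^ a ≤ ρ)
    (h2 : 10 * ρ ≤ ρ₂) (h3 : ρ₂ ≤ S.w ^ b) (k1 : c ≤ 400) (k2 : 1300 ≤ a) (k3 : 2 * c + b ≤ 2600 * d + 5200)
    (k4 : 2 * c + b + 2 ≤ a + 400) (k5 : 2600 ≤ a + e) (k6 : e + 11 ≤ c) : Adm S d C (ρ, ρ₂) := by
  have hw0 := S.w_pos
  have hρ : 0 < ρ := (S.pw_pos a).trans_le h1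
  have hM := S.M_pos
  have q1 : (S.w ^ c) ^ 2 * ρ₂ ≤ S.w ^ (2 * c + b) := by
    rw [pow_add, pow_mul']; gcongr
  refine ⟨S.w ^ c, S.one_le_pw c, (S.pw_le k1).trans S.le_M, (S.pw_le k2).trans h1, h2, ?_, ?_, ?_⟩
  · rw [l_sq]; exact q1.trans (S.pw_le k3)
  · have e1 : S.w * S.M ≤ S.w ^ 402 := by
      calc S.w * S.M ≤ S.w * S.w ^ 401 := by gcongr; exact S.M_le
        _ = _ := by ring
    have e2 : S.w * ((S.w ^ c) ^ 2 * ρ₂ / S.M) ≤ S.w ^ (a - 1) := by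
      rw [← mul_div_assoc, div_le_iff₀ hM]
      calc S.w * ((S.w ^ c) ^ 2 * ρ₂) ≤ S.w * S.w ^ (2 * c + b) := by gcongr
        _ = S.w ^ (2 * c + b + 1) := by ring
        _ ≤ S.w ^ (a - 1 + 400) := S.pw_le (by omega)
        _ ≤ S.w ^ (a - 1) * S.M := by rw [pow_add]; gcongr; exact S.le_M
    have e3 := two_pw S (a := 402) (b := a - 1) (c := a) (by omega) (by omega)
    show S.w * (S.M + (S.w ^ c) ^ 2 * ρ₂ / S.M) ≤ ρ
    rw [mul_add]; linarith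
  · have e1 : S.s0 ^ 2 / ρ ≤ S.w ^ e := by
      rw [div_le_iff₀ hρ, S.s0_sq]
      calc S.w ^ 2600 ≤ S.w ^ (e + a) := S.pw_le (by omega)
        _ ≤ S.w ^ e * ρ := by rw [pow_add]; gcongr
    have e2 := S.one_le_pw e
    show 2 * C * 2 ^ d * S.w ^ 10 * (1 + S.s0 ^ 2 / ρ) ≤ S.w ^ c
    calc 2 * C * 2 ^ d * S.w ^ 10 * (1 + S.s0 ^ 2 / ρ) ≤ 2 * C * 2 ^ d * S.w ^ 10 * (2 * S.w ^ e) := by
          gcongr; linarith
      _ = (4 * C * 2 ^ d) * S.w ^ (10 + e) := by ring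
      _ ≤ _ := S.mul_pw_le hw (by omega)

/-- the number of dyadic scales -/
theorem few_sc {w ε : ℝ} (hw : 1 ≤ w) (hε : 0 < ε) {a : ℕ} (h : (2 : ℝ) ^ a ≤ w ^ 78) : (a : ℝ) ≤ 156 / ε * w ^ ε := by
  have h1 := Real.log_le_log (by positivity) h
  rw [Real.log_pow, Real.log_pow] at h1
  have h2 := Real.log_le_rpow_div (by linarith : 0 ≤ w) hε
  have h3 := Real.log_two_gt_d9
  have h4 : (0 : ℝ) ≤ a := Nat.cast_nonneg a
  push_cast at h1
  have h5 : 156 / ε * w ^ ε = 156 * (w ^ ε / ε) := by ring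
  nlinarith

theorem tail (S : Sc) {c α e : ℝ} (hc : 0 ≤ c) (hw : c ≤ S.w) (hα : 0 < α)
    (he : e ≤ S.w * S.Y0 d α * S.l d ^ (2 * d)) :
    c * (S.w ^ (1300 * (d + 2) * (2 * d) + 4))⁻¹ * e ≤ S.Ys d α := by
  have hw0 := S.w_pos
  have hY := S.Y0_pos d hα
  have e1 : S.l d ^ (2 * d) = S.w ^ (1300 * (d + 2) * (2 * d)) := by unfold Sc.l; rw [← pow_mul]
  rw [e1] at he
  calc c * (S.w ^ (1300 * (d + 2) * (2 * d) + 4))⁻¹ * e
      ≤ S.w * (S.w ^ (1300 * (d + 2) * (2 * d) + 4))⁻¹ * (S.w * S.Y0 d α * S.w ^ (1300 * (d + 2) * (2 * d))) := by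
        refine (mul_le_mul_of_nonneg_left he (by positivity)).trans ?_
        gcongr
    _ = S.Ys d α := by
        unfold Sc.Ys
        rw [pow_add]
        field_simp

theorem chain {C Z : ℝ} (hC : 1 ≤ C) (hZ : 0 ≤ Z) (f : ℕ → ℝ) (n : ℕ) (h0 : f n ≤ 4 * Z)
    (hs : ∀ j < n, f j ≤ C * f (j + 1) + Z) : f 0 ≤ 4 * (C + 1) ^ n * Z := by
  have : ∀ i ≤ n, f (n - i) ≤ 4 * (C + 1) ^ i * Z := by
    intro i
    induction i with
    | zero => intro _; simpa using h0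
    | succ i ih =>
      intro hi
      have e1 := hs (n - (i + 1)) (by omega)
      rw [show n - (i + 1) + 1 = n - i by omega] at e1
      have e2 := ih (by omega)
      have e3 : (1 : ℝ) ≤ (C + 1) ^ i := one_le_pow₀ (by linarith)
      have e4 : C * f (n - i) ≤ C * (4 * (C + 1) ^ i * Z) := by gcongr
      have e5 : Z ≤ 4 * (C + 1) ^ i * Z := le_mul_of_one_le_left hZ (by linarith)
      rw [pow_succ]
      nlinarith
  simpa using this n le_rfl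

end Den

open Den in
theorem den (d : ℕ) (hd : 2 ≤ d) : DEN d := by
  classical
  intro hB hF hR hS hW
  obtain ⟨κ, hκ, hW⟩ := hW
  refine ⟨κ / 2, by positivity, fun ψ B hψ => ?_⟩
  obtain ⟨Cw, w₁, hCw, hW⟩ := hW B
  obtain ⟨Cs, hCs, hS⟩ := hS ψ (1300 * (d + 2) * (2 * d) + 4) hψ
  obtain ⟨Ct, hCt, hT⟩ := top (by omega) hB hF hR hψ (1300 * (d + 2) * (2 * d) + 4)
  obtain ⟨n, hn⟩ : ∃ n : ℕ, n = 2600 * d + 2564 := ⟨_, rfl⟩
  obtain ⟨C1, hC1⟩ : ∃ C1 : ℝ, C1 = (156 / (κ / 2) + 1 + n) * Cw := ⟨_, rfl⟩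
  obtain ⟨C2, hC2⟩ : ∃ C2 : ℝ, C2 = 2 ^ d * (Cs * (4 * (Cs + 1) ^ n) + 1) := ⟨_, rfl⟩
  have hC1' : 0 ≤ C1 := by rw [hC1]; positivity
  have hC2' : 1 ≤ C2 := by
    have : (1 : ℝ) ≤ 2 ^ d := one_le_pow₀ (by norm_num)
    have : 0 ≤ Cs * (4 * (Cs + 1) ^ n) := by positivity
    rw [hC2]
    nlinarith
  refine ⟨C1 + C2, max (max w₁ 80) (max (4 * Cs * 2 ^ d) Ct), by linarith, fun S g A α hw hg hα hG hA he => ?_⟩
  have v1 : w₁ ≤ S.w := (le_max_left _ _).trans ((le_max_left _ _).trans hw)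
  have v2 : 80 ≤ S.w := (le_max_right _ _).trans ((le_max_left _ _).trans hw)
  have v3 : 4 * Cs * 2 ^ d ≤ S.w := (le_max_left _ _).trans ((le_max_right _ _).trans hw)
  have v4 : Ct ≤ S.w := (le_max_right _ _).trans ((le_max_right _ _).trans hw)
  have v5 : Cs ≤ S.w := by
    have : (1 : ℝ) ≤ 2 ^ d := one_le_pow₀ (by norm_num)
    nlinarith
  have hw0 := S.w_pos
  have hw1 := S.one_le_w
  have h0 : 0 ≤ en g := (hB.1 3 g hg).2.2.1
  have hYs := S.Ys_pos d hα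
  have hr0 := S.r0_pos
  obtain ⟨N₁, hN₁⟩ : ∃ N₁ : ℕ, N₁ = ⌊156 / (κ / 2) * S.w ^ (κ / 2)⌋₊ + 1 := ⟨_, rfl⟩
  set I₁ : Finset (ℝ × ℝ) := ((range N₁).filter fun a => S.r0 * 2 ^ a ≤ S.w ^ 2611).image
    fun a => (S.r0 * 2 ^ a, S.w ^ 2612) with hI₁
  set I₂ : Finset (ℝ × ℝ) := (range n).image fun j => (S.w ^ (2612 + j), S.w ^ (2612 + (j + 1))) with hI₂
  have ten : ∀ a : ℕ, 10 * S.w ^ a ≤ S.w ^ (a + 1) := fun a => S.mul_pw_le (by linarith) le_rfl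
  have adm : ∀ s ∈ I₁ ∪ I₂, Adm S d Cs s := by
    intro s hs
    rcases mem_union.1 hs with h | h
    · obtain ⟨a, ha, rfl⟩ := mem_image.1 h
      have h1 := (mem_filter.1 ha).2
      have h2 : S.w ^ 2533 ≤ S.r0 * 2 ^ a := S.le_r0.trans (le_mul_of_one_le_right hr0.le (one_le_pow₀ (by norm_num)))
      have h3 : 10 * (S.r0 * 2 ^ a) ≤ S.w ^ 2612 := (mul_le_mul_of_nonneg_left h1 (by norm_num)).trans (ten 2611)
      exact adm_of S (a := 2533) (b := 2612) (c := 80) (e := 67) (by linarith) v3 h2 h3 le_rfl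
        (by omega) (by omega) (by omega) (by omega) (by omega) (by omega)
    · obtain ⟨j, hj, rfl⟩ := mem_image.1 h
      have h1 := mem_range.1 hj
      exact adm_of S (a := 2612 + j) (b := 2612 + (j + 1)) (c := 11) (e := 0) (by linarith) v3 le_rfl (ten _) le_rfl
        (by omega) (by omega) (by omega) (by omega) (by omega) (by omega)
  obtain ⟨A', hA', hc, hgood⟩ := exc A (I₁ ∪ I₂)
    (fun s p => Cs * S.D ψ g α p s.2 + S.Ys d α ≤ S.D ψ g α p s.1) (Cw * S.xb κ g α) (by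
      intro s hs
      have hs' := adm s hs
      have h1 : 1 ≤ s.1 := by
        obtain ⟨k, -, -, h, -⟩ := hs'
        exact (S.one_le_pw _).trans h
      refine (hW S g _ α v1 hg hα (wg_mono hG (filter_subset _ _))
        (fun p hp => hA p (filter_subset _ _ hp))).2.1 s.1 h1 ?_
      exact step hCs hS S g _ α hg hα h0 he (tail S (by linarith) v5 hα he) s hs'
        (fun p hp => ⟨(hA p (mem_filter.1 hp).1).1, (hA p (mem_filter.1 hp).1).2.1, (mem_filter.1 hp).2⟩))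
  have hl := S.l_pos d
  have hx : 0 ≤ S.xb (d := d) (κ / 2) g α := by unfold Sc.xb; positivity
  refine ⟨A', hA', hc.trans ?_, fun p hp ρ hρ1 hρ2 => ?_⟩
  · have e0 : 1 ≤ S.w ^ (κ / 2) := Real.one_le_rpow hw1 (by positivity)
    have e1 : (#(I₁ ∪ I₂) : ℝ) ≤ (156 / (κ / 2) + 1 + n) * S.w ^ (κ / 2) := by
      have f1 : #(I₁ ∪ I₂) ≤ N₁ + n := by
        refine (card_union_le _ _).trans (add_le_add ?_ ?_)
        · exact card_image_le.trans ((card_filter_le _ _).trans (card_range _).le)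
        · exact card_image_le.trans (card_range _).le
      have f2 : (N₁ : ℝ) ≤ 156 / (κ / 2) * S.w ^ (κ / 2) + 1 := by
        rw [hN₁]; push_cast
        have := Nat.floor_le (a := 156 / (κ / 2) * S.w ^ (κ / 2)) (by positivity)
        linarith
      have f3 : (#(I₁ ∪ I₂) : ℝ) ≤ N₁ + n := by exact_mod_cast f1
      have f4 : (n : ℝ) ≤ n * S.w ^ (κ / 2) := le_mul_of_one_le_right (by positivity) e0
      nlinarith
    have e2 : S.w ^ (κ / 2) ≤ S.l d ^ (κ / 2) := by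
      have : S.w ≤ S.l d := by simpa [Sc.l] using S.pw_le (show 1 ≤ 1300 * (d + 2) by omega)
      gcongr
    have e3 : S.l d ^ (κ / 2) * S.xb κ g α = S.xb (κ / 2) g α := by
      unfold Sc.xb
      rw [← mul_assoc, ← Real.rpow_add hl]
      congr 2; ring
    have e4 : 0 ≤ S.xb (d := d) κ g α := by unfold Sc.xb; positivity
    calc (#(I₁ ∪ I₂) : ℝ) * (Cw * S.xb κ g α) ≤ (156 / (κ / 2) + 1 + n) * S.l d ^ (κ / 2) * (Cw * S.xb κ g α) := by
          refine mul_le_mul_of_nonneg_right (e1.trans ?_) (by positivity)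
          gcongr
      _ = C1 * S.xb (κ / 2) g α := by rw [← e3, hC1]; ring
      _ ≤ _ := by gcongr; linarith
  · set Z := S.Yq g (cub (S.l1 d) p) + S.Ys d α with hZ
    have hYq : 0 ≤ S.Yq g (cub (S.l1 d) p) :=
      div_nonneg ((hB.1 3 g hg).2.2.2.2.1 _ _).1 (pow_pos (S.l1_pos d) _).le
    have hZ1 : S.Ys d α ≤ Z := by linarith
    have hZ0 : 0 ≤ Z := by linarith
    have t1 : S.D ψ g α p (S.w ^ 2612) ≤ 4 * (Cs + 1) ^ n * Z := by
      refine chain hCs hZ0 (fun j => S.D ψ g α p (S.w ^ (2612 + j))) n ?_ (fun j hj => ?_)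
      · have f1 : S.w ^ (2612 + n) = S.l1 d := by rw [S.l1_eq, show 2612 + n = 2600 * d + 5176 by omega]
        have f2 : 2 * S.w ≤ S.M := by
          have := S.mul_pw_le S.two (show 1 + 1 ≤ 400 by norm_num)
          rw [pow_one] at this
          exact this.trans S.le_M
        have f3 : 2 * S.w * S.M ≤ S.l1 d := by
          rw [S.l1_eq]
          calc 2 * S.w * S.M ≤ 2 * S.w * S.w ^ 401 := by gcongr; exact S.M_le
            _ = 2 * S.w ^ 402 := by ring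
            _ ≤ _ := S.mul_pw_le S.two (by omega)
        have f4 := hT g S.M (S.Lam d α) (S.l1 d) S.w p hg S.one_le_M hw1 f2 f3
        have f5 := tail S hCt v4 hα he
        show S.D ψ g α p (S.w ^ (2612 + n)) ≤ 4 * Z
        rw [f1]
        have f6 : S.D ψ g α p (S.l1 d) ≤ 4 * S.Yq g (cub (S.l1 d) p) + S.Ys d α := f4.trans (add_le_add le_rfl f5)
        linarith
      · have f1 := not_le.1 (hgood p hp _ (mem_union_right _ (mem_image_of_mem _ (mem_range.2 hj))))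
        show S.D ψ g α p (S.w ^ (2612 + j)) ≤ Cs * S.D ψ g α p (S.w ^ (2612 + (j + 1))) + Z
        linarith
    obtain ⟨a, ha1, ha2⟩ := exists_nat_pow_near (x := ρ / S.r0) (y := 2) ((one_le_div hr0).2 hρ1) (by norm_num)
    rw [le_div_iff₀ hr0] at ha1
    rw [div_lt_iff₀ hr0] at ha2
    have hρ0 : 0 < ρ := hr0.trans_le hρ1
    have u1 : S.r0 * 2 ^ (a + 1) ≤ 2 * ρ := by rw [pow_succ]; linarith
    have u2 : S.r0 * 2 ^ (a + 1) ≤ S.w ^ 2611 := by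
      have := S.mul_pw_le v2 (show 2610 + 1 ≤ 2611 by norm_num)
      rw [S.ts_eq] at hρ2
      linarith
    have u3 : a + 1 < N₁ := by
      have f1 : (2 : ℝ) ^ (a + 1) ≤ S.w ^ 78 := by
        have f2 : S.w ^ 2533 * 2 ^ (a + 1) ≤ S.w ^ 2533 * S.w ^ 78 := by
          calc S.w ^ 2533 * 2 ^ (a + 1) ≤ S.r0 * 2 ^ (a + 1) := by gcongr; exact S.le_r0
            _ ≤ S.w ^ 2611 := u2
            _ = _ := by ring
        exact le_of_mul_le_mul_left f2 (S.pw_pos _)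
      rw [hN₁]
      exact Nat.lt_succ_of_le (Nat.le_floor (few_sc hw1 (by positivity) f1))
    have t2 := not_le.1 (hgood p hp _ (mem_union_left _ (mem_image_of_mem _ (mem_filter.2 ⟨mem_range.2 u3, u2⟩))))
    have t3 : S.D ψ g α p ρ ≤ 2 ^ d * S.D ψ g α p (S.r0 * 2 ^ (a + 1)) :=
      Dn_up hB hψ hg S.M_pos (S.Lam_pos d hα).le p hρ0 (by linarith) u1
    have t4 : S.D ψ g α p (S.r0 * 2 ^ (a + 1)) ≤ (Cs * (4 * (Cs + 1) ^ n) + 1) * Z := by
      have f1 : Cs * S.D ψ g α p (S.w ^ 2612) ≤ Cs * (4 * (Cs + 1) ^ n * Z) := by gcongr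
      have f2 : S.D ψ g α p (S.r0 * 2 ^ (a + 1)) < Cs * S.D ψ g α p (S.w ^ 2612) + S.Ys d α := t2
      linarith
    calc S.D ψ g α p ρ ≤ 2 ^ d * ((Cs * (4 * (Cs + 1) ^ n) + 1) * Z) := t3.trans (by gcongr)
      _ = C2 * Z := by rw [hC2]; ring
      _ ≤ _ := by gcongr; linarith

end Vale.Agent.P076N.KEY
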