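import Vale.Agent.P076N.KEY.Sc

/-!
# P076N / KEY : the row FEW (small sets, sets in few cubes, the profile of a lattice)
-/

set_option linter.all false

open MeasureTheory Finset

namespace Vale.Agent.P076N.KEY

open Vale.Agent.P076 Vale.Agent.P076N

namespace Few

variable {d : ℕ}

theorem wg_sub {B ℓ : ℝ} {A A' : Finset (E d × ℝ)} (h : WG B ℓ A) (hs : A' ⊆ A) : WG B ℓ A' := by
  classical
  intro y s
  refine le_trans ?_ (h y s)
  exact_mod_cast card_le_card (filter_subset_filter _ hs)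

theorem big_sub {g : E d → ℂ} {α T : ℝ} {A A' : Finset (E d × ℝ)} (h : Big g A α T) (hs : A' ⊆ A) : Big g A' α T :=
  fun p hp => h p (hs hp)

theorem en_nonneg (g : E d → ℂ) : 0 ≤ en g := integral_nonneg fun _ => by positivity

theorem prof_nonneg {s τ : ℝ} (hs : 0 < s) (hτ : 0 ≤ τ) : 0 ≤ prof d s τ := by unfold prof; positivity

open Classical in
/-- the gain of `T3` at the scales of `S` -/
def Gain (d : ℕ) (κ B C : ℝ) : Prop := ∀ (S : Sc) (g : E d → ℂ) (A : Finset (E d × ℝ)) (α : ℝ), Bd 3 g → 0 < α →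
  WG B (S.l d) A → Big g A α (S.l d ^ 2) → (#A * S.w ≤ S.l d ^ (2 * d + 1) ∨
    ∃ τ : ℝ, 1 ≤ τ ∧ #(A.image (cub τ)) * S.w * prof d S.s0 τ ≤ #A) → (#A : ℝ) ≤ C * S.xb κ g α

theorem gain (h : T3 d) : ∃ κ : ℝ, 0 < κ ∧ ∀ B : ℝ, ∃ C : ℝ, 0 ≤ C ∧ Gain d κ B C := by
  classical
  obtain ⟨κ, hκ, h⟩ := h (1 / (1300 * ((d : ℝ) + 2))) (by positivity)
  refine ⟨κ, hκ, fun B => ?_⟩
  obtain ⟨C, h⟩ := h B
  refine ⟨max C 0, le_max_right _ _, fun S g A α hg hα hW hB hyp => ?_⟩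
  have hl := S.l_pos d
  have h1 := (h (S.l d) g A α (S.one_le_l d) hα.le ⟨hg.meas, hg.bdd, fun η hη => (hg.supp η hη).trans (by norm_num)⟩
    hW hB).2 (by
      rcases hyp with h1 | ⟨τ, hτ, h1⟩
      · left
        rw [Real.rpow_sub hl, S.l_rpow_w, le_div_iff₀ S.w_pos]
        refine h1.trans (le_of_eq ?_)
        rw [← Real.rpow_natCast]
        push_cast
        rfl
      · right
        refine ⟨τ, hτ, ?_⟩
        rw [S.l_rpow_w, S.l_rpow_s0]
        exact h1)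
  have he := en_nonneg g
  unfold Sc.xb
  have hp : 0 ≤ S.l d ^ (2 * ((d : ℝ) + 1) / (d + 2) - κ) := Real.rpow_nonneg hl.le _
  rw [mul_div_assoc', mul_div_assoc', le_div_iff₀ (by positivity)]
  calc (#A : ℝ) * α ^ 2 = α ^ 2 * #A := by ring
    _ ≤ _ := h1
    _ ≤ max C 0 * S.l d ^ (2 * ((d : ℝ) + 1) / (d + 2) - κ) * en g := by gcongr; exact le_max_left _ _
    _ = _ := by ring

open Classical in
/-- the points in the crowded fibres -/
theorem crowd {X Q : Type} [DecidableEq Q] (A : Finset X) (f : X → Q) (b : ℝ) :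
    #((A.filter fun p => b < #(A.filter fun p' => f p' = f p)).image f) * b ≤
      #(A.filter fun p => b < #(A.filter fun p' => f p' = f p)) := by
  set A1 := A.filter fun p => b < #(A.filter fun p' => f p' = f p) with hA1
  rw [card_eq_sum_card_image f A1]
  push_cast
  rw [← nsmul_eq_mul, ← sum_const]
  refine sum_le_sum fun q hq => ?_
  obtain ⟨p, hp, rfl⟩ := mem_image.1 hq
  have h1 := (mem_filter.1 hp).2
  refine h1.le.trans ?_
  have : (A.filter fun p' => f p' = f p) ⊆ A1.filter fun p' => f p' = f p := by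
    intro p' hp'
    obtain ⟨h2, h3⟩ := mem_filter.1 hp'
    refine mem_filter.2 ⟨mem_filter.2 ⟨h2, ?_⟩, h3⟩
    rw [h3]
    exact h1
  exact_mod_cast card_le_card this

theorem floor_near {σ x y : ℝ} (hσ : 0 < σ) (h : |x - y| ≤ σ) : ⌊x / σ⌋ ∈ Icc (⌊y / σ⌋ - 1) (⌊y / σ⌋ + 1) := by
  obtain ⟨h1, h2⟩ := abs_le.1 h
  have e1 : y / σ - 1 ≤ x / σ := by
    rw [div_sub_one hσ.ne']
    gcongr
    linarith
  have e2 : x / σ ≤ y / σ + 1 := by
    rw [div_add_one hσ.ne']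
    gcongr
    linarith
  have f1 := Int.floor_mono e1
  have f2 := Int.floor_mono e2
  rw [Int.floor_sub_one] at f1
  rw [Int.floor_add_one] at f2
  exact mem_Icc.2 ⟨f1, f2⟩

open Classical in
/-- a neighbourhood meets at most `3 ^ (d + 1)` cubes -/
theorem nb_count (A : Finset (E d × ℝ)) (p : E d × ℝ) {τ σ b : ℝ} (hσ : 0 < σ) (hτ : τ ≤ σ) (hb : 0 ≤ b)
    (h : ∀ p₁ ∈ A, (#(A.filter fun p' => cub σ p' = cub σ p₁) : ℝ) ≤ b) :
    (#(A.filter (Nb τ p)) : ℝ) ≤ 3 ^ (d + 1) * b := by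
  set J : Finset ((Fin d → ℤ) × ℤ) := (Fintype.piFinset fun l => Icc (⌊p.1 l / σ⌋ - 1) (⌊p.1 l / σ⌋ + 1)) ×ˢ
    Icc (⌊p.2 / σ⌋ - 1) (⌊p.2 / σ⌋ + 1) with hJ
  have c3 : ∀ a : ℤ, #(Icc (a - 1) (a + 1)) = 3 := fun a => by
    rw [Int.card_Icc]
    omega
  have cJ : #J = 3 ^ (d + 1) := by
    rw [hJ, card_product, Fintype.card_piFinset]
    simp only [c3, prod_const, card_univ, Fintype.card_fin]
    ring
  have sub : (A.filter (Nb τ p)).image (cub σ) ⊆ J := by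
    intro q hq
    obtain ⟨p', hp', rfl⟩ := mem_image.1 hq
    obtain ⟨h1, h2⟩ := (mem_filter.1 hp').2
    refine mem_product.2 ⟨Fintype.mem_piFinset.2 fun l => floor_near hσ ?_, floor_near hσ (h2.trans hτ)⟩
    have := PiLp.norm_apply_le (p'.1 - p.1) l
    rw [PiLp.sub_apply, Real.norm_eq_abs] at this
    linarith
  rw [card_eq_sum_card_image (cub σ) (A.filter (Nb τ p))]
  push_cast
  calc ∑ q ∈ (A.filter (Nb τ p)).image (cub σ), (#((A.filter (Nb τ p)).filter fun p' => cub σ p' = q) : ℝ)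
      ≤ ∑ q ∈ (A.filter (Nb τ p)).image (cub σ), b := by
        refine sum_le_sum fun q hq => ?_
        obtain ⟨p', hp', rfl⟩ := mem_image.1 hq
        refine le_trans ?_ (h p' (mem_filter.1 hp').1)
        exact_mod_cast card_le_card (filter_subset_filter _ (filter_subset _ _))
    _ = #((A.filter (Nb τ p)).image (cub σ)) * b := by rw [sum_const, nsmul_eq_mul]
    _ ≤ 3 ^ (d + 1) * b := by
        refine mul_le_mul_of_nonneg_right ?_ hb
        have := card_le_card sub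
        rw [cJ] at this
        exact_mod_cast this

theorem prof_le {s τ σ : ℝ} (hs : 0 < s) (hτ : 0 ≤ τ) (hσ : 0 ≤ σ) (h1 : σ ≤ 2 * τ) (h2 : τ ≤ s ^ 2) :
    prof d s σ ≤ 3 * 2 ^ d * (1 + τ / s) ^ d := by
  unfold prof
  have a1 : 1 + σ / s ≤ 2 * (1 + τ / s) := by
    have : σ / s ≤ 2 * τ / s := by gcongr
    rw [mul_div_assoc] at this
    linarith
  have a2 : 1 + σ / s ^ 2 ≤ 3 := by
    have : σ / s ^ 2 ≤ 2 := by
      rw [div_le_iff₀ (by positivity)]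
      linarith
    linarith
  calc (1 + σ / s) ^ d * (1 + σ / s ^ 2) ≤ (2 * (1 + τ / s)) ^ d * 3 := by gcongr
    _ = _ := by rw [mul_pow]; ring

/-- the number of dyadic scales -/
theorem scales {ε : ℝ} (hε : 0 < ε) (S : Sc) : ∃ n : ℕ, (n : ℝ) ≤ (5200 / ε + 2) * S.l d ^ ε ∧
    ∀ τ : ℝ, 1 ≤ τ → τ ≤ S.s0 ^ 2 → ∃ i < n, τ ≤ 2 ^ i ∧ (2 : ℝ) ^ i ≤ 2 * τ := by
  have hw := S.w_pos
  have h1 : 1 ≤ S.l d ^ ε := Real.one_le_rpow (S.one_le_l d) hε.le
  have h2 : Real.log S.w ≤ S.l d ^ ε / ε := by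
    refine (Real.log_le_rpow_div hw.le hε).trans ?_
    have : S.w ≤ S.l d := by
      have := S.pw_le (show 1 ≤ 1300 * (d + 2) by omega)
      rwa [pow_one] at this
    gcongr
  refine ⟨⌊5200 / ε * S.l d ^ ε⌋₊ + 2, ?_, fun τ hτ hτ2 => ?_⟩
  · have := Nat.floor_le (show 0 ≤ 5200 / ε * S.l d ^ ε by positivity)
    push_cast
    linarith
  · obtain ⟨i, hi1, hi2⟩ := exists_nat_pow_near hτ (show (1 : ℝ) < 2 by norm_num)
    refine ⟨i + 1, ?_, hi2.le, by rw [pow_succ]; linarith⟩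
    have h3 : (2 : ℝ) ^ i ≤ S.w ^ 2600 := by rw [← S.s0_sq]; linarith
    have h4 := Real.log_le_log (by positivity) h3
    rw [Real.log_pow, Real.log_pow] at h4
    have h5 : 1 / 2 ≤ Real.log 2 := by linarith [Real.log_two_gt_d9]
    have h6 : (i : ℝ) ≤ 5200 / ε * S.l d ^ ε := by
      have a1 : (0 : ℝ) ≤ i := by positivity
      have a2 : 5200 / ε * S.l d ^ ε = 5200 * (S.l d ^ ε / ε) := by ring
      push_cast at h4
      nlinarith
    have := Nat.le_floor h6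
    omega

open Classical in
theorem part_c {κ B C : ℝ} (hκ : 0 < κ) (hC : 0 ≤ C) (h : Gain d κ B C) (S : Sc) (g : E d → ℂ)
    (A : Finset (E d × ℝ)) (α : ℝ) (hw : 3 ^ (d + 2) * 2 ^ d ≤ S.w) (hg : Bd 3 g) (hα : 0 < α) (hW : WG B (S.l d) A)
    (hB : Big g A α (S.l d ^ 2)) :
    ∃ A' ⊆ A, (#(A \ A') : ℝ) ≤ (5200 / (κ / 2) + 2) * C * S.xb (κ / 2) g α ∧ S.Prof A' := by
  obtain ⟨n, hn, hsc⟩ := scales (d := d) (half_pos hκ) S
  have hs := S.s0_pos
  have hw0 := S.w_pos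
  set X : ℕ → Finset (E d × ℝ) := fun i => A.filter fun p =>
    S.w * prof d S.s0 (2 ^ i) < #(A.filter fun p' => cub (2 ^ i) p' = cub (2 ^ i) p) with hX
  have hXs : ∀ i, X i ⊆ A := fun i => filter_subset _ _
  have hXc : ∀ i, (#(X i) : ℝ) ≤ C * S.xb κ g α := fun i =>
    h S g (X i) α hg hα (wg_sub hW (hXs i)) (big_sub hB (hXs i)) (Or.inr ⟨2 ^ i, one_le_pow₀ (by norm_num), by
      rw [mul_assoc]
      exact crowd A (cub (2 ^ i)) _⟩)
  refine ⟨A \ (range n).biUnion X, sdiff_subset, ?_, fun p τ hτ hτ2 => ?_⟩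
  · have a1 : A \ (A \ (range n).biUnion X) ⊆ (range n).biUnion X := by
      intro p hp
      obtain ⟨h1, h2⟩ := mem_sdiff.1 hp
      by_contra h3
      exact h2 (mem_sdiff.2 ⟨h1, h3⟩)
    have a2 : (#(A \ (A \ (range n).biUnion X)) : ℝ) ≤ ∑ i ∈ range n, (#(X i) : ℝ) := by
      exact_mod_cast (card_le_card a1).trans card_biUnion_le
    have a3 : ∑ i ∈ range n, (#(X i) : ℝ) ≤ n * (C * S.xb κ g α) := by
      refine (sum_le_sum fun i _ => hXc i).trans ?_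
      rw [sum_const, card_range, nsmul_eq_mul]
    have a4 : S.l d ^ (κ / 2) * S.xb κ g α = S.xb (κ / 2) g α := by
      unfold Sc.xb
      rw [← mul_assoc, ← Real.rpow_add (S.l_pos d)]
      congr 2
      ring
    have a5 := S.xb_nonneg κ g α (en_nonneg g)
    calc _ ≤ n * (C * S.xb κ g α) := a2.trans a3
      _ ≤ (5200 / (κ / 2) + 2) * S.l d ^ (κ / 2) * (C * S.xb κ g α) := by gcongr
      _ = _ := by rw [← a4]; ring
  · obtain ⟨i, hi, h1, h2⟩ := hsc τ hτ hτ2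
    have hp := prof_nonneg (d := d) hs (show (0 : ℝ) ≤ 2 ^ i by positivity)
    have a1 := nb_count (A \ (range n).biUnion X) p (b := S.w * prof d S.s0 (2 ^ i))
      (show (0 : ℝ) < 2 ^ i by positivity) h1 (by positivity) fun p₁ hp₁ => by
        obtain ⟨b1, b2⟩ := mem_sdiff.1 hp₁
        have b3 : p₁ ∉ X i := fun b => b2 (mem_biUnion.2 ⟨i, mem_range.2 hi, b⟩)
        have b4 : ¬ S.w * prof d S.s0 (2 ^ i) < #(A.filter fun p' => cub (2 ^ i) p' = cub (2 ^ i) p₁) :=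
          fun b => b3 (mem_filter.2 ⟨b1, b⟩)
        refine le_trans ?_ (not_lt.1 b4)
        exact_mod_cast card_le_card (filter_subset_filter _ sdiff_subset)
    have a2 := prof_le (d := d) hs (by linarith) (show (0 : ℝ) ≤ 2 ^ i by positivity) h2 hτ2
    have a3 : 0 ≤ (1 + τ / S.s0) ^ d := by
      have : 0 ≤ τ / S.s0 := div_nonneg (by linarith) hs.le
      positivity
    calc _ ≤ _ := a1
      _ ≤ 3 ^ (d + 1) * (S.w * (3 * 2 ^ d * (1 + τ / S.s0) ^ d)) := by gcongr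
      _ = 3 ^ (d + 2) * 2 ^ d * S.w * (1 + τ / S.s0) ^ d := by ring
      _ ≤ S.w * S.w * (1 + τ / S.s0) ^ d := by gcongr
      _ = _ := by ring

end Few

/-- **[FEW]** -/
theorem few (d : ℕ) (_hd : 2 ≤ d) : FEW d := by
  classical
  intro h
  obtain ⟨κ, hκ, h⟩ := Few.gain h
  refine ⟨κ / 2, half_pos hκ, fun B => ?_⟩
  obtain ⟨C, hC, h⟩ := h B
  have hK : 1 ≤ 5200 / (κ / 2) + 2 := by
    have : 0 ≤ 5200 / (κ / 2) := by positivity
    linarith
  refine ⟨(5200 / (κ / 2) + 2) * C, 3 ^ (d + 2) * 2 ^ d, by positivity, fun S g A α hw hg hα hW hB => ?_⟩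
  have he := Few.en_nonneg g
  have up : (#A : ℝ) ≤ C * S.xb κ g α → (#A : ℝ) ≤ (5200 / (κ / 2) + 2) * C * S.xb (κ / 2) g α := fun h1 => by
    have a1 := S.xb_mono (show κ / 2 ≤ κ by linarith) g α he
    have a2 := S.xb_nonneg (κ / 2) g α he
    calc _ ≤ _ := h1
      _ ≤ 1 * C * S.xb (κ / 2) g α := by rw [one_mul]; gcongr
      _ ≤ _ := by gcongr
  refine ⟨fun h1 => up (h S g A α hg hα hW hB (Or.inl h1)), fun τ hτ h1 => up (h S g A α hg hα hW hB ?_),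
    Few.part_c hκ hC h S g A α hw hg hα hW hB⟩
  by_cases h2 : #A * S.w ≤ S.l d ^ (2 * d + 1)
  · exact Or.inl h2
  · refine Or.inr ⟨τ, hτ, ?_⟩
    have hw0 := S.w_pos
    refine le_of_mul_le_mul_right ?_ hw0
    calc _ = #(A.image (cub τ)) * prof d S.s0 τ * S.w ^ 2 := by ring
      _ ≤ _ := h1
      _ ≤ _ := (not_le.1 h2).le

end Vale.Agent.P076N.KEY
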