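import Vale.Agent.P076N.KEY.Spec1

/-!
# P076N / KEY : the row FSR (helper83)
-/

set_option linter.all false

open MeasureTheory Finset

namespace Vale.Agent.P076N.KEY

open Vale.Agent.P076 Vale.Agent.P076N Vale.Agent.P076T

variable {d : ℕ}

namespace Fsr

theorem vol_ball (x : E d) {ρ : ℝ} (h : 0 ≤ ρ) :
    (volume : Measure (E d)).real (Metric.ball x ρ) ≤ ρ ^ d * (volume : Measure (E d)).real (Metric.ball 0 1) := by
  refine (measureReal_mono Metric.ball_subset_closedBall measure_closedBall_lt_top.ne).trans (le_of_eq ?_)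
  rw [Measure.real, Measure.addHaar_closedBall _ _ h, ENNReal.toReal_mul, ENNReal.toReal_ofReal (by positivity)]
  simp [Measure.real]

theorem ball_le {u v : E d → ℂ} (hu : Integrable fun x => ‖u x‖ ^ 2) (hv : Integrable fun x => ‖v x‖ ^ 2)
    (x : E d) {ρ τ : ℝ} (h : 0 ≤ ρ) (hτ : 0 ≤ τ) (hd : ∀ y ∈ Metric.ball x ρ, ‖u y - v y‖ ^ 2 ≤ τ) :
    ∫ y in Metric.ball x ρ, ‖u y‖ ^ 2 ≤
      2 * (∫ y, ‖v y‖ ^ 2) + 2 * τ * (ρ ^ d * (volume : Measure (E d)).real (Metric.ball 0 1)) := by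
  have i1 : IntegrableOn (fun _ : E d => 2 * τ) (Metric.ball x ρ) := integrableOn_const measure_ball_lt_top.ne
  have i2 : IntegrableOn (fun y => 2 * ‖v y‖ ^ 2) (Metric.ball x ρ) := (hv.const_mul 2).integrableOn
  have a : ∫ y in Metric.ball x ρ, ‖u y‖ ^ 2 ≤ ∫ y in Metric.ball x ρ, (2 * ‖v y‖ ^ 2 + 2 * τ) := by
    refine setIntegral_mono_on hu.integrableOn (i2.add i1) measurableSet_ball fun y hy => ?_
    have h1 : ‖u y‖ ≤ ‖v y‖ + ‖u y - v y‖ := by simpa using norm_add_le (v y) (u y - v y)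
    have h2 := hd y hy
    have h3 := pow_le_pow_left₀ (norm_nonneg _) h1 2
    nlinarith [sq_nonneg (‖v y‖ - ‖u y - v y‖)]
  rw [integral_add i2 i1, integral_const_mul, setIntegral_const, smul_eq_mul] at a
  have b : ∫ y in Metric.ball x ρ, ‖v y‖ ^ 2 ≤ ∫ y, ‖v y‖ ^ 2 :=
    setIntegral_le_integral hv (Filter.Eventually.of_forall fun y => by positivity)
  have c := mul_le_mul_of_nonneg_left (vol_ball x h) (show 0 ≤ 2 * τ by positivity)
  linarith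

theorem bp_meas {a : E d → ℝ} (ha : Smo a) (L : ℝ) (c : E d) : Measurable (bp a L c) := by
  have := ha.cd.continuous
  unfold bp
  fun_prop

theorem cut_nr {a : E d → ℝ} {R₁ L : ℝ} (hs : ∀ η, a η ≠ 0 → ‖η‖ ≤ R₁) (hL : 0 < L) (c : E d) (t₀ : ℝ)
    (Ω : Set (E d)) (h : E d → ℂ) : Nr R₁ L c (cut (bp a L c) t₀ Ω h) := fun η hη => by
  have h1 : a (L • (η - c)) ≠ 0 := fun e => hη (by simp [cut, bp, e])
  simpa [norm_smul, abs_of_pos hL] using hs _ h1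

theorem cut_bd (hc : CUTS d) {a : E d → ℝ} (ha : Smo a) {R R₁ L : ℝ} (hs : ∀ η, a η ≠ 0 → ‖η‖ ≤ R₁) (hL : 0 < L)
    (c : E d) (t₀ : ℝ) {Ω : Set (E d)} (hΩ : MB Ω) {h : E d → ℂ} (hh : Bd R h) :
    Bd (‖c‖ + R₁ / L) (cut (bp a L c) t₀ Ω h) := by
  obtain ⟨a1, a2, -⟩ := hc.1 a L c t₀ R Ω h ha hL hΩ hh
  refine ⟨a1, a2, fun η hη => ?_⟩
  have h1 : ‖η - c‖ ≤ R₁ / L := by rw [le_div_iff₀' hL]; exact cut_nr hs hL c t₀ Ω h η hη
  have h2 : ‖η‖ ≤ ‖c‖ + ‖η - c‖ := by simpa using norm_add_le c (η - c)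
  linarith

theorem mb_ball (x : E d) (r : ℝ) : MB (Metric.ball x r) := ⟨measurableSet_ball, Metric.isBounded_ball⟩

theorem locz (hm : BMP d) (hc : CUTS d) (ht : TLS d) : LOCZ d := by
  intro R₀ R₁ N h0 h1
  obtain ⟨a, ha⟩ := hm.1 R₀ R₁ h0 h1
  obtain ⟨C, C0, hC⟩ := ht a ha.smo N
  refine ⟨C, C0, fun L c t₀ R Ω h hL hΩ hh hn => ⟨cut (bp a L c) t₀ Ω h,
    cut_bd hc ha.smo ha.supp hL c t₀ hΩ hh, cut_nr ha.supp hL c t₀ Ω h, ?_, fun x t m hm hb => ?_⟩⟩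
  · have := hc.2.1 Unit {()} (fun _ => bp a L c) t₀ R Ω h hΩ hh (fun _ _ => bp_meas ha.smo L c) fun η => by
      rw [sum_singleton, bp, Complex.norm_real, Real.norm_of_nonneg (ha.nn _)]
      exact pow_le_one₀ (ha.nn _) (ha.le1 _)
    simpa using this
  · have e : (fun η => bp a L c η * h η) = h := by
      funext η
      by_cases hη : h η = 0
      · rw [hη, mul_zero]
      · rw [bp, ha.one _ (by simpa [norm_smul, abs_of_pos hL] using hn η hη), Complex.ofReal_one, one_mul]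
    have := (hC L c t₀ R Ω h x t hL hΩ hh).1 m hm hb
    rwa [e] at this

theorem fs (hb : BAS d) (hl : LOCZ d) : FS d := by
  intro R₀ N h0
  obtain ⟨C, C0, hC⟩ := hl R₀ (R₀ + 1) N h0 (by linarith)
  refine ⟨2 * C * (volume : Measure (E d)).real (Metric.ball 0 1), by positivity,
    fun L c R h p p₀ ρ ρ₀ m hL hm hρ hh hn hr => ?_⟩
  obtain ⟨h', a1, -, a3, a4⟩ := hC L c p₀.2 R _ h hL (mb_ball p₀.1 ρ₀) hh hn
  obtain ⟨-, -, e0, b1, -⟩ := hb.1 R h hh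
  obtain ⟨-, -, -, b2, -⟩ := hb.1 _ h' a1
  have := ball_le (u := fun x => Uu h (x, p.2)) (v := fun x => Uu h' (x, p.2)) (b1 p.2).1 (b2 p.2).1 p.1 hρ
    (by positivity) fun y hy => a4 y p.2 m hm fun z hz => by
      rw [mem_ball_iff_norm] at hy hz ⊢
      have e : z - p₀.1 = (z - (y - (2 * (p.2 - p₀.2)) • c)) + (y - p.1) + (p.1 - (2 * (p.2 - p₀.2)) • c - p₀.1) := by
        abel
      rw [e]
      have := norm_add₃_le (a := z - (y - (2 * (p.2 - p₀.2)) • c)) (b := y - p.1)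
        (c := p.1 - (2 * (p.2 - p₀.2)) • c - p₀.1)
      linarith
  rw [(b2 p.2).2] at this
  unfold lE
  rw [div_pow, div_eq_mul_inv]
  linarith

theorem rort (hb : BAS d) (hc : CUTS d) (ht : TLS d) : RORT d := by
  intro ψ N hψ
  obtain ⟨C, C0, hC⟩ := ht ψ hψ.smo N
  obtain ⟨R₁, hR⟩ := hψ.smo.cs.isCompact.isBounded.exists_norm_le
  have hs : ∀ η, ψ η ≠ 0 → ‖η‖ ≤ R₁ := fun η h => hR η (subset_tsupport _ h)
  refine ⟨11 ^ d * (2 * C * (volume : Measure (E d)).real (Metric.ball 0 1)), by positivity,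
    fun M R g p ρ m hM hm hρ hg => ?_⟩
  have M0 : 0 < M := by linarith
  have hΩ := mb_ball p.1 (ρ + m * M)
  obtain ⟨-, -, e0, -⟩ := hb.1 R g hg
  have A : ∀ θ ∈ Th d M, lE (cp ψ M θ g) p ρ ≤
      2 * en (cut (bp ψ M (ce M θ)) p.2 (Metric.ball p.1 (ρ + m * M)) g) +
      2 * (C * (m ^ N)⁻¹ * (M ^ d)⁻¹ * en g) * (ρ ^ d * (volume : Measure (E d)).real (Metric.ball 0 1)) := by
    intro θ _
    obtain ⟨-, -, -, b1, -⟩ := hb.1 R _ ((hb.2.2.2.1 ψ R M g hψ M0 hg).1 θ).1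
    obtain ⟨-, -, -, b2, -⟩ := hb.1 _ _ (cut_bd hc hψ.smo hs M0 (ce M θ) p.2 hΩ hg)
    have := ball_le (b1 p.2).1 (b2 p.2).1 p.1 hρ (by positivity) fun y hy =>
      (hC M (ce M θ) p.2 R _ g y p.2 M0 hΩ hg).1 m hm fun z hz => by
        rw [mem_ball_iff_norm] at hy hz ⊢
        simp only [sub_self, mul_zero, zero_smul, sub_zero, abs_zero, zero_div, add_zero] at hz
        have := norm_add_le (z - y) (y - p.1)
        rw [sub_add_sub_cancel] at this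
        linarith
    rwa [(b2 p.2).2] at this
  have B := hc.2.1 _ (Th d M) (fun θ => bp ψ M (ce M θ)) p.2 R _ g hΩ hg (fun θ _ => bp_meas hψ.smo _ _) fun η => by
    refine le_trans (sum_le_sum fun θ _ => ?_) (hψ.le1 (Th d M) (M • η))
    have e : M • (η - ce M θ) = M • η - toV θ := by rw [smul_sub, ce, smul_smul, mul_inv_cancel₀ M0.ne', one_smul]
    have l := hψ.le1 {θ} (M • η)
    rw [sum_singleton] at l
    rw [bp, e, Complex.norm_real, Real.norm_of_nonneg (hψ.nn _), sq]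
    exact mul_le_of_le_one_right (hψ.nn _) l
  have D := sum_le_sum A
  rw [sum_add_distrib, ← mul_sum, sum_const, nsmul_eq_mul] at D
  have F := mul_le_mul_of_nonneg_right (hb.2.2.2.2 M hM) (show 0 ≤ 2 * (C * (m ^ N)⁻¹ * (M ^ d)⁻¹ * en g) *
    (ρ ^ d * (volume : Measure (E d)).real (Metric.ball 0 1)) by positivity)
  have H : 11 ^ d * M ^ d * (2 * (C * (m ^ N)⁻¹ * (M ^ d)⁻¹ * en g) *
      (ρ ^ d * (volume : Measure (E d)).real (Metric.ball 0 1))) =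
      11 ^ d * (2 * C * (volume : Measure (E d)).real (Metric.ball 0 1)) * (m ^ N)⁻¹ * ρ ^ d * en g := by
    field_simp
  have I : lE g p (ρ + m * M) = ∫ y in Metric.ball p.1 (ρ + m * M), ‖Uu g (y, p.2)‖ ^ 2 := rfl
  linarith

end Fsr

theorem fsr (d : ℕ) : FSR d := fun hb hm hc ht =>
  ⟨Fsr.locz hm hc ht, Fsr.fs hb (Fsr.locz hm hc ht), Fsr.rort hb hc ht⟩

end Vale.Agent.P076N.KEY
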