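import Vale.Agent.P076N.KEY.Sc

/-!
# P076N / KEY : row K1
-/

set_option linter.all false

open MeasureTheory Finset

namespace Vale.Agent.P076N.KEY

open Vale.Agent.P076 Vale.Agent.P076N

noncomputable section

variable {d : ℕ}

namespace K1Aux

open Classical

theorem wg_sub {B ℓ : ℝ} {A A' : Finset (E d × ℝ)} (h : A' ⊆ A) (hA : WG B ℓ A) : WG B ℓ A' :=
  fun y s => le_trans (by exact_mod_cast card_le_card (filter_subset_filter _ h)) (hA y s)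

theorem prof_sub {S : Sc} {A A' : Finset (E d × ℝ)} (h : A' ⊆ A) (hA : S.Prof A) : S.Prof A' :=
  fun p τ h1 h2 =>
    le_trans (by exact_mod_cast card_le_card (filter_subset_filter _ h)) (hA p τ h1 h2)

theorem card_fib {α β : Type} [DecidableEq β] (A : Finset α) (f : α → β) {b : ℝ}
    (h : ∀ q, (#(A.filter fun p => f p = q) : ℝ) ≤ b) : (#A : ℝ) ≤ #(A.image f) * b := by
  rw [card_eq_sum_card_image f A]
  push_cast
  simpa using sum_le_card_nsmul _ _ _ fun q (_ : q ∈ A.image f) => h q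

/-- the trivial bound -/
theorem triv {C B : ℝ} (hC : 1 ≤ C) (hB : 0 ≤ B) {ℓ : ℝ} (hl : 1 ≤ ℓ) {A : Finset (E d × ℝ)}
    (h2 : ∀ q, (#(A.filter fun p => cub (ℓ ^ 2) p = q) : ℝ) ≤ C * B * (ℓ ^ 2) ^ (d + 1) / ℓ)
    (h3 : (#(A.image (cub (ℓ ^ 2))) : ℝ) ≤ (4 * ℓ ^ 2 / ℓ ^ 2) ^ (d + 1)) :
    (#A : ℝ) ≤ 4 ^ (d + 1) * C * B * (ℓ * ℓ ^ (2 * d)) := by
  have hl0 : 0 < ℓ := by linarith
  rw [mul_div_cancel_right₀ _ (by positivity)] at h3
  refine (card_fib A _ h2).trans ((mul_le_mul_of_nonneg_right h3 (by positivity)).trans_eq ?_)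
  rw [pow_succ (ℓ ^ 2), ← pow_mul]
  field_simp

/-- the points in heavy cubes -/
theorem heavy {C B : ℝ} (hC : 1 ≤ C) (hB : 0 ≤ B) (S : Sc) {g : E d → ℂ} {α : ℝ} (hα : 0 < α)
    (hg : 0 ≤ en g) {A : Finset (E d × ℝ)} (hA : ∀ p ∈ A, 0 ≤ p.2 ∧ p.2 ≤ S.l d ^ 2)
    (hY : ∀ p ∈ A, S.w * S.Y0 d α ≤ S.Yq g (cub (S.l1 d) p))
    (h1 : ∀ (n : ℕ) (J : Finset ((Fin d → ℤ) × ℤ)), (∀ q ∈ J, 0 ≤ q.2 ∧ q.2 < n) →
      ∑ q ∈ J, lE g (cor (S.l1 d) q) (100 * d * S.l1 d) ≤ C * n * en g)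
    (h2 : ∀ q, (#(A.filter fun p => cub (S.l1 d) p = q) : ℝ) ≤ C * B * S.l1 d ^ (d + 1) / S.l d) :
    (#A : ℝ) ≤ 2 * C ^ 2 * B * (S.l d * S.s0 ^ d / S.w * (en g / α ^ 2)) := by
  have l0 := S.l_pos d
  have l1 := S.l1_pos d
  have w0 := S.w_pos
  have s0 := S.s0_pos
  have w1 := S.one_le_pw 24
  have e1 := h1 (⌊S.w ^ 24⌋₊ + 1) (A.image (cub (S.l1 d))) fun q hq => by
    obtain ⟨p, hp, rfl⟩ := mem_image.1 hq
    refine ⟨Int.floor_nonneg.2 (div_nonneg (hA p hp).1 l1.le), Int.floor_lt.2 ?_⟩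
    have e2 : p.2 / S.l1 d ≤ S.w ^ 24 := by
      rw [div_le_iff₀' l1, S.l1_mul]
      exact (hA p hp).2
    push_cast
    exact e2.trans_lt (Nat.lt_floor_add_one _)
  have e3 : ((⌊S.w ^ 24⌋₊ + 1 : ℕ) : ℝ) ≤ 2 * S.w ^ 24 := by
    push_cast
    linarith [Nat.floor_le (zero_le_one.trans w1)]
  have e4 : (#(A.image (cub (S.l1 d))) : ℝ) * (S.w * S.Y0 d α * S.l1 d ^ d) ≤
      C * (2 * S.w ^ 24) * en g := by
    refine le_trans ?_ (e1.trans (by gcongr))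
    rw [← nsmul_eq_mul]
    refine card_nsmul_le_sum _ _ _ fun q hq => ?_
    obtain ⟨p, hp, rfl⟩ := mem_image.1 hq
    exact (le_div_iff₀ (pow_pos l1 d)).1 (hY p hp)
  have y0 := S.Y0_pos d hα
  rw [← le_div_iff₀ (by positivity)] at e4
  refine (card_fib A _ h2).trans ((mul_le_mul_of_nonneg_right e4 (by positivity)).trans_eq ?_)
  have e5 : S.w ^ 24 = S.l d ^ 2 / S.l1 d := by
    rw [← S.l1_mul, mul_div_cancel_left₀ _ l1.ne']
  rw [e5, Sc.Y0, pow_succ (S.l1 d)]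
  field_simp

end K1Aux

open K1Aux Classical in
/-- row K.K1 -/
theorem k1 (d : ℕ) (hd : 2 ≤ d) : K1 d := by
  rintro hB ⟨C₀, hC₀, o1, o2, o3⟩ ⟨κ₁, hκ₁, hF⟩ ⟨κ₂, hκ₂, hD⟩
  refine ⟨min (1 / (1300 * ((d : ℝ) + 2))) (min κ₁ κ₂), by positivity, fun ψ B hψ hB0 => ?_⟩
  obtain ⟨C₁, w₁, hC₁, hF⟩ := hF B
  obtain ⟨C₂, w₂, hC₂, hD⟩ := hD ψ B hψ
  have c3 : 0 ≤ 2 * C₀ ^ 2 * B := by positivity
  have c4 : 0 ≤ 4 ^ (d + 1) * C₀ * B := by positivity
  refine ⟨C₁ + C₂ + 2 * C₀ ^ 2 * B + 4 ^ (d + 1) * C₀ * B, max w₁ w₂, by linarith,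
    fun S g A α hw hg hα hW hb hn => ?_⟩
  set κ := min (1 / (1300 * ((d : ℝ) + 2))) (min κ₁ κ₂) with hκ
  obtain ⟨-, -, he, -, hl, -⟩ := hB.1 3 g hg
  have x0 := S.xb_nonneg κ g α he
  have x1 := S.xb_ge (κ := κ) (min_le_left _ _) g α he
  have l0 := S.l_pos d
  have l1 := S.one_le_l d
  have w0 := S.w_pos
  have s0 := S.s0_pos
  by_cases hE : en g ≤ S.w * S.Y0 d α * S.l d ^ (2 * d)
  swap
  · refine ⟨∅, empty_subset _, ?_, by simp, fun p τ h1 _ => ?_, by simp⟩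
    · have e1 := triv hC₀ hB0 l1 (A := A)
        (fun q => o2 B _ _ A q hB0 l1 (by nlinarith) hW)
        (o3 _ _ A (0, 0) (by positivity) le_rfl fun p hp =>
          ⟨by simpa using hn p hp, by
            rw [sub_zero, abs_of_nonneg (hb p hp).1]; exact (hb p hp).2.1⟩)
      have e2 : S.l d * S.l d ^ (2 * d) ≤ S.xb κ g α := by
        refine le_trans ?_ x1
        calc _ = S.l d * S.s0 ^ d / S.w * (S.w * S.Y0 d α * S.l d ^ (2 * d) / α ^ 2) := by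
              rw [Sc.Y0]; field_simp
          _ ≤ _ := mul_le_mul_of_nonneg_left
              (div_le_div_of_nonneg_right (not_le.1 hE).le (sq_nonneg α))
              (div_pos (mul_pos l0 (pow_pos s0 d)) w0).le
      rw [sdiff_empty]
      refine (e1.trans (mul_le_mul_of_nonneg_left e2 c4)).trans ?_
      gcongr
      linarith
    · simp only [filter_empty, card_empty, Nat.cast_zero]
      exact mul_nonneg (sq_nonneg _) (pow_nonneg (add_nonneg zero_le_one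
        (div_nonneg (zero_le_one.trans h1) s0.le)) d)
  obtain ⟨A₁, s1, b1, hP⟩ := (hF S g A α ((le_max_left _ _).trans hw) hg hα hW hb).2.2
  obtain ⟨A₂, s2, b2, hd2⟩ := hD S g A₁ α ((le_max_right _ _).trans hw) hg hα (wg_sub s1 hW)
    (fun p hp => hb p (s1 hp)) hE
  have b1' := b1.trans (mul_le_mul_of_nonneg_left (S.xb_mono (κ' := κ)
    ((min_le_right _ _).trans (min_le_left _ _)) g α he) hC₁)
  have b2' := b2.trans (mul_le_mul_of_nonneg_left (S.xb_mono (κ' := κ)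
    ((min_le_right _ _).trans (min_le_right _ _)) g α he) (zero_le_one.trans hC₂))
  set A₃ := A₂.filter fun p => ¬ S.Yq g (cub (S.l1 d) p) ≤ S.w * S.Y0 d α with hA₃
  have s3 : A₃ ⊆ A := (filter_subset _ _).trans (s2.trans s1)
  have b3 := (heavy hC₀ hB0 S hα he (A := A₃) (fun p hp => ⟨(hb p (s3 hp)).1, (hb p (s3 hp)).2.1⟩)
    (fun p hp => (not_le.1 (mem_filter.1 hp).2).le)
    (fun n J hJ => o1 3 _ n g J hg (S.l1_pos d) hJ)
    (fun q => o2 B _ _ A₃ q hB0 l1 (S.l_le_l1 d) (wg_sub s3 hW))).trans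
      (mul_le_mul_of_nonneg_left x1 c3)
  refine ⟨A₂.filter fun p => S.Yq g (cub (S.l1 d) p) ≤ S.w * S.Y0 d α,
    (filter_subset _ _).trans (s2.trans s1), ?_, fun _ => hE.trans ?_,
    prof_sub ((filter_subset _ _).trans s2) hP, fun p hp => ⟨(mem_filter.1 hp).2, fun ρ r1 r2 =>
      (hd2 p (mem_filter.1 hp).1 ρ r1 r2).trans ?_⟩⟩
  · have e1 : A \ A₂.filter (fun p => S.Yq g (cub (S.l1 d) p) ≤ S.w * S.Y0 d α) ⊆
        (A \ A₁) ∪ (A₁ \ A₂) ∪ A₃ := by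
      intro p hp
      simp only [hA₃, mem_sdiff, mem_union, mem_filter] at hp ⊢
      tauto
    have e2 := (card_le_card e1).trans ((card_union_le _ _).trans
      (Nat.add_le_add_right (card_union_le _ _) _))
    have e3 : (#(A \ A₂.filter fun p => S.Yq g (cub (S.l1 d) p) ≤ S.w * S.Y0 d α) : ℝ) ≤
        #(A \ A₁) + #(A₁ \ A₂) + #A₃ := by exact_mod_cast e2
    linarith [mul_nonneg c4 x0]
  · have e1 : S.w ≤ S.s0 ^ d := by
      rw [Sc.s0, ← pow_mul]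
      simpa using S.pw_le (show 1 ≤ 1300 * d by omega)
    rw [mul_comm, Sc.Y0, mul_div_assoc']
    refine mul_le_mul_of_nonneg_left ?_ (pow_pos l0 _).le
    rw [div_le_iff₀ (pow_pos s0 d), mul_comm]
    exact mul_le_mul_of_nonneg_left e1 (sq_nonneg α)
  · have e1 : 0 ≤ S.Yq g (cub (S.l1 d) p) := div_nonneg (hl _ _).1 (pow_pos (S.l1_pos d) d).le
    have e2 := S.Ys_pos d hα
    gcongr
    linarith

end

end Vale.Agent.P076N.KEY
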