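import Vale.Agent.P076N.KEY.K2a

/-!
# P076N / KEY : row K2
-/

set_option linter.all false

open MeasureTheory Finset

namespace Vale.Agent.P076N.KEY

open Vale.Agent.P076 Vale.Agent.P076N Vale.Agent.P076T

noncomputable section

namespace K2x

open Classical

variable {d : ℕ}

theorem cover {X Q : Type} [DecidableEq Q] (A : Finset X) (f : X → Q) {a n : ℝ} (ha : 0 ≤ a)
    (hn : (#(A.image f) : ℝ) ≤ n) (h : ∀ p ∈ A, (#(A.filter fun p' => f p' = f p) : ℝ) ≤ a) :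
    (#A : ℝ) ≤ n * a := by
  rw [Finset.card_eq_sum_card_image f A, Nat.cast_sum]
  refine (Finset.sum_le_card_nsmul _ _ a fun q hq => ?_).trans ?_
  · obtain ⟨p, hp, rfl⟩ := Finset.mem_image.1 hq
    exact h p hp
  · rw [nsmul_eq_mul]; exact mul_le_mul_of_nonneg_right hn ha

theorem amp_split {ι : Type} (T : Finset ι) (u : ι → ℂ) (P : ι → Prop) [DecidablePred P] {a b : ℝ}
    (h : a ≤ ‖∑ θ ∈ T, u θ‖) (h' : ‖∑ θ ∈ T.filter P, u θ‖ ≤ b) :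
    a - b ≤ ‖∑ θ ∈ T.filter (fun θ => ¬ P θ), u θ‖ := by
  rw [← Finset.sum_filter_add_sum_filter_not T P] at h
  linarith [norm_add_le (∑ θ ∈ T.filter P, u θ) (∑ θ ∈ T.filter (fun θ => ¬ P θ), u θ)]

/-- the statement for one colour -/
def K2C (d : ℕ) : Prop := ∃ κ δ : ℝ, 0 < κ ∧ 0 < δ ∧ δ ≤ 1 / 2 ∧ ∀ (ψ : E d → ℝ) (B C₁ : ℝ), Prt ψ → 1 ≤ C₁ →
  ∃ C w₀ : ℝ, 0 ≤ C ∧ ∀ (S : Sc) (g : E d → ℂ) (A : Finset (E d × ℝ)) (α φ : ℝ), w₀ ≤ S.w → Bd 3 g → 0 < α → 0 ≤ φ →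
    WG B (S.l d) A → Big g A α (S.l d ^ 2) → en g ≤ S.l d ^ (2 * d) * α ^ 2 → S.Prof A →
    (∀ p ∈ A, S.Yq g (cub (S.l1 d) p) ≤ S.w * S.Y0 d α ∧ S.Sp g α φ (cub (S.l1 d) p) ∧
      ∀ ρ, S.r0 ≤ ρ → ρ ≤ 40 * S.ts → S.D ψ g α p ρ ≤ C₁ * (S.Yq g (cub (S.l1 d) p) + S.Ys d α)) →
    (∀ p ∈ A, ∀ p' ∈ A, cub S.rb p ≠ cub S.rb p' → S.rb ≤ ‖p'.1 - p.1‖ ∨ S.rb ≤ |p'.2 - p.2|) →
    ∃ A' ⊆ A, (#(A \ A') : ℝ) ≤ C * S.xb κ g α ∧ ∀ q, (#(A'.filter fun p => cub (S.l1 d) p = q) : ℝ) ≤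
      C * (min φ 1 ^ δ + (S.w ^ 4)⁻¹) * S.l1 d ^ (d + 1) * ((S.Yq g q + S.Ys d α) / α ^ 2) ^ (((d : ℝ) + 2) / d)

theorem k2c (hd : 1 ≤ d) (bas : BAS d) (ovl : OVL d) (t4 : T4S d) (bad : BAD d) (ab : ABSS d) (k56 : K56S d) :
    K2C d := by
  obtain ⟨κ, hκ, t4⟩ := t4
  obtain ⟨δ, hδ, hδ', k56⟩ := k56
  obtain ⟨w₂, bad⟩ := bad
  obtain ⟨-, -, -, -, ovl⟩ := ovl
  obtain ⟨b1, -, -, b4, -⟩ := bas
  refine ⟨κ, δ, hκ, hδ, hδ', fun ψ B C₁ hψ hC₁ => ?_⟩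
  obtain ⟨C₂, w₁, hC₂, t4⟩ := t4 ψ B hψ
  obtain ⟨w₃, ab⟩ := ab ψ hψ
  obtain ⟨C₃, w₄, hC₃, k56⟩ := k56 ψ B hψ
  have d1 : (1 : ℝ) ≤ d := by exact_mod_cast hd
  have c0 : 0 ≤ (4 * (d : ℝ) ^ 2) ^ (d + 1) * C₃ * C₁ ^ (((d : ℝ) + 2) / d) := by positivity
  refine ⟨4 * C₂ + (4 * (d : ℝ) ^ 2) ^ (d + 1) * C₃ * C₁ ^ (((d : ℝ) + 2) / d),
    |w₁| + |w₂| + |w₃| + |w₄| + 4 * C₁ + d + 2 * 4 ^ d, by positivity,
    fun S g A α φ hw hg hα hφ hW hB hen hP hA hs => ?_⟩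
  have p1 := abs_nonneg w₁
  have p2 := abs_nonneg w₂
  have p3 := abs_nonneg w₃
  have p4 := abs_nonneg w₄
  have p5 : (2 : ℝ) ^ d ≤ 4 ^ d := pow_le_pow_left₀ (by norm_num) (by norm_num) _
  have p6 : (0 : ℝ) < 2 ^ d := by positivity
  have q1 : w₁ ≤ S.w := by linarith [le_abs_self w₁]
  have q2 : w₂ ≤ S.w := by linarith [le_abs_self w₂]
  have q3 : w₃ ≤ S.w := by linarith [le_abs_self w₃]
  have q4 : w₄ ≤ S.w := by linarith [le_abs_self w₄]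
  have q5 : (d : ℝ) ≤ S.w := by linarith
  have q6 : 2 ^ d ≤ S.w := by linarith
  have q7 : 4 * C₁ ≤ S.w := by linarith
  obtain ⟨c1, c2, c3⟩ := b4 ψ 3 S.M g hψ S.M_pos hg
  have c4 := c3 le_rfl (q5.trans S.w_le_M) S.one_le_M
  have e0 := (b1 3 g hg).2.2.1
  have Y0 := S.Y0_pos d hα
  have Ys0 := S.Ys_pos d hα
  have Yq0 : ∀ q, 0 ≤ S.Yq g q := fun q =>
    div_nonneg ((b1 3 g hg).2.2.2.2.1 _ _).1 (pow_pos (S.l1_pos d) _).le
  have Ys1 : S.Ys d α ≤ S.w * S.Y0 d α :=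
    (div_le_self Y0.le (S.one_le_pw 2)).trans (le_mul_of_one_le_left Y0.le S.one_le_w)
  have r1 : 5 * S.r0 ≤ 40 * S.ts := by
    have := S.r0_le.trans (S.pw_le (b := 2610) (by norm_num))
    rw [← S.ts_eq] at this
    linarith [S.ts_pos]
  set Sf : E d × ℝ → Finset (Zv d) := fun p => Sb S ψ g α A (cub S.rb p) with hSf
  have s1 : ∀ p ∈ A, #(Sf p) * S.w ≤ S.M ^ d := fun p hp => by
    obtain ⟨a1, -, a2⟩ := hA _ (bse_mem S hp).1
    refine card_Sb S ψ g α _ hα q7 (by linarith) ((card_Hv S ψ g α _ hα fun θ p ρ =>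
      ((b1 3 _ (c1 θ).1).2.2.2.2.1 p ρ).1).trans ((a2 _ (by linarith [S.r0_pos]) r1).trans ?_))
      (card_Bc S hd q5 q6 hP fun p I => bad S A p I q2 hP)
    exact mul_le_mul_of_nonneg_left (by linarith) (by linarith)
  refine ⟨A.filter fun p => ¬ α / 2 ≤ ‖Uu (cs ψ S.M (Sf p) g) p‖, Finset.filter_subset _ _, ?_, fun q => ?_⟩
  · have sub : A \ A.filter (fun p => ¬ α / 2 ≤ ‖Uu (cs ψ S.M (Sf p) g) p‖) ⊆ A := Finset.sdiff_subset
    refine (t4 S g _ (α / 2) Sf q1 hg (by linarith) (wg_sub hW sub) (fun p hp => ⟨(hB p (sub hp)).1,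
      (hB p (sub hp)).2.1, s1 p (sub hp), ?_⟩) fun p hp p' hp' a b => ?_).trans ?_
    · simp only [Finset.mem_sdiff, Finset.mem_filter, not_and, not_not] at hp
      exact hp.2 hp.1
    · by_contra hne
      rcases hs p (sub hp) p' (sub hp') (fun e => hne (by simp only [hSf, e])) with h | h <;> linarith
    · have : S.xb κ g (α / 2) = 4 * S.xb κ g α := by unfold Sc.xb; field_simp; ring
      rw [this, add_mul, ← mul_assoc, mul_comm C₂]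
      exact le_add_of_nonneg_right (mul_nonneg c0 (S.xb_nonneg κ g α e0))
  set F := (A.filter fun p => ¬ α / 2 ≤ ‖Uu (cs ψ S.M (Sf p) g) p‖).filter fun p => cub (S.l1 d) p = q with hF
  have hm : ∀ p ∈ F, p ∈ A ∧ ‖Uu (cs ψ S.M (Sf p) g) p‖ ≤ α / 2 ∧ cub (S.l1 d) p = q := fun p hp => by
    simp only [hF, Finset.mem_filter, not_le] at hp
    exact ⟨hp.1.1, hp.1.2.le, hp.2⟩
  have m0 : 0 ≤ min φ 1 ^ δ + (S.w ^ 4)⁻¹ :=
    add_nonneg (Real.rpow_nonneg (le_min hφ zero_le_one) _) (inv_pos.2 (S.pw_pos 4)).le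
  have l0 := S.l1_pos d
  have t0 := S.ts_pos
  have y0 : 0 ≤ (S.Yq g q + S.Ys d α) / α ^ 2 := by have := Yq0 q; positivity
  rcases F.eq_empty_or_nonempty with h0 | ⟨p₁, hp₁⟩
  · rw [h0, Finset.card_empty, Nat.cast_zero]; positivity
  obtain ⟨a1, a2, -⟩ := hA p₁ (hm p₁ hp₁).1
  rw [(hm p₁ hp₁).2.2] at a1 a2
  obtain ⟨Z, z1, z2⟩ := ab S g α φ q q3 hg hα hen a2
  set L : (Fin d → ℤ) × ℤ → Finset (Zv d) := fun b =>
    ((Th d S.M).filter fun θ => ¬ θ ∈ Sb S ψ g α A b).filter fun θ => ¬ θ ∉ Z with hL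
  have lm : ∀ b, ∀ θ ∈ L b, θ ∈ Th d S.M ∧ θ ∉ Hv S ψ g α A b ∧ S.par θ ∉ Bc S A b ∧ θ ∈ Z := fun b θ h => by
    simp only [hL, Sb, Finset.mem_filter, not_and, not_or, not_not] at h
    exact ⟨h.1.1, (h.1.2 h.1.1).1, (h.1.2 h.1.1).2, h.2⟩
  have amp : ∀ p ∈ F, α / 4 ≤ ‖Uu (cs ψ S.M (L (cub S.rb p)) g) p‖ := fun p hp => by
    obtain ⟨x1, x2, x3⟩ := hm p hp
    have x4 := (hB p x1).2.2
    rw [← c4, (c2 _).2.2.2] at x4
    rw [(c2 _).2.2.2, show Sf p = (Th d S.M).filter (· ∈ Sf p) from by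
      rw [Finset.filter_mem_eq_inter, Finset.inter_eq_right.2 (show Sf p ⊆ Th d S.M from
        Finset.filter_subset _ _)]] at x2
    have x5 := z2 (((Th d S.M).filter fun θ => ¬ θ ∈ Sf p).filter fun θ => θ ∉ Z)
      ((Finset.filter_subset _ _).trans (Finset.filter_subset _ _))
      (Finset.disjoint_left.2 fun θ h => (Finset.mem_filter.1 h).2) p x3
    rw [(c2 _).2.2.2] at x5 ⊢
    linarith [amp_split _ _ _ (amp_split _ _ _ x4 x2) x5]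
  have φ0 : 0 < φ := by
    refine hφ.lt_of_ne fun e => ?_
    rw [← e, zero_mul, Nat.cast_nonpos, Finset.card_eq_zero, Finset.image_eq_empty] at z1
    have := amp p₁ hp₁
    rw [Finset.eq_empty_of_forall_notMem (s := L _) fun θ h => by simpa [z1] using (lm _ θ h).2.2.2,
      (c2 _).2.2.2, Finset.sum_empty, norm_zero] at this
    linarith
  have td : 0 < S.ts / d := div_pos t0 (by linarith)
  have n1 := ovl (S.ts / d) (d * S.l1 d) F p₁ td (by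
    refine (div_le_self t0.le d1).trans (le_trans ?_ (le_mul_of_one_le_left l0.le d1))
    rw [S.ts_eq, S.l1_eq]; exact S.pw_le (by omega))
    fun p hp => cub_nb hd l0 ((hm p₁ hp₁).2.2.trans (hm p hp).2.2.symm)
  refine (cover F (cub (S.ts / d)) (a := C₃ * (min φ 1 ^ δ + (S.w ^ 4)⁻¹) * S.ts ^ (d + 1) *
    (C₁ * (S.Yq g q + S.Ys d α) / α ^ 2) ^ (((d : ℝ) + 2) / d)) (mul_nonneg (mul_nonneg (mul_nonneg hC₃ m0)
      (pow_pos t0 _).le) (Real.rpow_nonneg (by rw [mul_div_assoc]; exact mul_nonneg (by linarith) y0) _)) n1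
      fun p₀ hp₀ => ?_).trans ?_
  · have sub : ∀ p ∈ F.filter fun p' => cub (S.ts / d) p' = cub (S.ts / d) p₀, p ∈ F :=
      fun p hp => (Finset.mem_filter.1 hp).1
    have sA : F.filter (fun p' => cub (S.ts / d) p' = cub (S.ts / d) p₀) ⊆ A := fun p hp => (hm p (sub p hp)).1
    refine k56 S g α _ _ _ _ (cub S.rb) (bse S A) L p₀ q4 ⟨hg, hα, hen, wg_sub hW sA,
      Finset.mem_filter.2 ⟨hp₀, rfl⟩, fun p hp => ?_, fun p hp => cub_nb hd S.rb_pos (bse_mem S (sA hp)).2,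
      fun p hp p' hp' => hs p (sA hp) p' (sA hp'), fun p hp => blk_le S hd q5 q6 hP p _ fun p' h =>
        ((@Finset.mem_filter _ _ (_) _ _).1 h).imp_left (sA ·), fun b θ h => (lm b θ h).1,
      fun p hp => amp p (sub p hp), lt_min φ0 one_pos, min_le_right _ _, fun p hp => ?_, fun p hp θ h => ?_,
      fun p hp ρ x y => ?_, ?_, ?_, fun p hp θ h => ?_⟩
    · have := cub_nb hd td (Finset.mem_filter.1 hp).2.symm
      rwa [mul_div_cancel₀ _ (by positivity)] at this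
    · have r0 := pow_pos S.r_pos d
      rcases le_total φ 1 with h | h
      · rw [min_eq_left h, mul_assoc]
        refine le_trans ?_ (z1.trans (le_mul_of_one_le_left (by positivity) (one_le_pow₀ (by norm_num))))
        exact_mod_cast Finset.card_le_card (Finset.image_subset_image fun θ h => (lm _ θ h).2.2.2)
      · rw [min_eq_right h, mul_one]
        exact card_par S q5 fun θ h => (lm _ θ h).1
    · exact not_lt.1 fun x => (lm _ θ h).2.1 (Finset.mem_filter.2 ⟨(lm _ θ h).1, x⟩)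
    · rw [← (hm p (sub p hp)).2.2]; exact (hA p (sA hp)).2.2 ρ x y
    · exact le_trans (by linarith [Yq0 q]) (le_mul_of_one_le_left (by linarith [Yq0 q]) hC₁)
    · have := mul_le_mul_of_nonneg_right q7 (mul_pos S.w_pos Y0).le
      have := mul_le_mul_of_nonneg_left (add_le_add a1 Ys1) (by linarith : 0 ≤ C₁)
      have := mul_nonneg (by linarith : 0 ≤ C₁) (mul_pos S.w_pos Y0).le
      linarith
    · refine (mul_le_mul_of_nonneg_left (crw_mono S sA _ _) (S.pw_pos _).le).trans (not_lt.1 fun x => ?_)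
      exact (lm _ θ h).2.2.1 (Finset.mem_filter.2 ⟨Finset.mem_image_of_mem _ (lm _ θ h).1, p, sA hp, rfl, x⟩)
  · rw [mul_div_assoc C₁, Real.mul_rpow (by linarith) y0, show 4 * (d * S.l1 d) / (S.ts / d) =
      4 * (d : ℝ) ^ 2 * S.l1 d / S.ts by field_simp, div_pow, mul_pow _ (S.l1 d)]
    have x0 := Real.rpow_nonneg y0 (((d : ℝ) + 2) / d)
    have x1 : 0 ≤ 4 * C₂ * (min φ 1 ^ δ + (S.w ^ 4)⁻¹) * S.l1 d ^ (d + 1) *
      ((S.Yq g q + S.Ys d α) / α ^ 2) ^ (((d : ℝ) + 2) / d) := by positivity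
    refine le_trans (le_of_eq ?_) (le_trans (le_add_of_nonneg_left x1) (by rw [← add_mul, ← add_mul, ← add_mul]))
    field_simp

end K2x

open K2x Classical in
theorem k2 (d : ℕ) (hd : 2 ≤ d) : K2 d := by
  intro bas ovl t4 bad ab k56
  obtain ⟨κ, δ, hκ, hδ, hδ', h⟩ := k2c (by omega) bas ovl t4 bad ab k56
  refine ⟨κ, δ, hκ, hδ, hδ', fun ψ B C₁ hψ hC₁ => ?_⟩
  obtain ⟨C, w₀, hC, h⟩ := h ψ B C₁ hψ hC₁
  refine ⟨Fintype.card ((Fin d → ZMod 2) × ZMod 2) * C, w₀, by positivity,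
    fun S g A α φ hw hg hα hφ hW hB hen hP hA => ?_⟩
  simp only [mul_assoc] at h ⊢
  refine split A (col S.rb) _ _ _ fun k => ?_
  have sub := Finset.filter_subset (fun p => col S.rb p = k) A
  exact h S g _ α φ hw hg hα hφ (wg_sub hW sub) (fun p hp => hB p (sub hp)) hen (prof_sub S hP sub)
    (fun p hp => hA p (sub hp)) fun p hp p' hp' => col_sep S.rb_pos
      ((Finset.mem_filter.1 hp).2.trans (Finset.mem_filter.1 hp').2.symm)

end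

end Vale.Agent.P076N.KEY
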