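import Vale.Agent.P076N.KEY.Sc

/-!
# P076N / KEY : row K3, the last step
-/

set_option linter.all false

open MeasureTheory Finset

namespace Vale.Agent.P076N.KEY

open Vale.Agent.P076 Vale.Agent.P076N

noncomputable section

namespace K3x

variable {d : ℕ}

lemma rpow_nn {φ δ : ℝ} (h0 : 0 < δ) (h1 : δ ≤ 1 / 2) : 0 ≤ φ ^ δ := by
  rcases le_or_gt 0 φ with h | h
  · exact Real.rpow_nonneg h _
  · rw [Real.rpow_def_of_neg h]
    refine mul_nonneg (Real.exp_pos _).le (Real.cos_nonneg_of_mem_Icc ⟨?_, ?_⟩)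
    · have := Real.pi_pos
      nlinarith
    · have := Real.pi_pos
      nlinarith

lemma card_le_fib {X Y : Type} [DecidableEq Y] (A : Finset X) (f : X → Y) {c : ℝ}
    (h : ∀ p ∈ A, (#(A.filter fun x => f x = f p) : ℝ) ≤ c) : (#A : ℝ) ≤ #(A.image f) * c := by
  rw [Finset.card_eq_sum_card_image f A]
  push_cast
  calc ∑ y ∈ A.image f, (#(A.filter fun x => f x = y) : ℝ) ≤ ∑ _y ∈ A.image f, c :=
        Finset.sum_le_sum fun y hy => by
          obtain ⟨p, hp, rfl⟩ := Finset.mem_image.1 hy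
          exact h p hp
    _ = _ := by rw [Finset.sum_const, nsmul_eq_mul]

lemma wg_mono {B B' ℓ : ℝ} {A A' : Finset (E d × ℝ)} (h : WG B ℓ A) (h1 : A' ⊆ A) (h2 : B ≤ B') : WG B' ℓ A' := by
  classical
  intro y s
  refine le_trans ?_ ((h y s).trans h2)
  exact_mod_cast Finset.card_le_card (Finset.filter_subset_filter _ h1)

lemma dyad {x : ℝ} (hx : 1 ≤ x) : ∃ j : ℕ, x ≤ 2 ^ j ∧ (2 : ℝ) ^ j ≤ 2 * x := by
  obtain ⟨n, h1, h2⟩ := exists_nat_pow_near hx (by norm_num : (1 : ℝ) < 2)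
  exact ⟨n + 1, h2.le, by rw [pow_succ]; linarith⟩

lemma sdiff_le {X : Type} [DecidableEq X] (A B C : Finset X) : (#(A \ C) : ℝ) ≤ #(A \ B) + #(B \ C) := by
  have : A \ C ⊆ (A \ B) ∪ (B \ C) := sdiff_triangle A B C
  exact_mod_cast (Finset.card_le_card this).trans (Finset.card_union_le _ _)

lemma nb_zero {T : ℝ} {g : E d → ℂ} {A : Finset (E d × ℝ)} {α : ℝ} (hb : Big g A α T) (hx : ∀ p ∈ A, ‖p.1‖ ≤ T) :
    ∀ p ∈ A, Nb T 0 p := fun p hp => ⟨by simpa using hx p hp, by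
      have := hb p hp
      simp only [Prod.snd_zero, sub_zero]
      rw [abs_of_nonneg this.1]
      exact this.2.1⟩

/-- the bound in a cube with a small density or with few directions -/
lemma rest (S : Sc) (hd : 2 ≤ d) {α x Y : ℝ} (hα : 0 < α) (hx0 : 0 ≤ x) (hx1 : x ≤ 1) (hY0 : 0 ≤ Y)
    (hY : Y ≤ S.w * S.Y0 d α) (h : Y < S.Ys d α ∨ x < (S.w ^ 4)⁻¹) :
    (x + (S.w ^ 4)⁻¹) * ((Y + S.Ys d α) / α ^ 2) ^ (((d : ℝ) + 2) / d) ≤ 8 / (S.w ^ 2 * S.l d) := by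
  have hw := S.two
  have hd' : (2 : ℝ) ≤ d := by exact_mod_cast hd
  have e1 : 1 ≤ ((d : ℝ) + 2) / d := by rw [le_div_iff₀ (by linarith)]; linarith
  have e2 : ((d : ℝ) + 2) / d ≤ 2 := by rw [div_le_iff₀ (by linarith)]; linarith
  have y0 := S.Y0_pos d hα
  have ys := S.Ys_pos d hα
  have l0 := S.l_pos d
  have w2 : 4 ≤ S.w ^ 2 := by nlinarith
  have w4 : (S.w ^ 4)⁻¹ ≤ 1 := inv_le_one_of_one_le₀ (S.one_le_pw 4)
  have key : ∀ c : ℝ, 0 ≤ c → Y + S.Ys d α ≤ c * S.Y0 d α →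
      ((Y + S.Ys d α) / α ^ 2) ^ (((d : ℝ) + 2) / d) ≤ c ^ (((d : ℝ) + 2) / d) * (S.l d)⁻¹ := by
    intro c hc h1
    rw [← S.Y0_rpow (by omega) hα, ← Real.mul_rpow hc (by positivity), ← mul_div_assoc]
    exact Real.rpow_le_rpow (by positivity) (div_le_div_of_nonneg_right h1 (by positivity)) (by linarith)
  rcases h with h | h
  · have k1 := key (2 / S.w ^ 2) (by positivity) (by
      have : S.Ys d α = S.Y0 d α / S.w ^ 2 := rfl
      rw [div_mul_eq_mul_div, mul_div_assoc, ← this]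
      linarith)
    have k2 : (2 / S.w ^ 2) ^ (((d : ℝ) + 2) / d) ≤ 2 / S.w ^ 2 :=
      Real.rpow_le_self_of_le_one (by positivity) (by rw [div_le_one (by positivity)]; linarith) e1
    calc _ ≤ 2 * (2 / S.w ^ 2 * (S.l d)⁻¹) :=
          mul_le_mul (by linarith) (k1.trans (mul_le_mul_of_nonneg_right k2 (by positivity))) (by positivity)
            (by norm_num)
      _ = 4 / (S.w ^ 2 * S.l d) := by field_simp; norm_num
      _ ≤ _ := div_le_div_of_nonneg_right (by norm_num) (by positivity)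
  · have k0 : S.Ys d α ≤ S.w * S.Y0 d α := by
      have : S.Ys d α ≤ S.Y0 d α := div_le_self y0.le (by linarith)
      nlinarith
    have k1 := key (2 * S.w) (by positivity) (by linarith)
    have k2 : (2 * S.w) ^ (((d : ℝ) + 2) / d) ≤ (2 * S.w) ^ 2 := by
      rw [← Real.rpow_two]
      exact Real.rpow_le_rpow_of_exponent_le (by linarith) e2
    calc _ ≤ 2 * (S.w ^ 4)⁻¹ * ((2 * S.w) ^ 2 * (S.l d)⁻¹) :=
          mul_le_mul (by linarith) (k1.trans (mul_le_mul_of_nonneg_right k2 (by positivity))) (by positivity)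
            (by positivity)
      _ = 8 / (S.w ^ 2 * S.l d) := by field_simp; norm_num

/-- the bound in a good cube -/
lemma good (hd : 2 ≤ d) {φ δ v Y Ys a : ℝ} (hφ : 0 ≤ φ) (hδ : 0 < δ) (ha : 0 < a) (hYs : 0 ≤ Ys) (h1 : Ys ≤ Y)
    (h2 : v ≤ min φ 1 ^ δ) :
    (min φ 1 ^ δ + v) * ((Y + Ys) / a) ^ (((d : ℝ) + 2) / d) ≤ 8 * φ ^ δ * (Y / a) ^ (((d : ℝ) + 2) / d) := by
  have hd' : (2 : ℝ) ≤ d := by exact_mod_cast hd
  have e2 : ((d : ℝ) + 2) / d ≤ 2 := by rw [div_le_iff₀ (by linarith)]; linarith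
  have hY : 0 ≤ Y := hYs.trans h1
  have k1 : min φ 1 ^ δ ≤ φ ^ δ := Real.rpow_le_rpow (le_min hφ zero_le_one) (min_le_left _ _) hδ.le
  have k2 : ((Y + Ys) / a) ^ (((d : ℝ) + 2) / d) ≤ 4 * (Y / a) ^ (((d : ℝ) + 2) / d) := by
    have k3 : (2 : ℝ) ^ (((d : ℝ) + 2) / d) ≤ 4 := by
      refine (Real.rpow_le_rpow_of_exponent_le (by norm_num) e2).trans ?_
      norm_num
    calc _ ≤ (2 * (Y / a)) ^ (((d : ℝ) + 2) / d) := Real.rpow_le_rpow (by positivity) (by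
          rw [← mul_div_assoc]
          exact div_le_div_of_nonneg_right (by linarith) ha.le) (by positivity)
      _ = 2 ^ (((d : ℝ) + 2) / d) * (Y / a) ^ (((d : ℝ) + 2) / d) := Real.mul_rpow (by norm_num) (by positivity)
      _ ≤ _ := mul_le_mul_of_nonneg_right k3 (by positivity)
  calc _ ≤ (2 * φ ^ δ) * (4 * (Y / a) ^ (((d : ℝ) + 2) / d)) :=
        mul_le_mul (by linarith) k2 (by positivity) (by positivity)
    _ = _ := by ring

lemma scales (d : ℕ) {ℓ : ℝ} (hℓ : 1 ≤ ℓ) (hw : 2 ≤ ℓ ^ (1 / (1300 * ((d : ℝ) + 2)))) :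
    ∃ S : Sc, S.w = ℓ ^ (1 / (1300 * ((d : ℝ) + 2))) ∧ S.l d = ℓ ∧
      S.l1 d = ℓ ^ (2 - 24 / (1300 * ((d : ℝ) + 2))) ∧ (S.w ^ 48)⁻¹ = ℓ ^ (-(2 * (24 / (1300 * ((d : ℝ) + 2))))) := by
  obtain ⟨jr, r1, r2⟩ := dyad (x := (ℓ ^ (1 / (1300 * ((d : ℝ) + 2)))) ^ 50) (one_le_pow₀ (by linarith))
  obtain ⟨jM, M1, M2⟩ := dyad (x := (ℓ ^ (1 / (1300 * ((d : ℝ) + 2)))) ^ 400) (one_le_pow₀ (by linarith))
  have h0 : 0 < ℓ := by linarith
  have pw : ∀ k : ℕ, (ℓ ^ (1 / (1300 * ((d : ℝ) + 2)))) ^ k = ℓ ^ ((k : ℝ) / (1300 * ((d : ℝ) + 2))) := fun k => by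
    rw [← Real.rpow_natCast, ← Real.rpow_mul h0.le]
    congr 1
    ring
  have hl : (⟨_, jr, jM, hw, r1, r2, M1, M2⟩ : Sc).l d = ℓ := by
    show (ℓ ^ (1 / (1300 * ((d : ℝ) + 2)))) ^ (1300 * (d + 2)) = ℓ
    rw [pw]
    push_cast
    rw [div_self (by positivity), Real.rpow_one]
  refine ⟨⟨_, jr, jM, hw, r1, r2, M1, M2⟩, rfl, hl, ?_, ?_⟩
  · unfold Sc.l1
    rw [hl]
    show ℓ ^ 2 / (ℓ ^ (1 / (1300 * ((d : ℝ) + 2)))) ^ 24 = _
    rw [pw, Real.rpow_sub h0, Real.rpow_two]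
    norm_num
  · show ((ℓ ^ (1 / (1300 * ((d : ℝ) + 2)))) ^ 48)⁻¹ = _
    rw [pw, Real.rpow_neg h0.le]
    congr 2
    push_cast
    ring

end K3x

open K3x in
theorem k3 (d : ℕ) (hd : 2 ≤ d) : K3 d := by
  classical
  intro hB hM hO hF h1 h2
  obtain ⟨ψ, hψ⟩ := hM.2
  obtain ⟨CO, cO, _, O2, O3⟩ := hO
  obtain ⟨κF, κF0, hF⟩ := hF
  obtain ⟨κ1, κ10, h1⟩ := h1
  obtain ⟨κ2, δ, κ20, δ0, δ1, h2⟩ := h2
  have hd' : (2 : ℝ) ≤ d := by exact_mod_cast hd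
  obtain ⟨κ, κ0, k1, k2, k3, k4⟩ : ∃ κ : ℝ, 0 < κ ∧ κ ≤ 1 ∧ κ ≤ κF ∧ κ ≤ κ1 ∧ κ ≤ κ2 :=
    ⟨min (min 1 κF) (min κ1 κ2), lt_min (lt_min one_pos κF0) (lt_min κ10 κ20),
      (min_le_left _ _).trans (min_le_left _ _), (min_le_left _ _).trans (min_le_right _ _),
      (min_le_right _ _).trans (min_le_left _ _), (min_le_right _ _).trans (min_le_right _ _)⟩
  refine ⟨24 / (1300 * ((d : ℝ) + 2)), κ, δ, by positivity, by
    rw [div_le_iff₀ (by positivity)]; linarith, κ0, δ0, fun B₀ => ?_⟩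
  obtain ⟨B, B0, B1⟩ : ∃ B : ℝ, 0 ≤ B ∧ B₀ ≤ B := ⟨max 0 B₀, le_max_left _ _, le_max_right _ _⟩
  obtain ⟨CF, wF, cF, hF⟩ := hF B
  obtain ⟨C1, w1, c1, h1⟩ := h1 ψ B hψ B0
  obtain ⟨C2, w2, c2, h2⟩ := h2 ψ B C1 hψ c1
  obtain ⟨W, W0, W1, W2, W3, W4⟩ : ∃ W : ℝ, 2 ≤ W ∧ wF ≤ W ∧ w1 ≤ W ∧ w2 ≤ W ∧ 4 ^ (d + 1) * (8 * C2) ≤ W :=
    ⟨max (max 2 wF) (max (max w1 w2) (4 ^ (d + 1) * (8 * C2))), (le_max_left _ _).trans (le_max_left _ _),
      (le_max_right _ _).trans (le_max_left _ _), ((le_max_left _ _).trans (le_max_left _ _)).trans (le_max_right _ _),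
      ((le_max_right _ _).trans (le_max_left _ _)).trans (le_max_right _ _),
      (le_max_right _ _).trans (le_max_right _ _)⟩
  obtain ⟨Z, hZ⟩ : ∃ Z : ℝ, Z = 6 ^ d * (4 ^ (d + 1) * (CO * B * ((W ^ (1300 * (d + 2))) ^ 2) ^ (d + 1))) := ⟨_, rfl⟩
  have Z0 : 0 ≤ Z := by rw [hZ]; positivity
  refine ⟨C1 + 8 * C2 + CF + Z, fun ℓ g A α φ hℓ hα hg hW₀ hb hx hs => ?_⟩
  have hW : WG B ℓ A := wg_mono hW₀ Subset.rfl B1
  obtain ⟨_, _, eg, _, b5, _, b7⟩ := hB.1 3 g hg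
  have ℓ0 : 0 < ℓ := by linarith
  have emp : ∀ q, (#((∅ : Finset (E d × ℝ)).filter fun p => cub (ℓ ^ (2 - 24 / (1300 * ((d : ℝ) + 2)))) p = q) : ℝ) ≤
      (C1 + 8 * C2 + CF + Z) * φ ^ δ * (ℓ ^ (2 - 24 / (1300 * ((d : ℝ) + 2)))) ^ (d + 1) *
        (lE g (cor (ℓ ^ (2 - 24 / (1300 * ((d : ℝ) + 2)))) q) (100 * d * ℓ ^ (2 - 24 / (1300 * ((d : ℝ) + 2)))) /
          ((ℓ ^ (2 - 24 / (1300 * ((d : ℝ) + 2)))) ^ d * α ^ 2)) ^ (((d : ℝ) + 2) / d) := by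
    intro q
    rw [Finset.filter_empty, Finset.card_empty, Nat.cast_zero]
    have := rpow_nn (φ := φ) δ0 δ1
    have := (b5 (cor (ℓ ^ (2 - 24 / (1300 * ((d : ℝ) + 2)))) q) (100 * d * ℓ ^ (2 - 24 / (1300 * ((d : ℝ) + 2))))).1
    positivity
  have xp : 0 ≤ ℓ ^ (2 * ((d : ℝ) + 1) / (d + 2) - κ) * (en g / α ^ 2) := by positivity
  rcases A.eq_empty_or_nonempty with rfl | ⟨p₀, hp₀⟩
  · refine ⟨∅, Subset.rfl, ?_, emp⟩
    rw [mul_assoc]
    simp only [Finset.sdiff_self, Finset.card_empty, Nat.cast_zero]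
    positivity
  have hφ : 0 ≤ φ := by
    obtain ⟨h, _, _, h3, _⟩ := hs p₀ hp₀
    exact le_trans measureReal_nonneg h3
  rcases lt_or_ge (ℓ ^ (1 / (1300 * ((d : ℝ) + 2)))) W with hw | hw
  · -- small scales
    refine ⟨∅, Finset.empty_subset _, ?_, emp⟩
    rw [Finset.sdiff_empty, mul_assoc]
    have a1 : ℓ ≤ W ^ (1300 * (d + 2)) := by
      have := pow_le_pow_left₀ (by positivity) hw.le (1300 * (d + 2))
      rw [← Real.rpow_natCast, ← Real.rpow_mul ℓ0.le] at this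
      push_cast at this
      rwa [one_div_mul_cancel (by positivity), Real.rpow_one] at this
    have a2 := O3 (ℓ ^ 2) (ℓ ^ 2) A 0 (by positivity) le_rfl (nb_zero hb hx)
    rw [mul_div_assoc, div_self (by positivity), mul_one] at a2
    have a3 := card_le_fib A (cub (ℓ ^ 2)) (c := CO * B * ((W ^ (1300 * (d + 2))) ^ 2) ^ (d + 1)) fun p _ => by
      have := O2 B ℓ (ℓ ^ 2) A (cub (ℓ ^ 2) p) B0 hℓ (by nlinarith) hW
      refine le_trans this ((div_le_self (by positivity) hℓ).trans ?_)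
      gcongr
    have a4 : α ^ 2 ≤ 6 ^ d * en g := by
      have := b7 3 1 0 p₀ one_pos (by norm_num) fun η hη => by simpa using hg.supp η hη
      norm_num at this
      exact (pow_le_pow_left₀ hα.le (hb p₀ hp₀).2.2 2).trans this
    have a5 : 1 ≤ ℓ ^ (2 * ((d : ℝ) + 1) / (d + 2) - κ) := Real.one_le_rpow hℓ (by
      have : 1 ≤ 2 * ((d : ℝ) + 1) / (d + 2) := by rw [le_div_iff₀ (by positivity)]; linarith
      linarith)
    have a6 : 1 ≤ 6 ^ d * (ℓ ^ (2 * ((d : ℝ) + 1) / (d + 2) - κ) * (en g / α ^ 2)) := by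
      have : 1 ≤ 6 ^ d * (en g / α ^ 2) := by
        rw [← mul_div_assoc, le_div_iff₀ (by positivity)]
        linarith
      calc (1 : ℝ) ≤ 1 * (6 ^ d * (en g / α ^ 2)) := by linarith
        _ ≤ ℓ ^ (2 * ((d : ℝ) + 1) / (d + 2) - κ) * (6 ^ d * (en g / α ^ 2)) :=
            mul_le_mul_of_nonneg_right a5 (by positivity)
        _ = _ := by ring
    have a7 : (#A : ℝ) ≤ 4 ^ (d + 1) * (CO * B * ((W ^ (1300 * (d + 2))) ^ 2) ^ (d + 1)) :=
      a3.trans (mul_le_mul_of_nonneg_right a2 (by positivity))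
    calc (#A : ℝ) ≤ 4 ^ (d + 1) * (CO * B * ((W ^ (1300 * (d + 2))) ^ 2) ^ (d + 1)) *
          (6 ^ d * (ℓ ^ (2 * ((d : ℝ) + 1) / (d + 2) - κ) * (en g / α ^ 2))) :=
          a7.trans (le_mul_of_one_le_right (by positivity) a6)
      _ = Z * (ℓ ^ (2 * ((d : ℝ) + 1) / (d + 2) - κ) * (en g / α ^ 2)) := by rw [hZ]; ring
      _ ≤ _ := mul_le_mul_of_nonneg_right (by linarith) xp
  · -- large scales
    obtain ⟨S, s1, s2, s3, s4⟩ := scales d hℓ (W0.trans hw)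
    rw [← s1] at hw
    rw [← s3] at emp
    rw [← s3, ← s4] at hs
    rw [← s3, mul_assoc]
    subst s2
    have xm : ∀ {κ' : ℝ}, κ ≤ κ' → S.xb κ' g α ≤ S.xb κ g α := fun h => S.xb_mono h g α eg
    change 0 ≤ S.xb κ g α at xp
    change ∃ A' ⊆ A, (#(A \ A') : ℝ) ≤ _ * S.xb κ g α ∧ _
    obtain ⟨A1, u1, u2, u3, u4, u5⟩ := h1 S g A α (W2.trans hw) hg hα hW hb hx
    have v1 := u2.trans (mul_le_mul_of_nonneg_left (xm k3) (by linarith))
    rcases A1.eq_empty_or_nonempty with rfl | hne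
    · exact ⟨∅, u1, v1.trans (mul_le_mul_of_nonneg_right (by linarith) xp), emp⟩
    obtain ⟨A2, y1, y2, y3⟩ := h2 S g A1 α φ (W3.trans hw) hg hα hφ (wg_mono hW u1 le_rfl)
      (fun p hp => hb p (u1 hp)) (u3 hne) u4 fun p hp => ⟨(u5 p hp).1, hs p (u1 hp), (u5 p hp).2⟩
    have v2 := y2.trans (mul_le_mul_of_nonneg_left (xm k4) c2)
    have l1p := S.l1_pos d
    have lp := S.l_pos d
    have wp := S.w_pos
    have Yn : ∀ q, 0 ≤ S.Yq g q := fun q => div_nonneg (b5 _ _).1 (by positivity)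
    have m0 : 0 ≤ min φ 1 ^ δ := Real.rpow_nonneg (le_min hφ zero_le_one) _
    have m1 : min φ 1 ^ δ ≤ 1 := Real.rpow_le_one (le_min hφ zero_le_one) (min_le_right _ _) δ0.le
    set A3 := A2.filter fun p => S.Ys d α ≤ S.Yq g (cub (S.l1 d) p) ∧ (S.w ^ 4)⁻¹ ≤ min φ 1 ^ δ with hA3
    have z1 : A2 \ A3 ⊆ A := fun p hp => u1 (y1 (Finset.mem_sdiff.1 hp).1)
    have z2 : (#(A2 \ A3) : ℝ) * S.w ≤ S.l d ^ (2 * d + 1) := by
      have a2 := O3 (S.l1 d) (S.l d ^ 2) (A2 \ A3) 0 l1p (by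
        rw [← S.l1_mul d]
        exact le_mul_of_one_le_right l1p.le (S.one_le_pw 24))
        (nb_zero (fun p hp => hb p (z1 hp)) fun p hp => hx p (z1 hp))
      have a3 := card_le_fib (A2 \ A3) (cub (S.l1 d)) (c := C2 * S.l1 d ^ (d + 1) * (8 / (S.w ^ 2 * S.l d)))
        fun p hp => by
          obtain ⟨p1, p2⟩ := Finset.mem_sdiff.1 hp
          have r1 := rest S hd hα m0 m1 (Yn _) (u5 p (y1 p1)).1 (by
            by_contra c
            rw [not_or, not_lt, not_lt] at c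
            exact p2 (Finset.mem_filter.2 ⟨p1, c⟩))
          have r2 : (#((A2 \ A3).filter fun x => cub (S.l1 d) x = cub (S.l1 d) p) : ℝ) ≤
              #(A2.filter fun x => cub (S.l1 d) x = cub (S.l1 d) p) := by
            exact_mod_cast Finset.card_le_card (Finset.filter_subset_filter _ Finset.sdiff_subset)
          have r3 := mul_le_mul_of_nonneg_left r1 (show 0 ≤ C2 * S.l1 d ^ (d + 1) by positivity)
          refine le_trans r2 ((y3 _).trans (le_trans (le_of_eq (by ring)) r3))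
      have a4 : (#(A2 \ A3) : ℝ) ≤ (4 * S.l d ^ 2 / S.l1 d) ^ (d + 1) *
          (C2 * S.l1 d ^ (d + 1) * (8 / (S.w ^ 2 * S.l d))) :=
        a3.trans (mul_le_mul_of_nonneg_right a2 (by positivity))
      calc _ ≤ (4 * S.l d ^ 2 / S.l1 d) ^ (d + 1) * (C2 * S.l1 d ^ (d + 1) * (8 / (S.w ^ 2 * S.l d))) * S.w :=
            mul_le_mul_of_nonneg_right a4 wp.le
        _ = 4 ^ (d + 1) * (8 * C2) / S.w * S.l d ^ (2 * d + 1) := by
            rw [div_pow, mul_pow, ← pow_mul, show 2 * (d + 1) = 2 * d + 1 + 1 by ring, pow_succ (S.l d) (2 * d + 1)]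
            field_simp
        _ ≤ 1 * S.l d ^ (2 * d + 1) :=
            mul_le_mul_of_nonneg_right ((div_le_one wp).2 (W4.trans hw)) (by positivity)
        _ = _ := one_mul _
    have v3 := ((hF S g (A2 \ A3) α (W1.trans hw) hg hα (wg_mono hW z1 le_rfl) fun p hp => hb p (z1 hp)).1 z2).trans
      (mul_le_mul_of_nonneg_left (xm k2) cF)
    refine ⟨A3, fun p hp => u1 (y1 (Finset.mem_filter.1 hp).1), ?_, fun q => ?_⟩
    · have t1 := sdiff_le A A1 A3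
      have t2 := sdiff_le A1 A2 A3
      have t3 := mul_nonneg Z0 xp
      have t4 := mul_nonneg c2 xp
      linarith
    · rcases (A3.filter fun p => cub (S.l1 d) p = q).eq_empty_or_nonempty with he | ⟨p, hp⟩
      · rw [he]
        simpa using emp q
      obtain ⟨p1, rfl⟩ := Finset.mem_filter.1 hp
      obtain ⟨_, p3, p4⟩ := Finset.mem_filter.1 p1
      have r1 := good hd hφ δ0 (show 0 < α ^ 2 by positivity) (S.Ys_pos d hα).le p3 p4
      have r2 : (#(A3.filter fun x => cub (S.l1 d) x = cub (S.l1 d) p) : ℝ) ≤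
          #(A2.filter fun x => cub (S.l1 d) x = cub (S.l1 d) p) := by
        exact_mod_cast Finset.card_le_card (Finset.filter_subset_filter _ (Finset.filter_subset _ _))
      have r3 := mul_le_mul_of_nonneg_left r1 (show 0 ≤ C2 * S.l1 d ^ (d + 1) by positivity)
      rw [← div_div]
      change _ ≤ _ * φ ^ δ * S.l1 d ^ (d + 1) * (S.Yq g (cub (S.l1 d) p) / α ^ 2) ^ (((d : ℝ) + 2) / d)
      have r4 : 0 ≤ φ ^ δ * S.l1 d ^ (d + 1) * (S.Yq g (cub (S.l1 d) p) / α ^ 2) ^ (((d : ℝ) + 2) / d) := by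
        have := Yn (cub (S.l1 d) p)
        positivity
      refine r2.trans ((y3 _).trans (le_trans (le_of_eq (by ring)) (r3.trans ?_)))
      calc _ = 8 * C2 * (φ ^ δ * S.l1 d ^ (d + 1) * (S.Yq g (cub (S.l1 d) p) / α ^ 2) ^ (((d : ℝ) + 2) / d)) := by ring
        _ ≤ (C1 + 8 * C2 + CF + Z) *
            (φ ^ δ * S.l1 d ^ (d + 1) * (S.Yq g (cub (S.l1 d) p) / α ^ 2) ^ (((d : ℝ) + 2) / d)) :=
            mul_le_mul_of_nonneg_right (by linarith) r4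
        _ = _ := by ring

end

end Vale.Agent.P076N.KEY
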