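import Vale.Agent.P076N.KEY.Spec1

/-!
# P076N / KEY : the kernel of a smooth cap (row K.KER)
-/

set_option linter.all false

open MeasureTheory Complex
open scoped RealInnerProductSpace FourierTransform SchwartzMap

namespace Vale.Agent.P076N.KEY

open Vale.Agent.P076 Vale.Agent.P076N Vale.Agent.P076T

noncomputable section

namespace Ker

variable {d : ℕ}

/-- the phase -/
def ph (x : E d) (s : ℝ) (η : E d) : ℂ := cexp (2 * Real.pi * I * ((⟪x, η⟫ - s * ‖η‖ ^ 2 : ℝ) : ℂ))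

theorem norm_e (t : ℝ) : ‖cexp (2 * Real.pi * I * (t : ℂ))‖ = 1 := by
  rw [show 2 * Real.pi * I * (t : ℂ) = ((2 * Real.pi * t : ℝ) : ℂ) * I by push_cast; ring,
    norm_exp_ofReal_mul_I]

theorem norm_ph (x : E d) (s : ℝ) (η : E d) : ‖ph x s η‖ = 1 := norm_e _

theorem evo_eq (G : E d → ℂ) (x : E d) (s : ℝ) : evo G x s 0 = ∫ η, ph x s η * G η := by
  simp [evo, ph]

/-- the Gaussian -/
def gam (η : E d) : ℂ := (Real.exp (-(Real.pi * ‖η‖ ^ 2)) : ℝ)

theorem gam_int : Integrable (gam : E d → ℂ) := by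
  have h := GaussianFourier.integrable_cexp_neg_mul_sq_norm_add (V := E d) (b := Real.pi)
    (by simpa using Real.pi_pos) 0 0
  refine h.congr (.of_forall fun η => ?_)
  simp [gam]

theorem poly_le (N : ℕ) {u : ℝ} (hu : 0 ≤ u) :
    Real.exp (-(3 / 4 * u ^ 2)) ≤ Real.exp (N ^ 2) * (1 + u) ^ (-(N : ℝ)) := by
  have h1 : (1 + u) ^ N ≤ Real.exp (N * u) := by
    rw [Real.exp_nat_mul]
    gcongr
    linarith [Real.add_one_le_exp u]
  rw [Real.rpow_neg (by positivity), Real.rpow_natCast, ← div_eq_mul_inv,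
    le_div_iff₀ (by positivity)]
  refine (mul_le_mul_of_nonneg_left h1 (Real.exp_pos _).le).trans ?_
  rw [← Real.exp_add, Real.exp_le_exp]
  nlinarith [sq_nonneg (u - N), sq_nonneg u, sq_nonneg (N : ℝ)]

theorem gauss (N : ℕ) (x : E d) (s : ℝ) : ‖evo gam x s 0‖ ≤
    (2 : ℝ) ^ ((d : ℝ) / 2) * Real.exp (N ^ 2) * ((1 + |s|) ^ (-(d : ℝ) / 2) * wE N (1 + |s|) x) := by
  have pi0 := Real.pi_pos
  set w : ℂ := 1 + 2 * s * I with hw
  have hre : w.re = 1 := by simp [hw]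
  have hn : normSq w = 1 + 4 * s ^ 2 := by simp [hw, normSq_apply]; ring
  have w0 : w ≠ 0 := fun h => by simp [h] at hre
  have h := GaussianFourier.integral_cexp_neg_mul_sq_norm_add (V := E d) (b := Real.pi * w)
    (by simpa [hre] using pi0) (2 * Real.pi * I) x
  have e : evo gam x s 0 = ∫ v : E d, cexp (-(Real.pi * w) * ‖v‖ ^ 2 + 2 * Real.pi * I * ⟪x, v⟫) := by
    rw [evo_eq]
    congr 1
    funext v
    rw [ph, gam, ofReal_exp, ← Complex.exp_add, hw]
    congr 1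
    push_cast
    ring
  have p0 : (Real.pi : ℂ) ≠ 0 := ofReal_ne_zero.2 pi0.ne'
  have e1 : (Real.pi : ℂ) / (Real.pi * w) = w⁻¹ := by field_simp
  have e2 : (2 * Real.pi * I) ^ 2 * (‖x‖ : ℂ) ^ 2 / (4 * (Real.pi * w)) =
      ((-(Real.pi * ‖x‖ ^ 2) : ℝ) : ℂ) * w⁻¹ := by
    push_cast
    field_simp
    rw [I_sq]
    ring
  have e3 : ((Module.finrank ℝ (E d) : ℂ) / 2) = (((d : ℝ) / 2 : ℝ) : ℂ) := by simp
  have a0 := abs_nonneg s
  have a2 := sq_abs s
  rw [e, h, e1, e2, e3, norm_mul, norm_cpow_real, norm_exp, re_ofReal_mul, inv_re, hre, hn]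
  have b1 : ‖w⁻¹‖ ≤ 2 * (1 + |s|)⁻¹ := by
    rw [norm_inv, ← div_eq_mul_inv, inv_eq_one_div, div_le_div_iff₀ (norm_pos_iff.2 w0)
      (by positivity)]
    refine abs_le_of_sq_le_sq' ?_ (by positivity) |>.2
    rw [mul_pow, mul_pow, ← normSq_eq_norm_sq, hn]
    nlinarith [sq_nonneg (|s| - 1)]
  have b2 : ‖w⁻¹‖ ^ ((d : ℝ) / 2) ≤ (2 : ℝ) ^ ((d : ℝ) / 2) * (1 + |s|) ^ (-(d : ℝ) / 2) := by
    rw [neg_div, Real.rpow_neg (by positivity), ← Real.inv_rpow (by positivity),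
      ← Real.mul_rpow (by norm_num) (by positivity)]
    exact Real.rpow_le_rpow (norm_nonneg _) b1 (by positivity)
  have b3 : Real.exp (-(Real.pi * ‖x‖ ^ 2) * (1 / (1 + 4 * s ^ 2))) ≤
      Real.exp (N ^ 2) * wE N (1 + |s|) x := by
    refine le_trans (Real.exp_le_exp.2 ?_) (poly_le N (u := ‖x‖ / (1 + |s|)) (by positivity))
    rw [neg_mul, neg_le_neg_iff, div_pow, mul_one_div, ← mul_div_assoc,
      div_le_div_iff₀ (by positivity) (by positivity)]
    have : 3 / 4 * (1 + 4 * s ^ 2) ≤ Real.pi * (1 + |s|) ^ 2 := by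
      nlinarith [Real.pi_gt_three, mul_nonneg (sub_nonneg.2 Real.pi_gt_three.le) (sq_nonneg (1 + |s|))]
    nlinarith [mul_le_mul_of_nonneg_left this (sq_nonneg ‖x‖)]
  calc _ ≤ _ := mul_le_mul b2 b3 (Real.exp_pos _).le (by positivity)
    _ = _ := by ring

theorem rep (k : 𝓢(E d, ℂ)) (x : E d) (s : ℝ) :
    evo (fun η => gam η * (𝓕⁻ k : 𝓢(E d, ℂ)) η) x s 0 = ∫ y, k y * evo gam (x + y) s 0 := by
  have hi : Integrable (Function.uncurry fun η y : E d => k y * (ph (x + y) s η * gam η))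
      (volume.prod volume) := by
    refine ((gam_int (d := d)).norm.mul_prod k.integrable.norm).mono' ?_ (.of_forall fun z => ?_)
    · have := k.continuous
      refine Continuous.aestronglyMeasurable ?_
      unfold Function.uncurry ph gam
      fun_prop
    · simp only [Function.uncurry, norm_mul, norm_ph, one_mul, mul_comm, le_refl]
  simp only [evo_eq, ← integral_const_mul]
  rw [← integral_integral_swap hi]
  congr 1
  funext η
  rw [SchwartzMap.fourierInv_coe, Real.fourierInv_eq', ← mul_assoc, ← integral_const_mul]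
  congr 1
  funext y
  rw [smul_eq_mul, ph, ph, inner_add_left]
  have : cexp (2 * Real.pi * I * ((⟪x, η⟫ + ⟪y, η⟫ - s * ‖η‖ ^ 2 : ℝ) : ℂ)) =
      cexp (2 * Real.pi * I * ((⟪x, η⟫ - s * ‖η‖ ^ 2 : ℝ) : ℂ)) *
        cexp (((2 * Real.pi * ⟪y, η⟫ : ℝ) : ℂ) * I) := by
    rw [← Complex.exp_add]; congr 1; push_cast; ring
  rw [this]
  ring

theorem unit {a : E d → ℝ} (ha : Smo a) (N : ℕ) : ∃ C : ℝ, 0 ≤ C ∧ ∀ (x : E d) (s : ℝ),
    ‖evo (fun η => (a η : ℂ)) x s 0‖ ≤ C * ((1 + |s|) ^ (-(d : ℝ) / 2) * wE N (1 + |s|) x) := by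
  have h1 : HasCompactSupport fun η : E d => ((a η * Real.exp (Real.pi * ‖η‖ ^ 2) : ℝ) : ℂ) :=
    (ha.cs.mul_right (f' := fun η => Real.exp (Real.pi * ‖η‖ ^ 2))).comp_left ofReal_zero
  have h2 : ContDiff ℝ (⊤ : ℕ∞) fun η : E d => ((a η * Real.exp (Real.pi * ‖η‖ ^ 2) : ℝ) : ℂ) :=
    ofRealCLM.contDiff.comp (ha.cd.mul (contDiff_const.mul (contDiff_norm_sq ℝ)).exp)
  set k : 𝓢(E d, ℂ) := 𝓕 (h1.toSchwartzMap h2) with hk
  have e : (fun η => (a η : ℂ)) = fun η => gam η * (𝓕⁻ k : 𝓢(E d, ℂ)) η := by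
    funext η
    rw [hk, FourierTransform.fourierInv_fourier_eq, HasCompactSupport.toSchwartzMap_toFun, gam,
      ← ofReal_mul, mul_left_comm, ← Real.exp_add, neg_add_cancel, Real.exp_zero, mul_one]
  have hi : Integrable fun y : E d => (2 : ℝ) ^ (N - 1) * (‖k y‖ + ‖y‖ ^ N * ‖k y‖) :=
    (k.integrable.norm.add (k.integrable_pow_mul volume N)).const_mul _
  refine ⟨(∫ y : E d, (2 : ℝ) ^ (N - 1) * (‖k y‖ + ‖y‖ ^ N * ‖k y‖)) *
    ((2 : ℝ) ^ ((d : ℝ) / 2) * Real.exp (N ^ 2)), mul_nonneg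
      (integral_nonneg fun y => by positivity) (by positivity), fun x s => ?_⟩
  rw [e, rep, mul_assoc, ← integral_mul_const]
  refine norm_integral_le_of_norm_le (hi.mul_const _) (.of_forall fun y => ?_)
  have l0 : 0 < 1 + |s| := by positivity
  have p := wE_peetre (M := N) (Nat.cast_nonneg N) l0 (x + y) x
  rw [add_sub_cancel_left, Real.rpow_natCast] at p
  have p1 : (1 + ‖y‖ / (1 + |s|)) ^ N ≤ 2 ^ (N - 1) * (1 + ‖y‖ ^ N) := by
    refine le_trans ?_ (by simpa only [one_pow] using add_pow_le zero_le_one (norm_nonneg y) N)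
    gcongr
    exact div_le_self (norm_nonneg _) (by linarith [abs_nonneg s])
  have p2 := p.trans (mul_le_mul_of_nonneg_right p1 (wE_pos l0 x).le)
  rw [norm_mul]
  calc _ ≤ ‖k y‖ * ((2 : ℝ) ^ ((d : ℝ) / 2) * Real.exp (N ^ 2) * ((1 + |s|) ^ (-(d : ℝ) / 2) *
        (2 ^ (N - 1) * (1 + ‖y‖ ^ N) * wE N (1 + |s|) x))) := by
        refine mul_le_mul_of_nonneg_left ((gauss N (x + y) s).trans ?_) (norm_nonneg _)
        gcongr
    _ = _ := by ring

theorem scale (a : E d → ℝ) {L : ℝ} (hL : 0 < L) (c x : E d) (s : ℝ) :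
    ‖evo (bp a L c) x s 0‖ =
      (L ^ d)⁻¹ * ‖evo (fun η => (a η : ℂ)) (L⁻¹ • (x - (2 * s) • c)) (s / L ^ 2) 0‖ := by
  set z : ℂ := cexp (2 * Real.pi * I * ((⟪x, c⟫ - s * ‖c‖ ^ 2 : ℝ) : ℂ)) with hz
  set F : E d → ℂ := fun ζ => ph (L⁻¹ • (x - (2 * s) • c)) (s / L ^ 2) ζ * (a ζ : ℂ) with hF
  have e : ∀ η, ph x s η * bp a L c η = z * F (L • (η - c)) := by
    intro η
    rw [hF, hz, bp, ← mul_assoc, ph, ph, ← Complex.exp_add, ← mul_add, ← ofReal_add]
    congr 4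
    rw [real_inner_smul_left, real_inner_smul_right, norm_smul, Real.norm_of_nonneg hL.le, mul_pow,
      norm_sub_sq_real, inner_sub_left, inner_sub_right, inner_sub_right, real_inner_smul_left,
      real_inner_smul_left, real_inner_self_eq_norm_sq, real_inner_comm c η]
    field_simp
    ring
  rw [evo_eq, evo_eq]
  simp only [e]
  rw [integral_const_mul, integral_sub_right_eq_self (fun η => F (L • η)) c,
    Measure.integral_comp_smul, norm_mul, hz, norm_e, one_mul, norm_smul, finrank_euclideanSpace,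
    Fintype.card_fin, Real.norm_eq_abs, abs_abs, abs_of_pos (by positivity)]

end Ker

open Ker in
/-- **[KER]** -/
theorem ker (d : ℕ) : KER d := by
  intro a ha N
  obtain ⟨C, C0, h⟩ := unit ha N
  refine ⟨C, C0, fun L c x s hL => ?_⟩
  have h1 := h (L⁻¹ • (x - (2 * s) • c)) (s / L ^ 2)
  rw [abs_div, abs_of_pos (pow_pos hL 2)] at h1
  have e : wE N (1 + |s| / L ^ 2) (L⁻¹ • (x - (2 * s) • c)) =
      wE N (L + |s| / L) (x - (2 * s) • c) := by
    unfold wE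
    rw [norm_smul, Real.norm_of_nonneg (inv_pos.2 hL).le]
    congr 2
    field_simp
  rw [scale a hL, ← e]
  calc _ ≤ _ := mul_le_mul_of_nonneg_left h1 (by positivity)
    _ = _ := by ring

end

end Vale.Agent.P076N.KEY
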