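import Vale.Agent.P076N.KEY.Spec1

/-!
# P076N / KEY : the row KSUM
-/

set_option linter.all false

open MeasureTheory Finset
open scoped RealInnerProductSpace

namespace Vale.Agent.P076N.KEY

open Vale.Agent.P076 Vale.Agent.P076N Vale.Agent.P076T Vale.Agent.P076T.LO

noncomputable section

namespace Ksum

variable {d : ℕ}

theorem pref_eq {r u : ℝ} (hr : 0 < r) (hu : 0 ≤ u) (d : ℕ) :
    (r ^ d)⁻¹ * (1 + u / r ^ 2) ^ (-(d : ℝ) / 2) = (r ^ 2 + u) ^ (-(d : ℝ) / 2) := by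
  have h1 : r ^ 2 + u = r ^ 2 * (1 + u / r ^ 2) := by field_simp
  have h2 : (r ^ 2) ^ (-(d : ℝ) / 2) = (r ^ d)⁻¹ := by
    rw [← Real.rpow_natCast r 2, ← Real.rpow_mul hr.le, ← Real.rpow_natCast r d, ← Real.rpow_neg hr.le]
    congr 1
    push_cast
    ring
  rw [h1, Real.mul_rpow (by positivity) (by positivity), h2]

theorem pref_le {r M u : ℝ} (hr : 0 < r) (h : r ≤ M) (hu : 0 ≤ u) (d : ℕ) :
    (M ^ d)⁻¹ * (1 + u / M ^ 2) ^ (-(d : ℝ) / 2) ≤ (r ^ d)⁻¹ * (1 + u / r ^ 2) ^ (-(d : ℝ) / 2) := by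
  rw [pref_eq hr hu, pref_eq (hr.trans_le h) hu]
  refine Real.rpow_le_rpow_of_nonpos (by positivity) ?_ ?_
  · have : r ^ 2 ≤ M ^ 2 := by gcongr
    linarith
  · have : (0 : ℝ) ≤ d := Nat.cast_nonneg d
    linarith

theorem pref_le_one {M u : ℝ} (hM : 0 < M) (hu : 0 ≤ u) (d : ℕ) : (1 + u / M ^ 2) ^ (-(d : ℝ) / 2) ≤ 1 := by
  refine Real.rpow_le_one_of_one_le_of_nonpos (le_add_of_nonneg_right (by positivity)) ?_
  have : (0 : ℝ) ≤ d := Nat.cast_nonneg d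
  linarith

theorem ce_fl {M : ℝ} (hM : 0 < M) (θ : Zv d) (k : Fin d) : ⌊(ce M θ) k / M⁻¹⌋ = θ k := by
  have : (ce M θ) k / M⁻¹ = (θ k : ℝ) := by
    simp only [ce, toV, PiLp.smul_apply, smul_eq_mul]
    field_simp
  rw [this, Int.floor_intCast]

theorem ce_inj {M : ℝ} (hM : 0 < M) (Θ : Finset (Zv d)) :
    ∀ i ∈ Θ, ∀ j ∈ Θ, (∀ k, ⌊(ce M i) k / M⁻¹⌋ = ⌊(ce M j) k / M⁻¹⌋) → i = j := by
  intro i _ j _ h
  funext k
  have := h k
  rwa [ce_fl hM, ce_fl hM] at this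

/-- the weight at long times is a lattice weight -/
theorem w_long {M s Q : ℝ} (hQ : 0 ≤ Q) (hM : 0 < M) (hs : M ^ 2 ≤ |s|) (y e : E d) :
    wE Q (M + |s| / M) (y - (2 * s) • e) ≤ wE Q M⁻¹ ((2 * s)⁻¹ • y - e) := by
  have hs0 : 0 < |s| := lt_of_lt_of_le (by positivity) hs
  have hs1 : s ≠ 0 := abs_pos.mp hs0
  have h1 : M + |s| / M ≤ 2 * |s| / M := by
    have : M ≤ |s| / M := by rw [le_div_iff₀ hM]; nlinarith
    have h2 : 2 * |s| / M = |s| / M + |s| / M := by ring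
    linarith
  refine (wE_mono hQ (by positivity) h1 _).trans (le_of_eq ?_)
  have h2 : y - (2 * s) • e = (2 * s) • ((2 * s)⁻¹ • y - e) := by
    rw [smul_sub, smul_smul, mul_inv_cancel₀ (mul_ne_zero two_ne_zero hs1), one_smul]
  unfold wE
  rw [h2, norm_smul, Real.norm_eq_abs, abs_mul, abs_two]
  congr 2
  field_simp

theorem w_small {L Q : ℝ} {N : ℕ} (hL : 0 < L) (hQ : 0 < Q) {v : E d} (h : Q * L ≤ ‖v‖) :
    wE N L v ≤ (Q⁻¹) ^ N := by
  unfold wE
  have h1 : Q ≤ 1 + ‖v‖ / L := by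
    have : Q ≤ ‖v‖ / L := by rwa [le_div_iff₀ hL]
    linarith
  rw [Real.rpow_neg (by positivity), Real.rpow_natCast, ← inv_pow]
  gcongr

end Ksum

open Ksum

theorem ksum (d : ℕ) : KSUM d := by
  intro hK a R₀ N ha
  obtain ⟨C₀, hC₀, hk⟩ := hK a ha (N + 2 * d)
  have hW : 0 ≤ cW d := by
    have := wE_lat (n := d) (ι := Unit) (M := 2 * d) (r := 1) le_rfl one_pos ∅ (fun _ => 0) (by simp) 0
    simpa using this
  refine ⟨C₀ * (cW d + 3 ^ d), by positivity, ?_⟩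
  intro M r c Θ p p' hc hfar
  have hr1 : 1 ≤ r := hc.one.trans hc.le
  have hr : 0 < r := by linarith
  have hM20 := hc.big
  have hM : 0 < M := by linarith
  have hrM := hc.rM
  set y : E d := p'.1 - p.1 with hy
  set s : ℝ := p'.2 - p.2 with hs
  have hkD : 0 ≤ kD (4 * R₀) r c p p' := by
    unfold kD
    split_ifs
    · positivity
    · exact le_rfl
  have hq : 0 ≤ (r / M) ^ N := by positivity
  have hri : 0 < (r ^ d)⁻¹ := by positivity
  have hMr : (M ^ d)⁻¹ ≤ (r ^ d)⁻¹ := by gcongr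
  have h3 : (0 : ℝ) ≤ 3 ^ d := by positivity
  have hnr : ∀ θ ∈ Θ, ‖ce M θ - c‖ ≤ R₀ / r := fun θ hθ => by
    rw [le_div_iff₀ hr, mul_comm]
    exact hc.nr θ hθ
  have hR1 : R₀ / r ≤ 1 := by rw [div_le_one hr]; exact hc.le
  have hL : 0 < M + |s| / M := by positivity
  have hcast : ((N + 2 * d : ℕ) : ℝ) = (N : ℝ) + 2 * d := by push_cast; ring
  rcases le_or_gt (M ^ 2) |s| with hlong | hshort
  · -- long times
    set w : E d := (2 * s)⁻¹ • y with hw
    have hlat : ∑ θ ∈ Θ, wE (2 * d : ℝ) M⁻¹ (w - ce M θ) ≤ cW d :=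
      wE_lat le_rfl (inv_pos.mpr hM) Θ (ce M) (ce_inj hM Θ) w
    have hterm : ∀ θ ∈ Θ, ‖evo (bp a M (ce M θ)) y s 0‖ ≤
        C₀ * ((M ^ d)⁻¹ * (1 + |s| / M ^ 2) ^ (-(d : ℝ) / 2)) *
          (wE N M⁻¹ (w - ce M θ) * wE (2 * d : ℝ) M⁻¹ (w - ce M θ)) := by
      intro θ _
      refine (hk M (ce M θ) y s hM).trans ?_
      rw [← wE_add (inv_pos.mpr hM), ← hcast, mul_assoc C₀]
      exact mul_le_mul_of_nonneg_left (w_long (Nat.cast_nonneg _) hM hlong y (ce M θ)) (by positivity)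
    by_cases htube : ‖y - (2 * s) • c‖ ≤ 4 * R₀ * |s| / r
    · have hkD' : kD (4 * R₀) r c p p' = (1 + |s| / r ^ 2) ^ (-(d : ℝ) / 2) := by
        unfold kD
        rw [if_pos htube]
      have hp := pref_le hr hrM (abs_nonneg s) d
      calc ∑ θ ∈ Θ, ‖evo (bp a M (ce M θ)) y s 0‖
          ≤ ∑ θ ∈ Θ, C₀ * ((r ^ d)⁻¹ * (1 + |s| / r ^ 2) ^ (-(d : ℝ) / 2)) * wE (2 * d : ℝ) M⁻¹ (w - ce M θ) := by
            refine Finset.sum_le_sum fun θ hθ => (hterm θ hθ).trans ?_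
            have h1 := wE_le_one (M := (N : ℝ)) (Nat.cast_nonneg _) (inv_pos.mpr hM) (w - ce M θ)
            have h2 := wE_pos (M := (2 * d : ℝ)) (inv_pos.mpr hM) (w - ce M θ)
            have h4 := wE_pos (M := (N : ℝ)) (inv_pos.mpr hM) (w - ce M θ)
            refine mul_le_mul (mul_le_mul_of_nonneg_left hp hC₀) ?_ (by positivity) (by positivity)
            nlinarith
        _ = C₀ * ((r ^ d)⁻¹ * kD (4 * R₀) r c p p') * ∑ θ ∈ Θ, wE (2 * d : ℝ) M⁻¹ (w - ce M θ) := by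
            rw [Finset.mul_sum, hkD']
        _ ≤ C₀ * ((r ^ d)⁻¹ * kD (4 * R₀) r c p p') * cW d := by gcongr
        _ = C₀ * cW d * (r ^ d)⁻¹ * kD (4 * R₀) r c p p' := by ring
        _ ≤ _ := by
            gcongr
            · linarith
            · linarith
    · push Not at htube
      have hs0 : 0 < |s| := lt_of_lt_of_le (by positivity) hlong
      have hs1 : s ≠ 0 := abs_pos.mp hs0
      have h2 : y - (2 * s) • c = (2 * s) • (w - c) := by
        rw [hw, smul_sub, smul_smul, mul_inv_cancel₀ (mul_ne_zero two_ne_zero hs1), one_smul]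
      have hwc : 2 * (R₀ / r) ≤ ‖w - c‖ := by
        rw [h2, norm_smul, Real.norm_eq_abs, abs_mul, abs_two] at htube
        have h5 : 4 * R₀ * |s| / r = 2 * |s| * (2 * (R₀ / r)) := by ring
        rw [h5] at htube
        exact (lt_of_mul_lt_mul_left htube (by positivity)).le
      have hsm : ∀ θ ∈ Θ, wE N M⁻¹ (w - ce M θ) ≤ (r / M) ^ N := by
        intro θ hθ
        have h5 : ‖w - c‖ ≤ ‖w - ce M θ‖ + ‖ce M θ - c‖ := norm_sub_le_norm_sub_add_norm_sub _ _ _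
        have h6 := hnr θ hθ
        have h7 : 1 / r ≤ R₀ / r := by gcongr; exact hc.one
        have h8 : M / r * M⁻¹ ≤ ‖w - ce M θ‖ := by
          have : M / r * M⁻¹ = 1 / r := by field_simp
          rw [this]
          linarith
        have := w_small (N := N) (inv_pos.mpr hM) (by positivity : 0 < M / r) h8
        rwa [inv_div] at this
      calc ∑ θ ∈ Θ, ‖evo (bp a M (ce M θ)) y s 0‖
          ≤ ∑ θ ∈ Θ, C₀ * (r ^ d)⁻¹ * (r / M) ^ N * wE (2 * d : ℝ) M⁻¹ (w - ce M θ) := by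
            refine Finset.sum_le_sum fun θ hθ => (hterm θ hθ).trans ?_
            have h1 := hsm θ hθ
            have h2 := wE_pos (M := (2 * d : ℝ)) (inv_pos.mpr hM) (w - ce M θ)
            have h4 := wE_pos (M := (N : ℝ)) (inv_pos.mpr hM) (w - ce M θ)
            have h5 := pref_le_one hM (abs_nonneg s) d
            have h6 : (M ^ d)⁻¹ * (1 + |s| / M ^ 2) ^ (-(d : ℝ) / 2) ≤ (r ^ d)⁻¹ := by
              calc _ ≤ (M ^ d)⁻¹ * 1 := by gcongr
                _ ≤ _ := by rw [mul_one]; exact hMr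
            rw [mul_assoc (C₀ * (r ^ d)⁻¹)]
            gcongr
        _ = C₀ * (r ^ d)⁻¹ * (r / M) ^ N * ∑ θ ∈ Θ, wE (2 * d : ℝ) M⁻¹ (w - ce M θ) := by
            rw [Finset.mul_sum]
        _ ≤ C₀ * (r ^ d)⁻¹ * (r / M) ^ N * cW d := by gcongr
        _ = C₀ * cW d * (r ^ d)⁻¹ * (r / M) ^ N := by ring
        _ ≤ _ := by
            gcongr
            · linarith
            · linarith
  · -- short times
    have hy3 : M ^ 3 ≤ ‖y‖ := by
      rcases hfar with h | h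
      · exact h
      · exfalso
        have : M ^ 2 ≤ M ^ 3 := pow_le_pow_right₀ (by linarith) (by norm_num)
        linarith
    have hcard : (#Θ : ℝ) ≤ (3 * M) ^ d := by
      have h1 := card_ball (inv_pos.mpr hM) zero_le_one Θ (ce M) (ce_inj hM Θ) c (fun θ hθ k => by
        have h4 := (hnr θ hθ).trans hR1
        have h5 : |(ce M θ - c) k| ≤ ‖ce M θ - c‖ := by
          simpa [Real.norm_eq_abs] using PiLp.norm_apply_le (ce M θ - c) k
        have h6 : (ce M θ - c) k = ce M θ k - c k := rfl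
        rw [h6] at h5
        linarith)
      refine h1.trans ?_
      have h4 : 2 * 1 / M⁻¹ + 2 ≤ 3 * M := by
        have : 2 * 1 / M⁻¹ = 2 * M := by field_simp
        rw [this]
        linarith
      gcongr
    have hterm : ∀ θ ∈ Θ, ‖evo (bp a M (ce M θ)) y s 0‖ ≤ C₀ * (M ^ d)⁻¹ * (M⁻¹) ^ (N + 2 * d) := by
      intro θ hθ
      refine (hk M (ce M θ) y s hM).trans ?_
      have h1 : ‖ce M θ‖ ≤ 6 := by
        have h4 : ‖ce M θ‖ ≤ ‖ce M θ - c‖ + ‖c‖ := by simpa using norm_add_le (ce M θ - c) c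
        have h5 := (hnr θ hθ).trans hR1
        have h6 := hc.bd
        linarith
      have h2 : ‖(2 * s) • ce M θ‖ ≤ 12 * M ^ 2 := by
        rw [norm_smul, Real.norm_eq_abs, abs_mul, abs_two]
        have : 2 * |s| * ‖ce M θ‖ ≤ 2 * M ^ 2 * 6 := by gcongr
        linarith
      have h4 : ‖y‖ - ‖(2 * s) • ce M θ‖ ≤ ‖y - (2 * s) • ce M θ‖ := norm_sub_norm_le _ _
      have h5 : |s| / M ≤ M := by rw [div_le_iff₀ hM]; nlinarith
      have h6 : M * (M + |s| / M) ≤ ‖y - (2 * s) • ce M θ‖ := by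
        have h7 : M * (M + |s| / M) ≤ M * (M + M) := by gcongr
        have h8 : 20 * M ^ 2 ≤ M ^ 3 := by nlinarith
        nlinarith
      have h7 := w_small (N := N + 2 * d) hL hM h6
      have h8 := pref_le_one hM (abs_nonneg s) d
      have h9 := wE_pos (M := ((N + 2 * d : ℕ) : ℝ)) hL (y - (2 * s) • ce M θ)
      calc _ ≤ C₀ * (M ^ d)⁻¹ * 1 * (M⁻¹) ^ (N + 2 * d) := by gcongr
        _ = _ := by ring
    have hMi : M⁻¹ ≤ 1 := inv_le_one_of_one_le₀ (by linarith)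
    have hA : (M⁻¹) ^ N ≤ (r / M) ^ N := by
      gcongr
      rw [div_eq_mul_inv]
      exact le_mul_of_one_le_left (by positivity) hr1
    have hB : (M⁻¹) ^ (2 * d) ≤ (r ^ d)⁻¹ := by
      calc (M⁻¹) ^ (2 * d) ≤ (M⁻¹) ^ d := pow_le_pow_of_le_one (by positivity) hMi (by omega)
        _ ≤ _ := by rw [inv_pow]; exact hMr
    calc ∑ θ ∈ Θ, ‖evo (bp a M (ce M θ)) y s 0‖ ≤ ∑ θ ∈ Θ, C₀ * (M ^ d)⁻¹ * (M⁻¹) ^ (N + 2 * d) :=
          Finset.sum_le_sum hterm
      _ = #Θ * (C₀ * (M ^ d)⁻¹ * (M⁻¹) ^ (N + 2 * d)) := by rw [Finset.sum_const, nsmul_eq_mul]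
      _ ≤ (3 * M) ^ d * (C₀ * (M ^ d)⁻¹ * (M⁻¹) ^ (N + 2 * d)) := by gcongr
      _ = C₀ * 3 ^ d * (M⁻¹) ^ (2 * d) * (M⁻¹) ^ N := by
          rw [mul_pow, pow_add]
          field_simp
      _ ≤ C₀ * 3 ^ d * (r ^ d)⁻¹ * (r / M) ^ N := by gcongr
      _ ≤ _ := by
          gcongr
          · linarith
          · linarith

end

end Vale.Agent.P076N.KEY
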