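import Vale.Agent.P076N.KEY.Spec1

/-!
# P076N / KEY : the local Bessel inequality
-/

set_option linter.all false

open MeasureTheory Finset Metric

namespace Vale.Agent.P076N.KEY

open Vale.Agent.P076 Vale.Agent.P076N Vale.Agent.P076T

noncomputable section

variable {d : ℕ}

namespace LbP

theorem norm_le_coord {x : E d} {a : ℝ} (h : ∀ k, |x k| ≤ a) : ‖x‖ ≤ d * a := by
  have h1 : ‖x‖ ≤ ∑ k, |x k| := by
    rw [EuclideanSpace.norm_eq]
    refine Real.sqrt_le_iff.2 ⟨Finset.sum_nonneg fun _ _ => abs_nonneg _, ?_⟩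
    simp only [Real.norm_eq_abs]
    exact Finset.sum_sq_le_sq_sum_of_nonneg fun _ _ => abs_nonneg _
  refine h1.trans ((Finset.sum_le_sum fun k _ => h k).trans ?_)
  simp

theorem mb {ι : Type} (J : Finset ι) (y : ι → E d) (ρ : ℝ) : MB (⋃ j ∈ J, Metric.ball (y j) ρ) :=
  ⟨J.measurableSet_biUnion fun _ _ => measurableSet_ball,
    (Bornology.isBounded_biUnion_finset J).2 fun _ _ => isBounded_ball⟩

/-- the integral over a union of balls -/
theorem cover (hd : 1 ≤ d) {f : E d → ℝ} (hf : Integrable f) (f0 : ∀ x, 0 ≤ f x) {ι : Type}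
    (J : Finset ι) (y : ι → E d) (x₀ : E d) {ρ₀ ρ₂ A : ℝ} (h0 : 0 < ρ₀) (h2 : ρ₀ ≤ ρ₂) (hA : 0 ≤ A)
    (hy : ∀ j ∈ J, ‖y j - x₀‖ ≤ ρ₂) (hb : ∀ j ∈ J, ∫ x in Metric.ball (y j) (2 * ρ₀), f x ≤ A) :
    ∫ x in ⋃ j ∈ J, Metric.ball (y j) ρ₀, f x ≤ ((2 * d + 2) * (ρ₂ / ρ₀)) ^ d * A := by
  classical
  have d1 : (1 : ℝ) ≤ d := by exact_mod_cast hd
  have s0 : 0 < ρ₀ / d := by positivity
  have q1 : 1 ≤ ρ₂ / ρ₀ := (one_le_div h0).2 h2
  set k : ι → Zv d := fun j l => ⌊(y j l - x₀ l) / (ρ₀ / d)⌋ with hk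
  obtain ⟨S, hS, hi, he⟩ := Finset.exists_subset_injOn_image_eq_of_surjOn (f := k) (J : Set ι)
    (J.image k) (by simp [Set.SurjOn])
  have c1 : (#S : ℝ) ≤ ((2 * d + 2) * (ρ₂ / ρ₀)) ^ d := by
    have h1 : S.image k ⊆ Fintype.piFinset fun _ =>
        Finset.Icc ⌊-ρ₂ / (ρ₀ / d)⌋ ⌊ρ₂ / (ρ₀ / d)⌋ := fun q hq => by
      obtain ⟨j, hj, rfl⟩ := mem_image.1 hq
      refine Fintype.mem_piFinset.2 fun l => ?_
      have h3 : |y j l - x₀ l| ≤ ρ₂ := by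
        simpa using (PiLp.norm_apply_le (y j - x₀) l).trans (hy j (hS hj))
      obtain ⟨h4, h5⟩ := abs_le.1 h3
      exact mem_Icc.2 ⟨Int.floor_mono (div_le_div_of_nonneg_right h4 s0.le),
        Int.floor_mono (div_le_div_of_nonneg_right h5 s0.le)⟩
    have h3 := card_le_card h1
    rw [card_image_of_injOn hi, Fintype.card_piFinset, prod_const, card_univ, Fintype.card_fin,
      Int.card_Icc] at h3
    refine (Nat.cast_le.2 h3).trans ?_
    push_cast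
    refine pow_le_pow_left₀ (Nat.cast_nonneg _) ?_ _
    have e : ρ₂ / (ρ₀ / d) = d * (ρ₂ / ρ₀) := by field_simp
    have h4 := Int.floor_le (ρ₂ / (ρ₀ / d))
    have h5 := Int.lt_floor_add_one (-ρ₂ / (ρ₀ / d))
    have h6 : ((⌊ρ₂ / (ρ₀ / d)⌋ + 1 - ⌊-ρ₂ / (ρ₀ / d)⌋).toNat : ℤ) =
        ⌊ρ₂ / (ρ₀ / d)⌋ + 1 - ⌊-ρ₂ / (ρ₀ / d)⌋ := Int.toNat_of_nonneg (by
      have := Int.floor_mono (div_le_div_of_nonneg_right (show -ρ₂ ≤ ρ₂ by linarith) s0.le)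
      omega)
    have h7 := congrArg (Int.cast (R := ℝ)) h6
    push_cast at h7
    rw [neg_div] at h5 h7 ⊢
    rw [h7]
    rw [e] at h4 h5 ⊢
    linarith
  have hΩ := (mb J y ρ₀).1
  calc _ = ∫ x, (⋃ j ∈ J, Metric.ball (y j) ρ₀).indicator f x := (integral_indicator hΩ).symm
    _ ≤ ∫ x, ∑ j ∈ S, (Metric.ball (y j) (2 * ρ₀)).indicator f x := by
      refine integral_mono (hf.indicator hΩ)
        (integrable_finset_sum _ fun j _ => hf.indicator measurableSet_ball) fun x => ?_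
      have n : ∀ j ∈ S, 0 ≤ (Metric.ball (y j) (2 * ρ₀)).indicator f x := fun j _ =>
        Set.indicator_nonneg (fun x _ => f0 x) x
      by_cases hx : x ∈ ⋃ j ∈ J, Metric.ball (y j) ρ₀
      · rw [Set.indicator_of_mem hx]
        obtain ⟨j, hj, hx⟩ := Set.mem_iUnion₂.1 hx
        obtain ⟨j', hj', e⟩ := mem_image.1 (he ▸ mem_image_of_mem k hj)
        refine le_trans (le_of_eq (Set.indicator_of_mem ?_ f).symm) (single_le_sum n hj')
        have h3 : ‖y j - y j'‖ ≤ d * (ρ₀ / d) := norm_le_coord fun l => by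
          have h4 := Int.abs_sub_lt_one_of_floor_eq_floor (congrFun e.symm l)
          rw [← sub_div, abs_div, abs_of_pos s0, div_lt_one s0, sub_sub_sub_cancel_right] at h4
          exact h4.le
        rw [mul_div_cancel₀ _ (by positivity)] at h3
        rw [Metric.mem_ball, dist_eq_norm] at hx ⊢
        linarith [norm_sub_le_norm_sub_add_norm_sub x (y j) (y j')]
      · rw [Set.indicator_of_notMem hx]
        exact sum_nonneg n
    _ = ∑ j ∈ S, ∫ x in Metric.ball (y j) (2 * ρ₀), f x := by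
      rw [integral_finset_sum _ fun j _ => hf.indicator measurableSet_ball]
      exact sum_congr rfl fun j _ => integral_indicator measurableSet_ball
    _ ≤ #S * A := by simpa using sum_le_card_nsmul S _ A fun j hj => hb j (hS hj)
    _ ≤ _ := mul_le_mul_of_nonneg_right c1 hA

theorem half_le {u v : ℂ} {a : ℝ} (ha : 0 < a) (h : a ≤ ‖u‖) (h' : ‖u - v‖ ^ 2 ≤ a ^ 2 / 4) :
    a ^ 2 ≤ 4 * ‖v‖ ^ 2 := by
  have h1 : ‖u - v‖ ≤ a / 2 := (abs_le_of_sq_le_sq' (by linarith) (by linarith)).2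
  have h2 : a / 2 ≤ ‖v‖ := by linarith [norm_le_norm_add_norm_sub' u v]
  nlinarith

end LbP

open LbP in
/-- **[LB]** -/
theorem lb (d : ℕ) (hd : 1 ≤ d) : LB d := by
  classical
  intro bas loc fs bss ψ R₀ N hψ hR
  have d1 : (1 : ℝ) ≤ d := by exact_mod_cast hd
  obtain ⟨b1, -, -, b4, b5⟩ := bas
  obtain ⟨C₁, c1, loc⟩ := loc d (2 * d) N (by linarith) (by linarith)
  obtain ⟨C₄, c4, fs⟩ := fs d N (by linarith)
  obtain ⟨C₂, c2, bss⟩ := bss R₀ (2 * d) N (by linarith) hR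
  set C₃ : ℝ := 3 * (5 * (2 * d + 2)) ^ d with hC₃
  have c3 : 1 ≤ C₃ := by linarith [one_le_pow₀ (n := d) (show (1 : ℝ) ≤ 5 * (2 * d + 2) by linarith)]
  have c5 : 0 ≤ 4 * 11 ^ d * C₁ := by positivity
  have c6 : 0 ≤ 4 * C₂ * C₃ := by positivity
  refine ⟨1 + 4 * 11 ^ d * C₁ + C₄ + 4 * C₂ * C₃, by linarith, ?_⟩
  intro g M r m Λ ρ₀ ρ₂ T a σ c Θ ι β J p bl base L p₀ hg cap hΘ hL hm h0 hT h2 hρ hsep hJ hσ hk
    hN ha ea eΛ
  have M1 : 1 ≤ M := by linarith [cap.big]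
  have M0 : 0 < M := by linarith
  have r0 : 0 < r := by linarith [cap.one, cap.le]
  have T0 : 0 ≤ T := h0.trans hT
  have ρ0 : 0 < ρ₀ := lt_of_lt_of_le (by positivity) hρ
  obtain ⟨g1, g2, -⟩ := b4 ψ 3 M g hψ M0 hg
  have e0 : 0 ≤ (m ^ N)⁻¹ * en g := mul_nonneg (by positivity) (b1 3 g hg).2.2.1
  rw [mul_assoc] at ea eΛ
  have Λ0 : 0 ≤ Λ := le_trans (mul_nonneg (by linarith) e0) eΛ
  have hc : ∀ θ ∈ Θ, ‖ce M θ‖ ≤ 4 := fun θ hθ => (mem_filter.1 (hΘ hθ)).2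
  have hr : ∀ s, |s| ≤ 2 * T → m * (M + |s| / M) ≤ ρ₀ := fun s hs => le_trans (by gcongr) hρ
  set y : Zv d → ι → E d := fun θ j => (p j).1 - (2 * ((p j).2 - p₀.2)) • ce M θ with hy
  set Jt : Zv d → Finset ι := fun θ => J.filter fun j => θ ∈ L (bl j) with hJt
  choose h h1 h2' h3 h4 using fun θ => loc M (ce M θ) p₀.2 3 _ _ M0 (mb (Jt θ) (y θ) ρ₀)
    (g1 θ).1 (g1 θ).2
  -- the energy
  have en1 : ∀ θ ∈ Θ, en (h θ) ≤ C₃ * min (lE (cp ψ M θ g) p₀ ρ₂) (Λ * ρ₂ ^ d) := by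
    intro θ hθ
    obtain ⟨-, -, -, i1, i2, -⟩ := b1 3 _ (g1 θ).1
    have n : ∀ x, 0 ≤ ‖Uu (cp ψ M θ g) (x, p₀.2)‖ ^ 2 := fun x => by positivity
    rw [mul_min_of_nonneg _ _ (by linarith)]
    refine (h3 θ).trans (le_min (le_trans ?_ (le_mul_of_one_le_left (i2 p₀ ρ₂).1 c3)) ?_)
    · refine setIntegral_mono_set (i1 _).1.integrableOn (ae_of_all _ n) (LE.le.eventuallyLE ?_)
      refine Set.iUnion₂_subset fun j hj x hx => ?_
      obtain ⟨j1, j2⟩ := mem_filter.1 hj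
      rw [Metric.mem_ball, dist_eq_norm] at hx ⊢
      linarith [norm_sub_le_norm_sub_add_norm_sub x (y θ j) p₀.1, ((hJ j j1).2.2.2 θ j2).1]
    · refine (cover hd (i1 _).1 n _ _ p₀.1 ρ0 h2 (A := 3 * (Λ * (5 * ρ₀) ^ d)) (by positivity)
        (fun j hj => ?_) fun j hj => ?_).trans_eq ?_
      · linarith [((hJ j (mem_filter.1 hj).1).2.2.2 θ (mem_filter.1 hj).2).1]
      · obtain ⟨j1, j2⟩ := mem_filter.1 hj
        obtain ⟨⟨n1, n2⟩, n3, -, n4⟩ := hJ j j1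
        have k := fs M (ce M θ) 3 _ (y θ j, p₀.2) (base (bl j)) (2 * ρ₀) (5 * ρ₀) m M0 hm
          (by linarith) (g1 θ).1 (g1 θ).2 (by
            have k1 := hr (p₀.2 - (base (bl j)).2) (by
              linarith [abs_sub_le p₀.2 (p j).2 (base (bl j)).2, abs_sub_comm p₀.2 (p j).2])
            have k2 : y θ j - (2 * (p₀.2 - (base (bl j)).2)) • ce M θ - (base (bl j)).1 =
                (p j).1 - (base (bl j)).1 - (2 * ((p j).2 - (base (bl j)).2)) • ce M θ := by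
              simp only [hy]; module
            have k3 := norm_sub_le ((p j).1 - (base (bl j)).1)
              ((2 * ((p j).2 - (base (bl j)).2)) • ce M θ)
            rw [norm_smul, Real.norm_eq_abs, abs_mul, abs_two] at k3
            have k4 := mul_le_mul n2 (hc θ (hL _ j2)) (norm_nonneg _) (by linarith)
            simp only [k2]
            linarith)
        have k5 : en (cp ψ M θ g) ≤ en g := by simpa using (g2 {θ}).2.2.1
        have k6 : (2 * ρ₀ / M) ^ d ≤ (5 * ρ₀) ^ d :=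
          pow_le_pow_left₀ (by positivity) ((div_le_self (by linarith) M1).trans (by linarith)) _
        have k7 : C₄ * (m ^ N)⁻¹ * (2 * ρ₀ / M) ^ d * en (cp ψ M θ g) ≤ Λ * (5 * ρ₀) ^ d :=
          calc _ ≤ C₄ * (m ^ N)⁻¹ * (5 * ρ₀) ^ d * en g := by
                have := (b1 3 _ (g1 θ).1).2.2.1
                gcongr
            _ = C₄ * ((m ^ N)⁻¹ * en g) * (5 * ρ₀) ^ d := by ring
            _ ≤ _ := mul_le_mul_of_nonneg_right
                ((mul_le_mul_of_nonneg_right (by linarith) e0).trans eΛ) (by positivity)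
        exact k.trans (by linarith [(n4 θ j2).2])
      · rw [hC₃, show ρ₂ ^ d = (ρ₂ / ρ₀ * ρ₀) ^ d by rw [div_mul_cancel₀ _ ρ0.ne']]
        simp only [mul_pow]
        ring
  -- the values
  have pt : ∀ j ∈ J, a ^ 2 ≤ 4 * ‖∑ θ ∈ L (bl j), Uu (h θ) (p j)‖ ^ 2 := by
    intro j hj
    obtain ⟨-, n3, n4, -⟩ := hJ j hj
    refine half_le ha n4 ?_
    rw [(g2 _).2.2.2, ← sum_sub_distrib]
    have k1 : ∀ θ ∈ L (bl j), ‖Uu (cp ψ M θ g) (p j) - Uu (h θ) (p j)‖ ^ 2 ≤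
        C₁ * (m ^ N)⁻¹ * (M ^ d)⁻¹ * en (cp ψ M θ g) := fun θ hθ =>
      h4 θ (p j).1 (p j).2 m hm ((ball_subset_ball (hr _ (by linarith))).trans
        (Set.subset_biUnion_of_mem (u := fun j => Metric.ball (y θ j) ρ₀)
          (show j ∈ (Jt θ : Set ι) from mem_filter.2 ⟨hj, hθ⟩)))
    have k2 : (#(L (bl j)) : ℝ) ≤ 11 ^ d * M ^ d :=
      (Nat.cast_le.2 (card_le_card ((hL _).trans hΘ))).trans (b5 M M1)
    calc _ ≤ (∑ θ ∈ L (bl j), ‖Uu (cp ψ M θ g) (p j) - Uu (h θ) (p j)‖) ^ 2 :=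
          pow_le_pow_left₀ (norm_nonneg _) (norm_sum_le _ _) 2
      _ ≤ #(L (bl j)) * ∑ θ ∈ L (bl j), ‖Uu (cp ψ M θ g) (p j) - Uu (h θ) (p j)‖ ^ 2 :=
          sq_sum_le_card_mul_sum_sq
      _ ≤ 11 ^ d * M ^ d * (C₁ * (m ^ N)⁻¹ * (M ^ d)⁻¹ * en g) := by
          refine mul_le_mul k2 ((sum_le_sum k1).trans ?_) (by positivity) (by positivity)
          rw [← mul_sum]
          exact mul_le_mul_of_nonneg_left (g2 _).2.2.1 (by positivity)
      _ = 4 * 11 ^ d * C₁ * ((m ^ N)⁻¹ * en g) / 4 := by field_simp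
      _ ≤ _ := by
          have := mul_le_mul_of_nonneg_right
            (show 4 * 11 ^ d * C₁ ≤ 1 + 4 * 11 ^ d * C₁ + C₄ + 4 * C₂ * C₃ by linarith) e0
          linarith
  have B := bss M r (4 + 2 * d / M) σ c Θ h ι β J p bl L cap (fun θ hθ =>
    ⟨⟨(h1 θ).meas, (h1 θ).bdd, fun η hη => ((h1 θ).supp η hη).trans (by linarith [hc θ hθ])⟩, h2' θ⟩)
    hL hsep hσ hk
  have S0 : 0 ≤ ∑ θ ∈ Θ, min (lE (cp ψ M θ g) p₀ ρ₂) (Λ * ρ₂ ^ d) := sum_nonneg fun θ _ =>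
    le_min ((b1 3 _ (g1 θ).1).2.2.2.2.1 p₀ ρ₂).1 (mul_nonneg Λ0 (pow_nonneg (by linarith) _))
  calc a ^ 2 * #J ≤ 4 * ∑ j ∈ J, ‖∑ θ ∈ L (bl j), Uu (h θ) (p j)‖ ^ 2 := by
        rw [mul_sum, mul_comm]
        simpa using card_nsmul_le_sum J _ _ pt
    _ ≤ 4 * (C₂ * (r ^ d)⁻¹ * (σ + 1) *
          (C₃ * ∑ θ ∈ Θ, min (lE (cp ψ M θ g) p₀ ρ₂) (Λ * ρ₂ ^ d))) := by
        refine mul_le_mul_of_nonneg_left (B.trans (mul_le_mul (by gcongr) ?_
          (sum_nonneg fun θ _ => (b1 _ _ (h1 θ)).2.2.1) (by positivity))) (by norm_num)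
        rw [mul_sum]
        exact sum_le_sum en1
    _ = 4 * C₂ * C₃ * (r ^ d)⁻¹ * (σ + 1) *
          ∑ θ ∈ Θ, min (lE (cp ψ M θ g) p₀ ρ₂) (Λ * ρ₂ ^ d) := by ring
    _ ≤ _ := by gcongr; linarith

end

end Vale.Agent.P076N.KEY
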