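import Vale.Agent.P076N.KEY.Spec1

/-!
# P076N / KEY : row LOCP
-/

set_option linter.all false

open MeasureTheory Finset

namespace Vale.Agent.P076N.KEY

open Vale.Agent.P076 Vale.Agent.P076N Vale.Agent.P076T

noncomputable section

open Classical

namespace LocpAux

variable {d : ℕ}

theorem wg_mono {B ℓ : ℝ} {A A' : Finset (E d × ℝ)} (h : WG B ℓ A) (hs : A' ⊆ A) : WG B ℓ A' :=
  fun y s => le_trans (by exact_mod_cast card_le_card (filter_subset_filter _ hs)) (h y s)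

theorem en_nn (V : E d → ℂ) : 0 ≤ en V := integral_nonneg fun _ => by positivity

/-- the localised function near `p` -/
theorem loc (hL : LOCZ d) (N : ℕ) : ∃ C : ℝ, 0 ≤ C ∧ ∀ (r β : ℝ) (V : E d → ℂ) (p : E d × ℝ), 16 ≤ r → 0 < β →
    Bd (13 / 4) V → C * (r ^ N)⁻¹ * en V ≤ β ^ 2 → ∃ V₁ : E d → ℂ, Bd (7 / 2) V₁ ∧ en V₁ ≤ lE V p r ∧
      ∀ p', Nb (√r / 4) p p' → β ≤ ‖Uu V p'‖ → β / 2 ≤ ‖Uu V₁ p'‖ := by
  obtain ⟨C, hC, h⟩ := hL (13 / 4) (7 / 2) (2 * N) (by norm_num) (by norm_num)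
  refine ⟨4 * C * 16 ^ N, by positivity, fun r β V p hr hβ hV hs => ?_⟩
  obtain ⟨V₁, h1, -, h2, h3⟩ := h 1 0 p.2 (13 / 4) (Metric.ball p.1 r) V one_pos
    ⟨measurableSet_ball, Metric.isBounded_ball⟩ hV fun η hη => by simpa using hV.supp η hη
  have hq : 4 ≤ √r := Real.le_sqrt_of_sq_le (by linarith)
  have hq2 : √r * √r = r := Real.mul_self_sqrt (by linarith)
  refine ⟨V₁, by simpa using h1, h2, fun p' hp hb => ?_⟩
  have h4 := h3 p'.1 p'.2 (√r / 4) (by linarith) (by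
    rw [smul_zero, sub_zero, div_one]
    refine Metric.ball_subset_ball' ?_
    rw [dist_eq_norm]
    have := mul_le_mul_of_nonneg_left hp.2 (by linarith : 0 ≤ √r / 4)
    nlinarith [hp.1])
  have e : C * ((√r / 4) ^ (2 * N))⁻¹ * ((1 : ℝ) ^ d)⁻¹ * en V = 4 * C * 16 ^ N * (r ^ N)⁻¹ * en V / 4 := by
    rw [pow_mul, div_pow, Real.sq_sqrt (by linarith), div_pow]
    norm_num
    ring
  rw [e] at h4
  have h5 : ‖Uu V p' - Uu V₁ p'‖ ≤ β / 2 :=
    (pow_le_pow_iff_left₀ (norm_nonneg _) (by positivity) two_ne_zero).1 (h4.trans (by linarith))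
  linarith [norm_sub_norm_le (Uu V p') (Uu V₁ p')]

theorem cnt {r n : ℝ} (hr : 16 ≤ r) (hn : n ^ 4 ≤ r ^ d) : n * (√r / 4) ^ (-(d : ℝ) / 2) ≤ 2 ^ d := by
  have hq : 4 ≤ √r := Real.le_sqrt_of_sq_le (by linarith)
  have h0 : 0 < √r / 4 := by linarith
  have h1 : 0 < (√r / 4) ^ ((d : ℝ) / 2) := Real.rpow_pos_of_pos h0 _
  rw [neg_div, Real.rpow_neg h0.le, ← div_eq_mul_inv, div_le_iff₀ h1]
  refine le_of_pow_le_pow_left₀ (n := 4) (by norm_num) (by positivity) (hn.trans_eq ?_)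
  rw [mul_pow, ← Real.rpow_natCast ((√r / 4) ^ ((d : ℝ) / 2)), ← Real.rpow_mul h0.le,
    show (d : ℝ) / 2 * ((4 : ℕ) : ℝ) = ((2 * d : ℕ) : ℝ) by push_cast; ring, Real.rpow_natCast, pow_mul, div_pow,
    Real.sq_sqrt (by linarith), ← pow_mul, mul_comm d, pow_mul, ← mul_pow]
  congr 1
  ring

end LocpAux

theorem locp (d : ℕ) (hd : 2 ≤ d) : LOCP d := fun _ hL hT B N => by
  have hd' : (2 : ℝ) ≤ d := by exact_mod_cast hd
  set b : ℝ := 8 / (4 * (d : ℝ) + 3) with hb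
  have hb0 : 0 ≤ b := by positivity
  have hb1 : b ≤ 1 := by rw [hb, div_le_one (by positivity)]; linarith
  have hε : 0 < (d : ℝ) / 2 * b - d / (d + 1) := by
    rw [hb, sub_pos, div_mul_div_comm, div_lt_div_iff₀ (by positivity) (by positivity)]
    nlinarith
  obtain ⟨CT, hCT, hT⟩ := hT _ B hε
  obtain ⟨CL, hCL, hL⟩ := LocpAux.loc hL N
  set C₁ : ℝ := 16 * CT + 1 with hC₁
  have h1 : 1 ≤ C₁ := by linarith
  have hF : 0 ≤ CT * (2 * C₁ + 2 ^ d) := by positivity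
  refine ⟨16 + C₁ + CL + CT * (2 * C₁ + 2 ^ d), by linarith,
    fun ℓ r e β V A hr he hℓ hβ hV hW hA hn hE hs => ?_⟩
  have hr' : 16 ≤ r := by linarith
  have hen := LocpAux.en_nn V
  have hq : 4 ≤ √r := Real.le_sqrt_of_sq_le (by linarith)
  have hce : 1 ≤ C₁ * e := one_le_mul_of_one_le_of_one_le h1 he
  have hce0 : 0 < C₁ * e := by linarith
  set τ : ℝ := (C₁ * e) ^ (2 / (d : ℝ)) with hτ
  have hτ1 : 1 ≤ τ := Real.one_le_rpow hce (by positivity)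
  have hτ2 : τ ≤ ℓ := by
    refine le_trans ?_ (le_trans (mul_le_mul_of_nonneg_right (by linarith : C₁ ≤ _) (by linarith)) hℓ)
    exact (Real.rpow_le_rpow_of_exponent_le hce ((div_le_one (by linarith)).2 hd')).trans_eq (Real.rpow_one _)
  have e1 : τ ^ ((d : ℝ) / (d + 1) + ((d : ℝ) / 2 * b - d / (d + 1))) = (C₁ * e) ^ b := by
    rw [hτ, ← Real.rpow_mul hce0.le]
    congr 1
    field_simp
    ring
  have e2 : τ ^ (-(d : ℝ) / 2) = (C₁ * e)⁻¹ := by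
    rw [hτ, ← Real.rpow_mul hce0.le, ← Real.rpow_neg_one]
    congr 1
    field_simp
  set X : ℝ := (C₁ * e) ^ b with hX
  have hX0 : 0 ≤ X := Real.rpow_nonneg hce0.le _
  have hs' : CL * (r ^ N)⁻¹ * en V ≤ β ^ 2 :=
    le_trans (mul_le_mul_of_nonneg_right (mul_le_mul_of_nonneg_right (by linarith) (by positivity)) hen) hs
  have hm : ∀ p ∈ A, (#(A.filter (Nb (√r / 4) p)) : ℝ) ≤ 8 * CT * e * X := fun p hp => by
    obtain ⟨V₁, g1, g2, g3⟩ := hL r β V p hr' hβ hV hs'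
    have g4 := hT ℓ τ τ _ _ (β / 2) V₁ (A.filter (Nb (√r / 4) p)) hτ1 hτ2 hτ1 (by positivity) (Nat.cast_nonneg _) g1
      (LocpAux.wg_mono hW (filter_subset _ _))
      (fun p' hp' => g3 p' (mem_filter.1 hp').2 (hA p' (mem_filter.1 hp').1)) le_rfl
      (fun p' _ => Nat.cast_le.2 (card_filter_le _ _))
    rw [e1, e2] at g4
    set n : ℝ := ((#(A.filter (Nb (√r / 4) p)) : ℕ) : ℝ) with hn'
    have hn0 : 0 ≤ n := Nat.cast_nonneg _
    have g5 := g4.trans (mul_le_mul_of_nonneg_left (g2.trans (hE p hp)) (by positivity))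
    have g6 : CT * (X + n * (C₁ * e)⁻¹ + n * (C₁ * e)⁻¹) * (e * β ^ 2) =
        β ^ 2 * (CT * e * X + 2 * (CT / C₁) * n) := by
      field_simp
      ring
    have g7 : CT / C₁ ≤ 1 / 16 := by rw [div_le_iff₀ (by linarith)]; linarith
    rw [g6, show (β / 2) ^ 2 * n = β ^ 2 * (n / 4) by ring] at g5
    have g8 := le_of_mul_le_mul_left g5 (by positivity)
    nlinarith [mul_le_mul_of_nonneg_right g7 hn0]
  have g1 := hT ℓ τ (√r / 4) _ _ β V A hτ1 hτ2 (by linarith) hβ.le (by positivity)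
    ⟨hV.meas, hV.bdd, fun η hη => (hV.supp η hη).trans (by norm_num)⟩ hW hA le_rfl hm
  rw [e1, e2] at g1
  have g2 : (#A : ℝ) * (√r / 4) ^ (-(d : ℝ) / 2) ≤ 2 ^ d := by
    refine LocpAux.cnt hr' (le_trans ?_ hn)
    have : #A ^ 4 ≤ (#A ^ 4) ^ 2 := Nat.le_self_pow two_ne_zero _
    rw [← pow_mul] at this
    exact_mod_cast this
  have g3 : 8 * CT * e * X * (C₁ * e)⁻¹ ≤ X := by
    have : 8 * CT * e * X * (C₁ * e)⁻¹ = 8 * CT / C₁ * X := by field_simp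
    rw [this]
    exact mul_le_of_le_one_left hX0 (by rw [div_le_one (by linarith)]; linarith)
  have g4 : 1 ≤ e ^ b := Real.one_le_rpow he hb0
  have g5 : X ≤ C₁ * e ^ b := by
    rw [hX, Real.mul_rpow (by linarith) (by linarith)]
    exact mul_le_mul_of_nonneg_right
      ((Real.rpow_le_rpow_of_exponent_le h1 hb1).trans_eq (Real.rpow_one _)) (by linarith)
  refine g1.trans (mul_le_mul_of_nonneg_right ?_ hen)
  have g6 : (2 : ℝ) ^ d ≤ 2 ^ d * e ^ b := le_mul_of_one_le_right (by positivity) g4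
  calc _ ≤ CT * ((2 * C₁ + 2 ^ d) * e ^ b) := mul_le_mul_of_nonneg_left (by linarith) hCT
    _ = CT * (2 * C₁ + 2 ^ d) * e ^ b := by ring
    _ ≤ _ := mul_le_mul_of_nonneg_right (by linarith) (by linarith)

end

end Vale.Agent.P076N.KEY
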