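import Vale.Agent.P076N.KEY.Spec1
import Vale.Agent.P076T.Core

/-!
# P076N / KEY : row ORTC, orthogonality at the critical scale
-/

set_option linter.all false

open MeasureTheory Finset
open scoped RealInnerProductSpace

namespace Vale.Agent.P076N.KEY

open Vale.Agent.P076 Vale.Agent.P076N Vale.Agent.P076T

namespace ORTCx

variable {d : ℕ}

theorem mem2 {R : ℝ} {h : E d → ℂ} (hb : Bd R h) (p : ENNReal) : MemLp h p :=
  memLp_of_bdd hb.meas hb.bdd (η0 := 0) (r := R) (fun η hη => by simpa using hb.supp η hη) p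

theorem coord {R₀ r : ℝ} (hr : 0 < r) {θ : Zv d} {h : E d → ℂ} (hn : Nr R₀ r (ce r θ) h) {η : E d}
    (hη : h η ≠ 0) (l : Fin d) : |r * η l - θ l| ≤ R₀ := by
  have h1 := mul_le_mul_of_nonneg_left (abs_apply_le (η - ce r θ) l) hr.le
  have h2 : r * η l - θ l = r * (η - ce r θ) l := by
    simp only [ce, toV, PiLp.sub_apply, PiLp.smul_apply, smul_eq_mul]
    field_simp
  rw [h2, abs_mul, abs_of_pos hr]
  exact h1.trans (hn η hη)

end ORTCx

open ORTCx in
theorem ortc (d : ℕ) : ORTC d := by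
  classical
  intro R₀ hR₀
  have hM : (d : ℝ) < (d : ℝ) + 1 := by linarith
  obtain ⟨C, hC, hO⟩ := mean_ort_lat d ((d : ℝ) + 1) (2 * R₀) hM (by positivity)
  have hcI := cI_nonneg d ((d : ℝ) + 1)
  have c1 : (0 : ℝ) ≤ (2 * R₀ / 1 + 2) ^ d := by positivity
  have c2 : (0 : ℝ) ≤ 2 ^ ((d : ℝ) + 1) * C * cI d ((d : ℝ) + 1) := by positivity
  refine ⟨(2 * R₀ / 1 + 2) ^ d + 2 ^ ((d : ℝ) + 1) * C * cI d ((d : ℝ) + 1), by positivity,
    fun r R I V hr hV => ⟨?_, fun A p hA => ?_⟩⟩
  · have hi : ∀ θ ∈ I, Integrable fun η => ‖V θ η‖ ^ 2 := fun θ hθ =>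
      (mem2 (hV θ hθ).1 2).integrable_norm_pow (by norm_num)
    have h0 : 0 ≤ ∑ θ ∈ I, en (V θ) := sum_nonneg fun θ _ => integral_nonneg fun η => by positivity
    refine le_trans ?_ (mul_le_mul_of_nonneg_right (le_add_of_nonneg_right c2) h0)
    unfold en
    rw [← integral_finsetSum _ hi, ← integral_const_mul]
    refine integral_mono_of_nonneg (Filter.Eventually.of_forall fun η => by positivity)
      ((integrable_finsetSum _ hi).const_mul _) (Filter.Eventually.of_forall fun η => ?_)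
    have h1 : ∑ θ ∈ I, V θ η = ∑ θ ∈ I.filter (fun θ => V θ η ≠ 0), V θ η := (sum_filter_ne_zero _).symm
    have h2 := card_ball (T := R₀) one_pos hR₀.le (I.filter fun θ => V θ η ≠ 0) (fun θ => toV θ)
      (fun i _ j _ h => funext fun k => by simpa [toV] using h k) (r • η) fun θ hθ k => by
        have := coord hr (hV θ (mem_filter.1 hθ).1).2 (mem_filter.1 hθ).2 k
        rw [abs_sub_comm] at this
        simpa [toV] using this
    have h3 := sq_sum_le_card_mul_sum_sq (s := I.filter fun θ => V θ η ≠ 0) (f := fun θ => ‖V θ η‖)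
    have h4 : ∑ θ ∈ I.filter (fun θ => V θ η ≠ 0), ‖V θ η‖ ^ 2 ≤ ∑ θ ∈ I, ‖V θ η‖ ^ 2 :=
      sum_le_sum_of_subset_of_nonneg (filter_subset _ _) fun _ _ _ => by positivity
    simp only
    rw [h1]
    exact ((pow_le_pow_left₀ (norm_nonneg _) (norm_sum_le _ _) 2).trans h3).trans
      (mul_le_mul h2 h4 (sum_nonneg fun _ _ => by positivity) c1)
  · have hi : ∀ θ ∈ I, Integrable (V θ) := fun θ hθ => memLp_one_iff_integrable.1 (mem2 (hV θ hθ).1 1)
    have h1 := hO r (Zv d) I V (fun θ l => 2 * θ l) hr hi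
      (fun a _ b _ h => funext fun l => by have := congrFun h l; simp only at this; omega)
      (fun θ hθ η hη l => by
        have := coord hr (hV θ hθ).2 hη l
        have e : 2 * η l - ((2 * θ l : ℤ) : ℝ) / r = 2 * (r * η l - θ l) / r := by push_cast; field_simp
        rw [e, abs_div, abs_mul, abs_of_pos hr, abs_two]
        gcongr) p.1 p.2
    have h2 : ∀ θ ∈ I, mean r ((d : ℝ) + 1) p.1 p.2 (V θ) ≤ cI d ((d : ℝ) + 1) * A ^ 2 := by
      intro θ hθ
      have h3 : ∫ x, ‖evo (V θ) x p.2 0‖ ^ 2 * wE ((d : ℝ) + 1) r (x - p.1) ≤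
          ∫ x, A ^ 2 * wE ((d : ℝ) + 1) r (x - p.1) :=
        integral_mono (mean_int hM hr _ _ (hi θ hθ)) ((wE_integrable hM hr p.1).const_mul _) fun x =>
          mul_le_mul_of_nonneg_right (pow_le_pow_left₀ (norm_nonneg _) (hA θ hθ x) 2) (wE_pos hr _).le
      rw [integral_const_mul, wE_integral hr] at h3
      refine (mul_le_mul_of_nonneg_left h3 (by positivity)).trans (le_of_eq ?_)
      field_simp
    have h3 := sum_le_card_nsmul _ _ _ h2
    rw [nsmul_eq_mul] at h3
    have hs := integrable_finsetSum _ hi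
    have h4 : lE (fun η => ∑ θ ∈ I, V θ η) p r ≤
        2 ^ ((d : ℝ) + 1) * r ^ d * mean r ((d : ℝ) + 1) p.1 p.2 (fun η => ∑ θ ∈ I, V θ η) := by
      have h5 := (mean_int hM hr p.1 p.2 hs).const_mul (2 ^ ((d : ℝ) + 1))
      unfold mean
      rw [mul_assoc, mul_inv_cancel_left₀ (by positivity), ← integral_const_mul]
      refine le_trans (setIntegral_mono_on ?_ h5.integrableOn measurableSet_ball fun x hx => ?_)
        (setIntegral_le_integral h5 (Filter.Eventually.of_forall fun x => ?_))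
      · exact ((((evo_cont_x hs p.2).norm.pow 2).continuousOn.integrableOn_compact
          (isCompact_closedBall p.1 r)).mono_set Metric.ball_subset_closedBall)
      · have h6 := wE_shift (M := (d : ℝ) + 1) (B := 1) (a := (0 : E d)) (b := x - p.1) (by positivity) hr
          zero_le_one (by rw [zero_sub, norm_neg, one_mul]; exact (mem_ball_iff_norm.1 hx).le)
        rw [wE_zero, one_add_one_eq_two] at h6
        rw [mul_left_comm]
        exact le_mul_of_one_le_right (by positivity) h6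
      · have := wE_pos (M := (d : ℝ) + 1) hr (x - p.1)
        positivity
    have h5 := mul_le_mul_of_nonneg_left (h1.trans (mul_le_mul_of_nonneg_left h3 hC))
      (by positivity : 0 ≤ 2 ^ ((d : ℝ) + 1) * r ^ d)
    have h6 : 0 ≤ (2 * R₀ / 1 + 2) ^ d * #I * r ^ d * A ^ 2 := by positivity
    linarith

end Vale.Agent.P076N.KEY
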