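import Vale.Agent.P076N.KEY.Spec2
import Vale.Agent.P076N.KEY.Bas

/-!
# P076N / KEY : the row OVL (helper83)
-/

set_option linter.all false

open MeasureTheory Finset

namespace Vale.Agent.P076N.KEY

open Vale.Agent.P076 Vale.Agent.P076N Vale.Agent.P076T

namespace Ovx

variable {d : ℕ}

theorem icc (a : ℝ) {L : ℝ} (hL : 0 ≤ L) : (#(Finset.Icc ⌊a⌋ ⌊a + L⌋) : ℝ) ≤ L + 2 := by
  have h : ⌊a⌋ ≤ ⌊a + L⌋ := Int.floor_mono (by linarith)
  have e : ((#(Finset.Icc ⌊a⌋ ⌊a + L⌋) : ℤ) : ℝ) = ((⌊a + L⌋ + 1 - ⌊a⌋ : ℤ) : ℝ) := by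
    rw [Int.card_Icc_of_le _ _ (by omega)]
  push_cast at e
  linarith [Int.floor_le (a + L), Int.lt_floor_add_one a]

theorem cells {X : Type} (A : Finset X) (f : X → Fin d → ℝ) (g : X → ℝ) (a : Fin d → ℝ) (b : ℝ) {L L' : ℝ}
    (hL : 0 ≤ L) (hL' : 0 ≤ L') (h : ∀ p ∈ A, (∀ l, a l ≤ f p l ∧ f p l ≤ a l + L) ∧ b ≤ g p ∧ g p ≤ b + L') :
    (#(A.image fun p => ((fun l => ⌊f p l⌋ : Fin d → ℤ), ⌊g p⌋)) : ℝ) ≤ (L + 2) ^ d * (L' + 2) := by
  have s : (A.image fun p => ((fun l => ⌊f p l⌋ : Fin d → ℤ), ⌊g p⌋)) ⊆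
      (Fintype.piFinset fun l => Finset.Icc ⌊a l⌋ ⌊a l + L⌋) ×ˢ Finset.Icc ⌊b⌋ ⌊b + L'⌋ := by
    intro q hq
    obtain ⟨p, hp, rfl⟩ := mem_image.1 hq
    obtain ⟨h1, h2, h3⟩ := h p hp
    exact mem_product.2 ⟨Fintype.mem_piFinset.2 fun l => mem_Icc.2 ⟨Int.floor_mono (h1 l).1, Int.floor_mono (h1 l).2⟩,
      mem_Icc.2 ⟨Int.floor_mono h2, Int.floor_mono h3⟩⟩
  refine (Nat.cast_le.2 (card_le_card s)).trans ?_
  rw [card_product, Fintype.card_piFinset, Nat.cast_mul, Nat.cast_prod]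
  refine mul_le_mul ?_ (icc b hL') (Nat.cast_nonneg _) (by positivity)
  exact (prod_le_prod (fun l _ => Nat.cast_nonneg _) fun l _ => icc (a l) hL).trans (by simp)

theorem one {R τ : ℝ} {g : E d → ℂ} (hg : Bd R g) (hτ : 0 < τ) (J : Finset ((Fin d → ℤ) × ℤ)) (t : ℤ)
    (h : ∀ q ∈ J, q.2 = t) : ∑ q ∈ J, lE g (cor τ q) (100 * d * τ) ≤ (200 * d + 2) ^ d * en g := by
  classical
  obtain ⟨i1, i2⟩ := ((bas d).1 R g hg).2.2.2.1 (τ * t)
  have e : ∀ q ∈ J, lE g (cor τ q) (100 * d * τ) =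
      ∫ x, (Metric.ball (cor τ q).1 (100 * d * τ)).indicator (fun x => ‖Uu g (x, τ * t)‖ ^ 2) x := fun q hq => by
    rw [integral_indicator measurableSet_ball, ← h q hq]; rfl
  rw [sum_congr rfl e, ← integral_finset_sum _ fun q _ => i1.indicator measurableSet_ball, ← i2, ← integral_const_mul]
  refine integral_mono (integrable_finset_sum _ fun q _ => i1.indicator measurableSet_ball) (i1.const_mul _)
    fun x => ?_
  simp only [Set.indicator_apply]
  rw [← sum_filter, sum_const, nsmul_eq_mul]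
  refine mul_le_mul_of_nonneg_right ((card_ball (T := 100 * d * τ) hτ (by positivity) _ (fun q => (cor τ q).1)
    (fun a ha b hb e => ?_) x fun q hq k => ?_).trans (le_of_eq ?_)) (sq_nonneg _)
  · refine Prod.ext (funext fun k => ?_) ((h a (mem_filter.1 ha).1).trans (h b (mem_filter.1 hb).1).symm)
    simpa [cor, mul_div_cancel_left₀ _ hτ.ne'] using e k
  · exact (PiLp.norm_apply_le ((cor τ q).1 - x) k).trans (mem_ball_iff_norm'.1 (mem_filter.1 hq).2).le
  · congr 1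
    field_simp
    ring

end Ovx

open Ovx in
theorem ovl (d : ℕ) : OVL d := by
  classical
  have d0 : (0 : ℝ) ≤ d := Nat.cast_nonneg d
  have k1 : (1 : ℝ) ≤ (200 * d + 3) ^ d := one_le_pow₀ (by linarith)
  refine ⟨3 * (200 * d + 3) ^ d, by linarith, fun R τ n g J hg hτ h => ?_, fun B ℓ τ A q hB h1 h2 hW => ?_,
    fun τ T A p₀ hτ hT h => ?_⟩
  · rw [← sum_fiberwise_of_maps_to (g := Prod.snd) (t := Finset.Ico (0 : ℤ) n) fun q hq => mem_Ico.2 (h q hq)]
    refine (sum_le_card_nsmul _ _ _ fun t _ => one hg hτ _ t fun q hq => (mem_filter.1 hq).2).trans ?_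
    have e0 := ((bas d).1 R g hg).2.2.1
    have : ((200 * d + 2) ^ d : ℝ) ≤ 3 * (200 * d + 3) ^ d :=
      (pow_le_pow_left₀ (by positivity) (by linarith) d).trans (le_mul_of_one_le_left (by positivity) (by norm_num))
    rw [Int.card_Ico, sub_zero, Int.toNat_natCast, nsmul_eq_mul, ← mul_assoc, mul_comm (n : ℝ)]
    gcongr
  · have l0 : 0 < ℓ := by linarith
    have t0 : 0 < τ := by linarith
    set A' := A.filter fun p => cub τ p = q
    have fl : ∀ (x : ℝ) (k : ℤ), ⌊x / τ⌋ = k → τ * k ≤ x ∧ x ≤ τ * k + τ := fun x k e => by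
      obtain ⟨a, b⟩ := Int.floor_eq_iff.1 e
      rw [le_div_iff₀ t0] at a
      rw [div_lt_iff₀ t0] at b
      constructor <;> linarith
    have c1 := cells A' (fun p l => (d + 1) * p.1 l) (fun p => p.2 / ℓ) (fun l => (d + 1) * (τ * q.1 l)) (τ * q.2 / ℓ)
      (L := (d + 1) * τ) (L' := τ / ℓ) (by positivity) (by positivity) fun p hp => by
        have e := (mem_filter.1 hp).2
        refine ⟨fun l => ?_, ?_⟩
        · obtain ⟨a, b⟩ := fl _ _ (congrFun (congrArg Prod.fst e) l)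
          rw [← mul_add]
          constructor <;> gcongr
        · obtain ⟨a, b⟩ := fl _ _ (congrArg Prod.snd e)
          rw [← add_div]
          constructor <;> gcongr
    rw [card_eq_sum_card_image (fun p : E d × ℝ => ((fun l => ⌊(d + 1) * p.1 l⌋ : Fin d → ℤ), ⌊p.2 / ℓ⌋)) A',
      Nat.cast_sum]
    refine (sum_le_card_nsmul _ _ B fun k hk => ?_).trans ?_
    · obtain ⟨p', -, rfl⟩ := mem_image.1 hk
      refine le_trans (Nat.cast_le.2 (card_le_card fun p hp => ?_)) (hW p'.1 p'.2)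
      obtain ⟨a, e⟩ := mem_filter.1 hp
      refine mem_filter.2 ⟨(mem_filter.1 a).1, (norm_le_mul (r := 1 / (d + 1)) fun l => ?_).trans ?_, ?_⟩
      · have := Int.abs_sub_lt_one_of_floor_eq_floor (congrFun (congrArg Prod.fst e) l)
        rw [← mul_sub, abs_mul, abs_of_pos (by positivity)] at this
        rw [le_div_iff₀' (by positivity)]
        exact this.le
      · rw [mul_one_div, div_le_one (by positivity)]
        linarith
      · have := Int.abs_sub_lt_one_of_floor_eq_floor (congrArg Prod.snd e)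
        rw [← sub_div, abs_div, abs_of_pos l0, div_lt_one l0] at this
        exact this.le
    · have a1 : ((d + 1) * τ + 2) ^ d ≤ ((200 * d + 3) * τ) ^ d :=
        pow_le_pow_left₀ (by positivity) (by nlinarith) d
      have a2 : τ / ℓ + 2 ≤ 3 * (τ / ℓ) := by linarith [(one_le_div l0).2 h2]
      rw [nsmul_eq_mul]
      calc _ ≤ ((200 * d + 3) * τ) ^ d * (3 * (τ / ℓ)) * B := by
            refine mul_le_mul_of_nonneg_right (c1.trans ?_) hB
            gcongr
        _ = _ := by rw [mul_pow]; ring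
  · have T0 : 0 < T := by linarith
    have fl : ∀ x y : ℝ, |x - y| ≤ T → (y - T) / τ ≤ x / τ ∧ x / τ ≤ (y - T) / τ + 2 * T / τ := fun x y e => by
      rw [abs_le] at e
      rw [← add_div]
      constructor <;> gcongr <;> linarith
    have a2 : 2 * T / τ + 2 ≤ 4 * T / τ := by
      rw [mul_div_assoc, mul_div_assoc]
      linarith [(one_le_div hτ).2 hT]
    refine (cells A (fun p l => p.1 l / τ) (fun p => p.2 / τ) (fun l => (p₀.1 l - T) / τ) ((p₀.2 - T) / τ)
      (by positivity) (by positivity) fun p hp =>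
        ⟨fun l => fl _ _ ((PiLp.norm_apply_le (p.1 - p₀.1) l).trans (h p hp).1), fl _ _ (h p hp).2⟩).trans ?_
    rw [pow_succ]
    gcongr

end Vale.Agent.P076N.KEY
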