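import Vale.Agent.P076N.KEY.Pk1a

/-!
# P076N / KEY : the row PK1 (helper83)
-/

set_option linter.all false

open MeasureTheory Finset

namespace Vale.Agent.P076N.KEY

open Vale.Agent.P076 Vale.Agent.P076N Vale.Agent.P076T

namespace Pk1

variable {d : ℕ}

theorem add_cut (hb : BAS d) (hc : CUTS d) {a : E d → ℝ} (ha : Smo a) {R₁ r R : ℝ} (hs : ∀ η, a η ≠ 0 → ‖η‖ ≤ R₁)
    (hr : 0 < r) (c : E d) (t₀ : ℝ) {h : E d → ℂ} (hh : Bd R h) (T : Finset (Zv d)) (jc : Zv d → ℕ) {n : ℕ}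
    (hj : ∀ k, jc k ≤ n) (p : E d × ℝ) : Uu (cut (bp a r c) t₀ (kp r ⁻¹' (T : Set (Zv d))) h) p =
      ∑ j ∈ range (n + 1), Uu (cut (bp a r c) t₀ (kp r ⁻¹' (T.filter (jc · = j) : Finset (Zv d))) h) p := by
  have e : kp r ⁻¹' (T : Set (Zv d)) = ⋃ j ∈ range (n + 1), kp r ⁻¹' (T.filter (jc · = j) : Finset (Zv d)) := by
    ext y
    simp [Nat.lt_succ_iff, hj]
  rw [e, hc.2.2 ℕ _ _ t₀ R _ h (fun j _ => om_mb hr _) hh fun i _ j _ hij => Set.disjoint_left.2 fun y h1 h2 =>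
    hij ((mem_filter.1 h1).2.symm.trans (mem_filter.1 h2).2)]
  exact (hb.2.1 _ ℕ _ _ fun j _ => Fsr.cut_bd hc ha hs hr c t₀ (om_mb hr _) hh).2 p

theorem en_cells {r b : ℝ} (hr : 0 < r) (S : Finset (Zv d)) {u : E d → ℂ} (hu : Integrable fun y => ‖u y‖ ^ 2)
    (h : ∀ y, kp r y ∈ S → ‖u y‖ ≤ b) : ∫ y in kp r ⁻¹' (S : Set (Zv d)), ‖u y‖ ^ 2 ≤
      b ^ 2 * (#S * (((d + 1) * r) ^ d * (volume : Measure (E d)).real (Metric.ball 0 1))) := by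
  have m := om_mb (d := d) hr S
  refine (setIntegral_mono_on hu.integrableOn (integrableOn_const m.2.measure_lt_top.ne) m.1
    fun y hy => pow_le_pow_left₀ (norm_nonneg _) (h y hy) 2).trans ?_
  rw [setIntegral_const, smul_eq_mul, mul_comm]
  exact mul_le_mul_of_nonneg_left (om_vol hr S) (sq_nonneg b)

theorem p34 (i : ℕ) : (2 : ℝ) ^ (3 * (i : ℝ) / 4) = 2 ^ i * 2 ^ (-(i : ℝ) / 4) := by
  rw [← Real.rpow_natCast, ← Real.rpow_add two_pos]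
  congr 1
  ring

theorem p32 (i : ℕ) : ((2 : ℝ) ^ (3 * (i : ℝ) / 4)) ^ 2 = 2 ^ i * 2 ^ ((i : ℝ) / 2) := by
  rw [← Real.rpow_natCast, ← Real.rpow_natCast, ← Real.rpow_add two_pos, ← Real.rpow_mul two_pos.le]
  congr 1
  push_cast
  ring

end Pk1

open Pk1 in
theorem pk1 (d : ℕ) : PK1 d := by
  classical
  intro hb hm hc ht ho R₀ C₁ N R0 C1
  obtain ⟨a, ha⟩ := hm.1 R₀ (2 * R₀) R0 (by linarith)
  obtain ⟨CT, T0, hT⟩ := ht a ha.smo N
  obtain ⟨CO, O0, hO⟩ := ho (2 * R₀) (by positivity)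
  obtain ⟨cV, hV⟩ : ∃ c : ℝ, c = (d + 1) ^ d * (volume : Measure (E d)).real (Metric.ball 0 1) := ⟨_, rfl⟩
  have V0 : 0 ≤ cV := by rw [hV]; positivity
  obtain ⟨c₁, c0, c1, c2⟩ : ∃ c : ℝ, 0 < c ∧ c ≤ 1 ∧ 28 * C₁ * CT * c ≤ 1 := by
    have : 0 ≤ 28 * C₁ * CT := by positivity
    refine ⟨1 / (28 * C₁ * CT + 1), by positivity, ?_, ?_⟩
    · rw [div_le_one (by positivity)]; linarith
    · rw [mul_one_div, div_le_one (by positivity)]; linarith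
  obtain ⟨C, k1, k2, k3, k4, k5, k6⟩ : ∃ C : ℝ, 1 ≤ C ∧ 12 * R₀ ≤ C ∧ 16 * C₁ * CT ≤ C ∧ CO ≤ C ∧ 4 * CO * cV ≤ C ∧
      4 * CO * C₁ * CT ^ 2 ≤ C := by
    have : 0 ≤ 16 * C₁ * CT := by positivity
    have : 0 ≤ 4 * CO * cV := by positivity
    have : 0 ≤ 4 * CO * C₁ * CT ^ 2 := by positivity
    refine ⟨1 + 12 * R₀ + 16 * C₁ * CT + CO + 4 * CO * cV + 4 * CO * C₁ * CT ^ 2, ?_, ?_, ?_, ?_, ?_, ?_⟩ <;> linarith
  refine ⟨c₁, C, c0, c1, k1, fun r m ts z α Q n A I h cl H hr hQ => ?_⟩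
  have r0 : 0 < r := by linarith
  have := H.z1; have := H.pos; have := H.m1
  have z0 : 0 < z := by linarith
  have m0 : 0 < m := by linarith
  have hcl := fun (θ k : Zv d) (hθ : θ ∈ I) => cls (fun y => ‖Uu (h θ) (y, ts)‖) (fun y => kp r y = k)
    (a := c₁ * z * 2 ^ (3 * (cl θ : ℝ) / 4) * α / r ^ d) H.n1 fun y => ((H.bd θ hθ).2.2.2 y).trans (by
      unfold am
      gcongr
      · norm_num
      · exact Nat.zero_le _)
  choose! jc y₀ j1 j2 j3 using hcl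
  have bdd : ∀ θ : Zv d, Bornology.IsBounded
      (⋃ p ∈ A, Metric.ball (p.1 - (2 * (p.2 - ts)) • ce r θ : E d) (2 * m * r)) :=
    fun θ => (Bornology.isBounded_biUnion_finset A).2 fun _ _ => Metric.isBounded_ball
  obtain ⟨Rl, hRl⟩ : ∃ Rl : Zv d → Finset (Zv d), ∀ θ k, k ∈ Rl θ ↔ ∃ p ∈ A, ∃ y,
      ‖y - (p.1 - (2 * (p.2 - ts)) • ce r θ)‖ < 2 * m * r ∧ kp r y = k :=
    ⟨fun θ => (fin_cells r0 (bdd θ)).toFinset, fun θ k => by
      simp only [Set.Finite.mem_toFinset, Set.mem_image, Set.mem_iUnion, mem_ball_iff_norm]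
      exact ⟨fun ⟨y, ⟨p, h1, h2⟩, h3⟩ => ⟨p, h1, y, h2, h3⟩, fun ⟨p, h1, y, h2, h3⟩ => ⟨y, ⟨p, h1, h2⟩, h3⟩⟩⟩
  obtain ⟨W, hW⟩ : ∃ W : Zv d → ℕ → E d → ℂ, ∀ θ j, W θ j =
    cut (bp a r (ce r θ)) ts (kp r ⁻¹' ((Rl θ).filter (jc θ · = j) : Finset (Zv d))) (h θ) := ⟨_, fun _ _ => rfl⟩
  have W1 : ∀ θ ∈ I, ∀ j, Bd (13 / 4) (W θ j) ∧ Nr (2 * R₀) r (ce r θ) (W θ j) := fun θ hθ j => by
    rw [hW]
    exact ⟨cut_bd' hc ha.smo ha.supp r0 (by linarith) ts (om_mb r0 _) (H.bd θ hθ).1 (H.bd θ hθ).2.1,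
      Fsr.cut_nr ha.supp r0 _ _ _ _⟩
  have tm : ∀ p ∈ A, |p.2 - ts| ≤ r ^ 2 := fun p hp => by
    have := H.tm p hp
    rw [abs_of_nonneg (by linarith)]; linarith
  have W2 : ∀ θ ∈ I, ∀ j b, 0 ≤ b → (∀ y, jc θ (kp r y) = j → ‖Uu (h θ) (y, ts)‖ ≤ b) → ∀ p ∈ A, ∀ x,
      ‖Uu (W θ j) (x, p.2)‖ ≤ CT * b := fun θ hθ j b b0 hy p hp x => by
    rw [hW]
    exact (hT r _ ts 3 _ _ x p.2 r0 (om_mb r0 _) (H.bd θ hθ).1).2 b b0 ((tm p hp).trans (by nlinarith))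
      fun y e => hy y (mem_filter.1 e).2
  have bas := fun θ hθ => hb.1 3 _ (H.bd θ hθ).1
  have Q0 : 0 ≤ Q := (sum_nonneg fun θ hθ => (bas θ hθ).2.2.1).trans H.enQ
  have am0 : ∀ i j, 0 ≤ am d c₁ z α r i j := fun i j => by unfold am; positivity
  have W3 : ∀ θ ∈ I, ∀ j < n, ∀ y, jc θ (kp r y) = j → ‖Uu (h θ) (y, ts)‖ ≤ 2 * am d c₁ z α r (cl θ) j :=
    fun θ hθ j hj y e => by
      subst e
      exact (j3 θ _ hθ hj).2 y rfl
  refine ⟨I.biUnion fun θ => ((Rl θ).filter (jc θ · < n)).image fun k => (θ, k), fun u => (y₀ u.1 u.2).getD 0,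
    fun u => jc u.1 u.2, fun i j η => ∑ θ ∈ I.filter (fun θ => cl θ = i ∧ j < n), W θ j η, fun u hu => ?_,
    fun i j => ?_, fun p hp => ?_⟩
  · obtain ⟨θ, hθ, hu⟩ := mem_biUnion.1 hu
    obtain ⟨k, hk, rfl⟩ := mem_image.1 hu
    obtain ⟨a1, a2⟩ := mem_filter.1 hk
    obtain ⟨y, e, a3, a4⟩ := (j3 θ k hθ a2).1
    obtain ⟨p, hp, y', a5, a6⟩ := (hRl θ k).1 a1
    simp only [e, Option.getD_some]
    refine ⟨hθ, congrFun a3, a2, a4, p, hp, ?_⟩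
    have b1 := kp_near r0 (a3.trans a6.symm)
    have b2 := norm_add_le (y - y') (y' - (p.1 - (2 * (p.2 - ts)) • ce r θ))
    rw [sub_add_sub_cancel] at b2
    linarith
  · set J := I.filter (fun θ => cl θ = i ∧ j < n) with hJ
    have JI : ∀ θ ∈ J, θ ∈ I := fun θ hθ => (mem_filter.1 hθ).1
    obtain ⟨o1, o2⟩ := hO r (13 / 4) J (fun θ => W θ j) r0 fun θ hθ => W1 θ (JI θ hθ) j
    have e1 : ∀ θ ∈ J, en (W θ j) ≤ ∫ y in kp r ⁻¹' ((Rl θ).filter (jc θ · = j) : Finset (Zv d)),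
        ‖Uu (h θ) (y, ts)‖ ^ 2 := fun θ hθ => by
      rw [hW]; exact cut_en hc ha r _ ts (om_mb r0 _) (H.bd θ (JI θ hθ)).1
    refine ⟨(hb.2.1 _ _ J _ fun θ hθ => (W1 θ (JI θ hθ) j).1).1, o1.trans ?_, o1.trans ?_, fun p hp => ?_⟩
    · refine mul_le_mul k4 (le_trans ?_ H.enQ) (sum_nonneg fun θ hθ => (hb.1 _ _ (W1 θ (JI θ hθ) j).1).2.2.1)
        (by linarith)
      refine (sum_le_sum fun θ hθ => (e1 θ hθ).trans ?_).trans
        (sum_le_sum_of_subset_of_nonneg (filter_subset _ _) fun θ hθ _ => (bas θ hθ).2.2.1)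
      have := (bas θ (JI θ hθ)).2.2.2.1 ts
      rw [← this.2]
      exact setIntegral_le_integral this.1 (Filter.Eventually.of_forall fun y => by positivity)
    · have a1 : ∑ θ ∈ J, en (W θ j) ≤ ∑ θ ∈ J, (2 * am d c₁ z α r i j) ^ 2 * (#((Rl θ).filter (jc θ · = j)) *
          (((d + 1) * r) ^ d * (volume : Measure (E d)).real (Metric.ball 0 1))) :=
        sum_le_sum fun θ hθ => (e1 θ hθ).trans (en_cells r0 _ ((bas θ (JI θ hθ)).2.2.2.1 ts).1 fun y e => by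
          rw [← (mem_filter.1 hθ).2.1]
          exact W3 θ (JI θ hθ) j (mem_filter.1 hθ).2.2 y (mem_filter.1 e).2)
      rw [← mul_sum, ← sum_mul, ← Nat.cast_sum, ← card_sigma, mul_pow ((d : ℝ) + 1), mul_right_comm (_ ^ d), ← hV] at a1
      have a2 : #(J.sigma fun θ => (Rl θ).filter (jc θ · = j)) ≤ #((I.biUnion fun θ =>
          ((Rl θ).filter (jc θ · < n)).image fun k => (θ, k)).filter fun u => cl u.1 = i ∧ jc u.1 u.2 = j) := by
        refine card_le_card_of_injOn (fun x => (x.1, x.2)) (fun x hx => ?_) fun x _ x' _ e =>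
          Sigma.ext (Prod.mk.inj e).1 (heq_of_eq (Prod.mk.inj e).2)
        obtain ⟨b1, b2⟩ := mem_sigma.1 hx
        obtain ⟨b3, b4, b5⟩ := mem_filter.1 b1
        obtain ⟨b6, b7⟩ := mem_filter.1 b2
        exact mem_filter.2 ⟨mem_biUnion.2 ⟨_, b3, mem_image_of_mem _ (mem_filter.2 ⟨b6, b7.trans_lt b5⟩)⟩, b4, b7⟩
      have a3 := Nat.cast_le (α := ℝ).2 a2
      calc _ ≤ _ := mul_le_mul_of_nonneg_left a1 O0
        _ = 4 * CO * cV * am d c₁ z α r i j ^ 2 * r ^ d * #(J.sigma fun θ => (Rl θ).filter (jc θ · = j)) := by ring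
        _ ≤ _ := by gcongr
    · refine (o2 (CT * (2 * am d c₁ z α r i j)) p fun θ hθ y => W2 θ (JI θ hθ) j _ (by have := am0 i j; positivity)
        (fun y e => by rw [← (mem_filter.1 hθ).2.1]; exact W3 θ (JI θ hθ) j (mem_filter.1 hθ).2.2 y e) p hp y).trans ?_
      have a1 : (#J : ℝ) * (z * 2 ^ i) ≤ C₁ * r ^ d := le_trans (by
        gcongr
        exact fun θ hθ => mem_filter.2 ⟨JI θ hθ, (mem_filter.1 hθ).2.1⟩) (H.cnt i)
      have a2 : c₁ ^ 2 ≤ 1 := pow_le_one₀ c0.le c1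
      calc _ = 4 * CO * CT ^ 2 * c₁ ^ 2 * (#J * (z * 2 ^ i)) * (ee z i j * α ^ 2) / r ^ d := by
            unfold am ee
            rw [show (4 : ℝ) ^ j = (2 ^ j) ^ 2 by rw [← pow_mul, mul_comm, pow_mul]; norm_num]
            simp only [mul_pow, div_pow, p32]
            field_simp
            ring
        _ ≤ 4 * CO * CT ^ 2 * 1 * (C₁ * r ^ d) * (ee z i j * α ^ 2) / r ^ d := by unfold ee; gcongr
        _ = 4 * CO * C₁ * CT ^ 2 * ee z i j * α ^ 2 := by field_simp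
        _ ≤ _ := by unfold ee; gcongr
  · have mp : ∀ θ ∈ I, cl θ ∈ range n := fun θ hθ => mem_range.2 (H.bd θ hθ).2.2.1
    have t1 : ∀ θ ∈ I, ‖Uu (h θ) p - ∑ j ∈ range (n + 1), Uu (W θ j) p‖ ^ 2 ≤ CT * (m ^ N)⁻¹ * (r ^ d)⁻¹ * en (h θ) := by
      intro θ hθ
      have := (hT r (ce r θ) ts 3 _ _ p.1 p.2 r0 (om_mb r0 (Rl θ)) (H.bd θ hθ).1).1 m H.m1 fun y hy =>
        (hRl θ _).2 ⟨p, hp, y, (mem_ball_iff_norm.1 hy).trans_le (by
          have : |p.2 - ts| / r ≤ r := by rw [div_le_iff₀ r0, ← sq]; exact tm p hp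
          nlinarith), rfl⟩
      rw [bp_mul ha r0 (H.bd θ hθ).2.1, add_cut hb hc ha.smo ha.supp r0 _ ts (H.bd θ hθ).1 _ (jc θ)
        fun k => j1 θ k hθ] at this
      simpa only [hW] using this
    have cI : (#I : ℝ) ≤ n * (C₁ * r ^ d) := by
      rw [card_eq_sum_card_fiberwise mp, Nat.cast_sum]
      refine (sum_le_card_nsmul _ _ _ fun i _ => le_trans (le_mul_of_one_le_right (Nat.cast_nonneg _)
        (one_le_mul_of_one_le_of_one_le H.z1 (one_le_pow₀ one_le_two))) (H.cnt i)).trans (by simp)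
    have t2 : ∑ θ ∈ I, ‖Uu (h θ) p - ∑ j ∈ range (n + 1), Uu (W θ j) p‖ ≤ α / 4 := by
      refine le_of_pow_le_pow_left₀ two_ne_zero (by positivity) (sq_sum_le_card_mul_sum_sq.trans ?_)
      have a1 := sum_le_sum t1
      rw [← mul_sum] at a1
      calc _ ≤ n * (C₁ * r ^ d) * (CT * (m ^ N)⁻¹ * (r ^ d)⁻¹ * Q) :=
            mul_le_mul cI (a1.trans (by gcongr; exact H.enQ)) (sum_nonneg fun _ _ => sq_nonneg _) (by positivity)
        _ = 16 * C₁ * CT * n * (m ^ N)⁻¹ * Q / 16 := by field_simp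
        _ ≤ C * n * (m ^ N)⁻¹ * Q / 16 := by gcongr
        _ ≤ _ := by linarith
    have t3 : ∑ θ ∈ I, ‖Uu (W θ n) p‖ ≤ α / 4 := by
      rw [← sum_fiberwise_of_maps_to mp]
      calc _ ≤ ∑ i ∈ range n, C₁ * CT * c₁ * α * (2 : ℝ) ^ (-(i : ℝ) / 4) := sum_le_sum fun i _ => ?_
        _ ≤ C₁ * CT * c₁ * α * 7 := by rw [← mul_sum]; gcongr; exact geo n
        _ ≤ _ := by nlinarith
      refine (sum_le_card_nsmul _ _ (CT * (c₁ * z * 2 ^ (3 * (i : ℝ) / 4) * α / r ^ d)) fun θ hθ => ?_).trans ?_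
      · obtain ⟨a1, rfl⟩ := mem_filter.1 hθ
        exact W2 θ a1 n _ (by positivity) (fun y e => j2 θ _ a1 e y rfl) p hp p.1
      · rw [nsmul_eq_mul, p34]
        calc _ = CT * c₁ * α * (2 : ℝ) ^ (-(i : ℝ) / 4) * (#(I.filter fun θ => cl θ = i) * (z * 2 ^ i)) / r ^ d := by
              ring
          _ ≤ CT * c₁ * α * (2 : ℝ) ^ (-(i : ℝ) / 4) * (C₁ * r ^ d) / r ^ d := by
              have := H.cnt i
              gcongr
          _ = _ := by field_simp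
    have t4 : ∑ θ ∈ I, ∑ j ∈ range n, Uu (W θ j) p = ∑ i ∈ range n, ∑ j ∈ range n,
        Uu (fun η => ∑ θ ∈ I.filter (fun θ => cl θ = i ∧ j < n), W θ j η) p := by
      rw [← sum_fiberwise_of_maps_to mp]
      refine sum_congr rfl fun i _ => ?_
      rw [sum_comm]
      refine sum_congr rfl fun j hj => ?_
      rw [(hb.2.1 _ _ _ _ fun θ hθ => (W1 θ (mem_filter.1 hθ).1 j).1).2 p]
      simp only [mem_range.1 hj, and_true]
    have t5 : ∑ θ ∈ I, Uu (h θ) p = ∑ θ ∈ I, (Uu (h θ) p - ∑ j ∈ range (n + 1), Uu (W θ j) p) +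
        ∑ θ ∈ I, Uu (W θ n) p + ∑ θ ∈ I, ∑ j ∈ range n, Uu (W θ j) p := by
      rw [← sum_add_distrib, ← sum_add_distrib]
      refine sum_congr rfl fun θ _ => ?_
      rw [sum_range_succ]
      ring
    have t6 := H.amp p hp
    rw [t5, t4] at t6
    have t7 := t6.trans (norm_add₃_le.trans (add_le_add_three ((norm_sum_le _ _).trans t2) ((norm_sum_le _ _).trans t3)
      ((norm_sum_le _ _).trans (sum_le_sum fun i _ => norm_sum_le _ _))))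
    linarith

end Vale.Agent.P076N.KEY
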