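import Vale.Agent.P076N.KEY.Few

/-!
# P076N / KEY : the row PK2 (the points served by each class)
-/

set_option linter.all false

open MeasureTheory Finset

namespace Vale.Agent.P076N.KEY

open Vale.Agent.P076 Vale.Agent.P076N

namespace Pk2

variable {d : ℕ}

theorem one_le_ee {z : ℝ} (hz : 1 ≤ z) (i j : ℕ) : 1 ≤ ee z i j := by
  unfold ee
  have h1 : (1 : ℝ) ≤ 2 ^ ((i : ℝ) / 2) := Real.one_le_rpow (by norm_num) (by positivity)
  have h2 : (1 : ℝ) ≤ 4 ^ j := one_le_pow₀ (by norm_num)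
  exact one_le_mul_of_one_le_of_one_le (one_le_mul_of_one_le_of_one_le hz h1) h2

open Classical in
/-- every point is served by some class -/
theorem cover {X : Type} (A : Finset X) (n : ℕ) (hn : 1 ≤ n) (w : ℕ → ℕ → ℝ) (F : ℕ → ℕ → X → ℝ) {α : ℝ} (hα : 0 < α)
    (hw : ∑ i ∈ range n, ∑ j ∈ range n, w i j ≤ 1) (hF : ∀ p ∈ A, α / 2 ≤ ∑ i ∈ range n, ∑ j ∈ range n, F i j p) :
    (#A : ℝ) ≤ ∑ i ∈ range n, ∑ j ∈ range n, (#(A.filter fun p => w i j * α / 2 ≤ F i j p) : ℝ) := by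
  have ne : (range n).Nonempty := nonempty_range_iff.2 (by omega)
  have sub : A ⊆ (range n).biUnion fun i => (range n).biUnion fun j => A.filter fun p => w i j * α / 2 ≤ F i j p := by
    intro p hp
    by_contra hc
    have h1 : ∀ i ∈ range n, ∀ j ∈ range n, F i j p < w i j * α / 2 := fun i hi j hj => by
      by_contra h2
      exact hc (mem_biUnion.2 ⟨i, hi, mem_biUnion.2 ⟨j, hj, mem_filter.2 ⟨hp, not_lt.1 h2⟩⟩⟩)
    have h2 : ∑ i ∈ range n, ∑ j ∈ range n, F i j p < ∑ i ∈ range n, ∑ j ∈ range n, w i j * α / 2 :=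
      sum_lt_sum_of_nonempty ne fun i hi => sum_lt_sum_of_nonempty ne fun j hj => h1 i hi j hj
    have h3 : ∑ i ∈ range n, ∑ j ∈ range n, w i j * α / 2 = (∑ i ∈ range n, ∑ j ∈ range n, w i j) * (α / 2) := by
      rw [sum_mul]
      refine sum_congr rfl fun i _ => ?_
      rw [sum_mul]
      exact sum_congr rfl fun j _ => by ring
    have h4 := hF p hp
    nlinarith
  have h1 := (card_le_card sub).trans card_biUnion_le
  have h2 : ∑ i ∈ range n, #((range n).biUnion fun j => A.filter fun p => w i j * α / 2 ≤ F i j p) ≤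
      ∑ i ∈ range n, ∑ j ∈ range n, #(A.filter fun p => w i j * α / 2 ≤ F i j p) :=
    sum_le_sum fun i _ => card_biUnion_le
  exact_mod_cast h1.trans h2

/-- the trivial bound -/
theorem triv (hb : BAS d) {V : E d → ℂ} {A : Finset (E d × ℝ)} {β G : ℝ} (hβ : 0 ≤ β) (hG : 0 ≤ G) (hV : Bd (13 / 4) V)
    (hA : ∀ p ∈ A, β ≤ ‖Uu V p‖) (hc : (#A : ℝ) ≤ G) : β ^ 2 * #A ≤ (13 / 2) ^ d * G * en V := by
  have he := Few.en_nonneg V
  rcases A.eq_empty_or_nonempty with rfl | ⟨p, hp⟩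
  · simp only [card_empty, Nat.cast_zero, mul_zero]
    positivity
  have h1 := (hb.1 _ V hV).2.2.2.2.2.2 (13 / 4) 1 0 p one_pos (by norm_num) fun η hη => by
    simpa using hV.supp η hη
  have h2 : β ^ 2 ≤ ‖Uu V p‖ ^ 2 := pow_le_pow_left₀ hβ (hA p hp) 2
  have h3 : (2 * (13 / 4) / 1 : ℝ) = 13 / 2 := by norm_num
  rw [h3] at h1
  calc β ^ 2 * #A ≤ (13 / 2) ^ d * en V * G := by gcongr; exact h2.trans h1
    _ = _ := by ring

/-- one class -/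
theorem one (hb : BAS d) {B Cl Cv ℓ r m m₀ α Q w G e : ℝ} {N n : ℕ} (hCl : 1 ≤ Cl) (hCv : 1 ≤ Cv)
    (hl : ∀ (ℓ r e β : ℝ) (V : E d → ℂ) (A : Finset (E d × ℝ)), Cl ≤ r → 1 ≤ e → Cl * e ≤ ℓ → 0 < β → Bd (13 / 4) V →
      WG B ℓ A → (∀ p ∈ A, β ≤ ‖Uu V p‖) → (#A : ℝ) ^ 8 ≤ r ^ d → (∀ p ∈ A, lE V p r ≤ e * β ^ 2) →
      Cl * (r ^ N)⁻¹ * en V ≤ β ^ 2 → β ^ 2 * #A ≤ Cl * e ^ (8 / (4 * (d : ℝ) + 3)) * en V)
    {V : E d → ℂ} {A : Finset (E d × ℝ)} (hm : 1 ≤ m) (hmr : m ≤ r) (hα : 0 < α) (hn : 1 ≤ n) (he : 1 ≤ e)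
    (hr : Cl ≤ r) (hQ : 16 * Cl * Cv * n ^ 4 * (m ^ N)⁻¹ * Q ≤ α ^ 2) (hW : WG B ℓ A) (hA : (#A : ℝ) ≤ m₀)
    (hm₀ : m₀ ^ 8 ≤ r ^ d) (hV : Bd (13 / 4) V) (hVQ : en V ≤ Cv * Q) (hlE : ∀ p ∈ A, lE V p r ≤ Cv * e * α ^ 2)
    (hw1 : 1 / (2 * (n : ℝ) ^ 2) ≤ w) (hw2 : w ≤ 1) (hG : 0 ≤ G)
    (hc : m₀ ≤ G ∨ (16 * Cl * Cv * e / w ^ 2 ≤ ℓ ∧ (e / w ^ 2) ^ (8 / (4 * (d : ℝ) + 3)) ≤ G))
    (hamp : ∀ p ∈ A, w * α / 2 ≤ ‖Uu V p‖) :
    (w * α / 2) ^ 2 * #A ≤ ((13 / 2) ^ d + Cl * (4 * Cv) ^ (8 / (4 * (d : ℝ) + 3))) * G * en V := by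
  have hen := Few.en_nonneg V
  have hn' : (1 : ℝ) ≤ n := by exact_mod_cast hn
  have hw : 0 < w := lt_of_lt_of_le (by positivity) hw1
  have k1 : 0 ≤ Cl * (4 * Cv) ^ (8 / (4 * (d : ℝ) + 3)) := by positivity
  rcases hc with hc | ⟨h1, h2⟩
  · refine (triv hb (by positivity) hG hV hamp (hA.trans hc)).trans ?_
    gcongr
    linarith
  have a1 : 1 ≤ e / w ^ 2 := by
    rw [le_div_iff₀ (by positivity)]
    nlinarith
  have a2 := hl ℓ r (4 * Cv * (e / w ^ 2)) (w * α / 2) V A hr (by nlinarith) (by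
      have : 16 * Cl * Cv * e / w ^ 2 = 4 * (Cl * (4 * Cv * (e / w ^ 2))) := by ring
      have : 0 ≤ Cl * (4 * Cv * (e / w ^ 2)) := by positivity
      linarith) (by positivity) hV hW hamp ((pow_le_pow_left₀ (by positivity) hA 8).trans hm₀)
    (fun p hp => (hlE p hp).trans (le_of_eq (by field_simp; ring))) (by
      have b1 : (r ^ N)⁻¹ ≤ (m ^ N)⁻¹ := inv_anti₀ (by positivity) (pow_le_pow_left₀ (by linarith) hmr N)
      have b2 : 1 ≤ 2 * (n : ℝ) ^ 2 * w := by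
        rw [div_le_iff₀ (by positivity)] at hw1
        linarith
      have b3 : 1 ≤ (2 * (n : ℝ) ^ 2 * w) ^ 2 := one_le_pow₀ b2
      have b4 : 0 ≤ (m ^ N)⁻¹ := by positivity
      have b5 : Cl * (r ^ N)⁻¹ * en V ≤ Cl * (m ^ N)⁻¹ * (Cv * Q) := by gcongr
      have b6 : 0 ≤ Cl * (m ^ N)⁻¹ * (Cv * Q) := le_trans (by have := lt_of_lt_of_le one_pos (hm.trans hmr); positivity) b5
      calc _ ≤ _ := b5
        _ ≤ Cl * (m ^ N)⁻¹ * (Cv * Q) * (2 * (n : ℝ) ^ 2 * w) ^ 2 := le_mul_of_one_le_right b6 b3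
        _ = 16 * Cl * Cv * n ^ 4 * (m ^ N)⁻¹ * Q * (w / 2) ^ 2 := by ring
        _ ≤ α ^ 2 * (w / 2) ^ 2 := by gcongr
        _ = _ := by ring)
  rw [Real.mul_rpow (by positivity) (by positivity)] at a2
  calc _ ≤ _ := a2
    _ ≤ Cl * ((4 * Cv) ^ (8 / (4 * (d : ℝ) + 3)) * G) * en V := by gcongr
    _ = Cl * (4 * Cv) ^ (8 / (4 * (d : ℝ) + 3)) * G * en V := by ring
    _ ≤ _ := by gcongr; exact le_add_of_nonneg_left (by positivity)

end Pk2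

/-- **[PK2]** -/
theorem pk2 (d : ℕ) : PK2 d := by
  classical
  intro hb hl hv R₀ C₁ B N hR hC
  obtain ⟨c₁, Cv, hc0, hc1, hCv, hv⟩ := hv R₀ C₁ N hR hC
  obtain ⟨Cl, hCl, hl⟩ := hl B N
  set K : ℝ := (13 / 2) ^ d + Cl * (4 * Cv) ^ (8 / (4 * (d : ℝ) + 3)) with hK
  have hK0 : 0 ≤ K := by positivity
  have k1 : 1 ≤ Cl * Cv := one_le_mul_of_one_le_of_one_le hCl hCv
  have k2 : 0 ≤ 4 * K * Cv := by positivity
  have k3 : Cl ≤ Cl * Cv := le_mul_of_one_le_right (by linarith) hCv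
  have k4 : Cv ≤ Cl * Cv := le_mul_of_one_le_left (by linarith) hCl
  refine ⟨c₁, 16 * Cl * Cv + 4 * K * Cv, hc0, hc1, by nlinarith,
    fun ℓ m₀ r m ts z α Q n A I h cl hp hr hQ hW hA hm₀ => ?_⟩
  have hQ0 : 0 ≤ Q := (sum_nonneg fun θ _ => Few.en_nonneg _).trans hp.enQ
  have hn' : (1 : ℝ) ≤ n := by exact_mod_cast hp.n1
  have hm := hp.m1
  have hα := hp.pos
  have q0 : 0 ≤ (m ^ N)⁻¹ * Q := by positivity
  have q1 : 16 * Cl * Cv * n ^ 4 * (m ^ N)⁻¹ * Q ≤ α ^ 2 := by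
    refine le_trans ?_ hQ
    gcongr
    linarith
  obtain ⟨P, y, jj, V, hP, hV, hamp⟩ := hv r m ts z α Q n A I h cl hp (by nlinarith) (by
    refine le_trans ?_ q1
    have : (n : ℝ) ≤ n ^ 4 := le_self_pow₀ hn' (by norm_num)
    gcongr
    linarith)
  refine ⟨P, y, jj, hP, fun w G hw hs => ?_⟩
  refine (Pk2.cover A n hp.n1 w (fun i j p => ‖Uu (V i j) p‖) hα hs hamp).trans ?_
  rw [mul_sum]
  refine sum_le_sum fun i _ => ?_
  rw [mul_sum]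
  refine sum_le_sum fun j _ => ?_
  obtain ⟨w1, w2, g0, hc⟩ := hw i j
  obtain ⟨v1, v2, v3, v4⟩ := hV i j
  have hw0 : 0 < w i j := lt_of_lt_of_le (by positivity) w1
  have he := Pk2.one_le_ee hp.z1 i j
  have a1 := Pk2.one hb hCl hCv hl (A := A.filter fun p => w i j * α / 2 ≤ ‖Uu (V i j) p‖) hm hp.mr hα hp.n1 he
    (by nlinarith) q1 (Few.wg_sub hW (filter_subset _ _))
    (le_trans (by exact_mod_cast card_le_card (filter_subset _ _)) hA) hm₀ v1 v2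
    (fun p hp => v4 p (mem_filter.1 hp).1) w1 w2 g0 (hc.imp id fun hc => ⟨le_trans (by gcongr; linarith) hc.1, hc.2⟩)
    fun p hp => (mem_filter.1 hp).2
  rw [← hK] at a1
  generalize (#(A.filter fun p => w i j * α / 2 ≤ ‖Uu (V i j) p‖) : ℝ) = a at a1 ⊢
  have hr0 : 0 ≤ r := by linarith [hp.mr]
  have x0 : 0 ≤ am d c₁ z α r i j ^ 2 * r ^ d * #(P.filter fun u => cl u.1 = i ∧ jj u = j) := by positivity
  rw [mul_assoc Cv, mul_assoc Cv] at v3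
  generalize am d c₁ z α r i j ^ 2 * r ^ d * (#(P.filter fun u => cl u.1 = i ∧ jj u = j) : ℝ) = x at v3 x0 ⊢
  have a2 : (w i j * α / 2) ^ 2 * a ≤ K * G i j * (Cv * x) := a1.trans (by gcongr)
  have a3 : a ≤ 4 * K * Cv * (G i j / w i j ^ 2 * x / α ^ 2) := by
    refine le_of_mul_le_mul_left ?_ (show 0 < (w i j * α / 2) ^ 2 by positivity)
    refine a2.trans (le_of_eq ?_)
    field_simp
    ring
  refine a3.trans ?_
  gcongr
  linarith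

end Vale.Agent.P076N.KEY
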