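import Vale.Agent.P076N.KEY.Spec1

/-!
# P076N / KEY : row REC, the Schur sum closes
-/

set_option linter.all false

open MeasureTheory Finset
open scoped RealInnerProductSpace

namespace Vale.Agent.P076N.KEY

open Vale.Agent.P076 Vale.Agent.P076N Vale.Agent.P076T

namespace RECx

theorem quart (k : ℕ) : (((1 : ℝ) / 2) ^ k) ^ (1 / 4 : ℝ) ≤ (6 / 7) ^ k := by
  have h1 : ((1 : ℝ) / 2) ^ k ≤ ((6 / 7) ^ k) ^ 4 := by
    rw [← pow_mul, mul_comm, pow_mul]
    exact pow_le_pow_left₀ (by norm_num) (by norm_num) k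
  refine (Real.rpow_le_rpow (by positivity) h1 (by norm_num)).trans (le_of_eq ?_)
  rw [← Real.rpow_natCast _ 4, ← Real.rpow_mul (by positivity)]
  norm_num

theorem geo (K : ℕ) : ∑ k ∈ range K, ((6 : ℝ) / 7) ^ k ≤ 7 := by
  have h := geom_sum_eq (x := (6 : ℝ) / 7) (by norm_num) K
  have h1 : (0 : ℝ) ≤ (6 / 7) ^ K := by positivity
  rw [h, div_le_iff_of_neg (by norm_num)]
  linarith

theorem kD_nn {d : ℕ} (R r : ℝ) (c : E d) (p p' : E d × ℝ) : 0 ≤ kD R r c p p' := by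
  unfold kD
  split_ifs
  · positivity
  · exact le_rfl

end RECx

open RECx in
theorem rec_ (d : ℕ) : REC d := by
  classical
  have h2 : (0 : ℝ) < 2 ^ ((d : ℝ) / 2) := by positivity
  refine ⟨1 / (21 * 2 ^ ((d : ℝ) / 2)), by positivity, ?_⟩
  intro N R r τ₀ τm σ₀ c ι β I p bl hR hr hτ₀ hσ₀ hm hb h0 hrec i0 hi0
  obtain ⟨i, hi, hmax⟩ := exists_max_image I (fun i => ∑ j ∈ I, kk N R r c p bl i j) ⟨i0, hi0⟩
  obtain ⟨σ, hσ⟩ : ∃ σ, σ = ∑ j ∈ I, kk N R r c p bl i j := ⟨_, rfl⟩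
  rw [← hσ] at hmax
  refine (hmax i0 hi0).trans ?_
  by_cases hσ0 : σ ≤ 0
  · linarith
  push Not at hσ0
  have hτm : 0 ≤ τm := (abs_nonneg _).trans (hm i hi i hi)
  obtain ⟨K, hK⟩ := exists_pow_lt_of_lt_one (by positivity : 0 < τ₀ / (τm + 1)) (by norm_num : (1 : ℝ) / 2 < 1)
  rw [lt_div_iff₀ (by positivity)] at hK
  let Cn : ℕ → ι → Prop := fun k j => |(p j).2 - (p i).2| ≤ τm * (1 / 2) ^ k ∧
    ‖(p j).1 - (p i).1 - (2 * ((p j).2 - (p i).2)) • c‖ ≤ R * (τm * (1 / 2) ^ k) / r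
  let v : ℕ → ℝ := fun k => if τ₀ ≤ τm * (1 / 2) ^ k then
    2 ^ ((d : ℝ) / 2) * ((τm * (1 / 2) ^ k / r ^ 2) ^ ((d : ℝ) / 2))⁻¹ else 0
  have hv : ∀ k, 0 ≤ v k := fun k => by
    simp only [v]
    split_ifs
    · positivity
    · exact le_rfl
  have far : ∀ j ∈ I, ¬ |(p j).2 - (p i).2| ≤ τ₀ →
      kk N R r c p bl i j ≤ ∑ k ∈ range K, if Cn k j then v k else 0 := by
    intro j hj hf
    have hne : bl i ≠ bl j := fun e => hf (hb i hi j hj e)
    push Not at hf
    have hnn : ∀ k ∈ range K, 0 ≤ if Cn k j then v k else 0 := fun k _ => by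
      split_ifs
      · exact hv k
      · exact le_rfl
    rw [kk, if_neg hne, kD]
    split_ifs with hc
    swap
    · exact sum_nonneg hnn
    have hex : ∃ k : ℕ, τm * (1 / 2) ^ (k + 1) < |(p j).2 - (p i).2| := ⟨K, by
      have : (0 : ℝ) ≤ (1 / 2) ^ K := by positivity
      rw [pow_succ]
      nlinarith⟩
    have k1 := Nat.find_spec hex
    have k2 : |(p j).2 - (p i).2| ≤ τm * (1 / 2) ^ Nat.find hex := by
      rcases h : Nat.find hex with _ | k
      · simpa using hm i hi j hj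
      · exact not_lt.1 (Nat.find_min hex (by omega : k < Nat.find hex))
    have k3 : Nat.find hex < K := by
      by_contra h
      have a1 : ((1 : ℝ) / 2) ^ Nat.find hex ≤ (1 / 2) ^ K :=
        pow_le_pow_of_le_one (by norm_num) (by norm_num) (not_lt.1 h)
      have : (0 : ℝ) ≤ (1 / 2) ^ K := by positivity
      nlinarith
    generalize Nat.find hex = k at k1 k2 k3
    refine le_trans ?_ (single_le_sum hnn (mem_range.2 k3))
    have k4 : Cn k j := ⟨k2, hc.trans (div_le_div_of_nonneg_right (mul_le_mul_of_nonneg_left k2 hR) hr.le)⟩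
    have k5 : τ₀ ≤ τm * (1 / 2) ^ k := by linarith
    simp only [k4, if_true, v, k5]
    have k6 : 0 < τm * (1 / 2) ^ k / r ^ 2 := div_pos (by linarith) (by positivity)
    have k7 : τm * (1 / 2) ^ k / r ^ 2 / 2 ≤ 1 + |(p j).2 - (p i).2| / r ^ 2 := by
      have : τm * (1 / 2) ^ k / 2 / r ^ 2 ≤ |(p j).2 - (p i).2| / r ^ 2 :=
        div_le_div_of_nonneg_right (by rw [pow_succ] at k1; linarith) (by positivity)
      rw [div_right_comm]
      linarith
    refine (Real.rpow_le_rpow_of_nonpos (by positivity) k7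
      (by have := Nat.cast_nonneg (α := ℝ) d; linarith)).trans (le_of_eq ?_)
    rw [neg_div, Real.rpow_neg (by positivity), Real.div_rpow k6.le (by norm_num), inv_div, div_eq_mul_inv]
  have s1 : σ ≤ σ₀ + ∑ j ∈ I, ∑ k ∈ range K, if Cn k j then v k else 0 := by
    rw [hσ, ← sum_filter_add_sum_filter_not I fun j => |(p j).2 - (p i).2| ≤ τ₀]
    refine add_le_add (h0 i hi) (le_trans (sum_le_sum fun j hj => far j (mem_filter.1 hj).1 (mem_filter.1 hj).2)
      (sum_le_sum_of_subset_of_nonneg (filter_subset _ _) fun j _ _ => sum_nonneg fun k _ => ?_))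
    split_ifs
    · exact hv k
    · exact le_rfl
  have s2 : ∀ k ∈ range K, (∑ j ∈ I, if Cn k j then v k else 0) ≤ (σ + 1) / 21 * (6 / 7) ^ k := by
    intro k _
    rw [← sum_filter, sum_const, nsmul_eq_mul]
    simp only [v]
    split_ifs with hk
    swap
    · rw [mul_zero]; positivity
    have a0 : 0 < τm * (1 / 2) ^ k := by linarith
    have a1 : 0 < τm := (mul_pos_iff_of_pos_right (by positivity)).1 a0
    have a2 := hrec σ hσ0.le hmax i hi _ hk (mul_le_of_le_one_right hτm (pow_le_one₀ (by norm_num) (by norm_num)))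
    rw [mul_div_cancel_left₀ _ a1.ne'] at a2
    have a3 : 0 < (τm * (1 / 2) ^ k / r ^ 2) ^ ((d : ℝ) / 2) := by positivity
    refine (mul_le_mul_of_nonneg_right a2 (by positivity)).trans ?_
    have a4 : (σ + 1) * (1 / (21 * 2 ^ ((d : ℝ) / 2))) * (τm * (1 / 2) ^ k / r ^ 2) ^ ((d : ℝ) / 2) *
        ((1 / 2 : ℝ) ^ k) ^ (1 / 4 : ℝ) * (2 ^ ((d : ℝ) / 2) * ((τm * (1 / 2) ^ k / r ^ 2) ^ ((d : ℝ) / 2))⁻¹) =
        (σ + 1) / 21 * ((1 / 2 : ℝ) ^ k) ^ (1 / 4 : ℝ) := by field_simp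
    rw [a4]
    exact mul_le_mul_of_nonneg_left (quart k) (by positivity)
  rw [sum_comm] at s1
  have s3 := sum_le_sum s2
  rw [← mul_sum] at s3
  have s4 := mul_le_mul_of_nonneg_left (geo K) (by positivity : 0 ≤ (σ + 1) / 21)
  linarith

end Vale.Agent.P076N.KEY
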