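import Vale.Agent.P076N.KEY.Sc

/-!
# P076N / KEY : the row SR (helper83)
-/

set_option linter.all false

open MeasureTheory Finset

namespace Vale.Agent.P076N.KEY

open Vale.Agent.P076 Vale.Agent.P076N Vale.Agent.P076T

namespace Srx

variable {d : ℕ}

theorem kk_le {ι β : Type} (N : ℕ) {r : ℝ} (hr : 0 < r) (c : E d) (p : ι → E d × ℝ) (bl : ι → β) (i j : ι) :
    kk N (8 * d) r c p bl i j ≤ (1 + 8 * d) ^ (N : ℝ) * kS N r c (p i) (p j) := by
  have h1 : (1 : ℝ) ≤ (1 + 8 * d) ^ (N : ℝ) :=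
    Real.one_le_rpow (le_add_of_nonneg_right (by positivity)) (Nat.cast_nonneg N)
  have hL : 0 < r + |(p j).2 - (p i).2| / r := by positivity
  have h0 : 0 ≤ kS N r c (p i) (p j) := mul_nonneg (by positivity) (wE_pos hL _).le
  unfold kk kD
  split_ifs with a b
  · exact le_mul_of_one_le_left h0 h1
  · have := wE_shift (M := N) (Nat.cast_nonneg N) hL (show (0 : ℝ) ≤ 8 * d by positivity) (a := 0)
      (b := (p j).1 - (p i).1 - (2 * ((p j).2 - (p i).2)) • c) (by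
        rw [zero_sub, norm_neg]
        refine b.trans ?_
        rw [mul_div_assoc]
        gcongr
        linarith)
    rw [show wE N (r + |(p j).2 - (p i).2| / r) (0 : E d) = 1 by simp [wE]] at this
    unfold kS
    rw [mul_left_comm]
    exact le_mul_of_one_le_right (by positivity) this
  · positivity

variable {S : Sc} {A : Finset (E d × ℝ)} {c : E d} {ι : Type} {I : Finset ι} {p pt : ι → E d × ℝ} {sl : ι → ℤ}

open Classical in
theorem mult (F : Fm S A c I p pt sl) (hw : 2 * d + 8 ≤ S.w) (q : E d × ℝ) :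
    (#(I.filter fun j => pt j = q) : ℝ) ≤ 2 * S.w ^ (2 * d) := by
  have r0 := S.r_pos
  have w0 := S.w_pos
  have mp : ∀ j ∈ I.filter fun j => pt j = q, sl j ∈ ({⌊q.2 / S.r ^ 2⌋ - 1, ⌊q.2 / S.r ^ 2⌋} : Finset ℤ) := by
    intro j hj
    obtain ⟨a, rfl⟩ := mem_filter.1 hj
    obtain ⟨b1, b2, b3⟩ := F.tm j a
    have h1 : sl j ≤ ⌊(pt j).2 / S.r ^ 2⌋ := Int.le_floor.2 (by rw [le_div_iff₀ (by positivity)]; linarith)
    have h2 : ⌊(pt j).2 / S.r ^ 2⌋ < sl j + 2 := Int.floor_lt.2 (by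
      rw [div_lt_iff₀ (by positivity)]; push_cast; nlinarith [pow_pos r0 2])
    simp only [mem_insert, mem_singleton]
    omega
  rw [card_eq_sum_card_fiberwise mp, Nat.cast_sum]
  refine (sum_le_card_nsmul _ _ (S.w ^ (2 * d)) fun s _ => ?_).trans ?_
  · refine (card_ball (T := (2 * S.w + d) * S.r) r0 (by positivity) _ (fun j => (p j).1) (fun a ha b hb h => ?_)
      (q.1 - (2 * (q.2 - S.r ^ 2 * s)) • c) fun j hj k => ?_).trans ?_
    · exact F.inj a (mem_filter.1 (mem_filter.1 ha).1).1 b (mem_filter.1 (mem_filter.1 hb).1).1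
        ((mem_filter.1 ha).2.trans (mem_filter.1 hb).2.symm) h
    · obtain ⟨a, e1⟩ := mem_filter.1 hj
      obtain ⟨a', e2⟩ := mem_filter.1 a
      have := F.nr j a'
      rw [(F.tm j a').1, e1, e2] at this
      exact (PiLp.norm_apply_le _ k).trans this
    · rw [pow_mul, mul_div_assoc, mul_div_cancel_right₀ _ r0.ne']
      have : (0 : ℝ) ≤ d := Nat.cast_nonneg d
      exact pow_le_pow_left₀ (by positivity) (by nlinarith) d
  · rw [nsmul_eq_mul]
    gcongr
    exact_mod_cast card_le_two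

theorem far (F : Fm S A c I p pt sl) (hw : 2 * d + 8 ≤ S.w) {i j : ι} (hi : i ∈ I) (hj : j ∈ I)
    (h1 : 2 * S.r ^ 2 ≤ |(p j).2 - (p i).2|)
    (h2 : ‖(p j).1 - (p i).1 - (2 * ((p j).2 - (p i).2)) • c‖ ≤ S.w * (S.r + |(p j).2 - (p i).2| / S.r)) :
    S.r ^ 2 ≤ |(pt j).2 - (pt i).2| ∧ |(pt j).2 - (pt i).2| ≤ 2 * |(p j).2 - (p i).2| ∧
      ‖(pt j).1 - (pt i).1 - (2 * ((pt j).2 - (pt i).2)) • c‖ ≤ S.w ^ 2 * |(pt j).2 - (pt i).2| / S.r := by
  have r0 := S.r_pos
  have w0 := S.w_pos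
  obtain ⟨-, a1, a2⟩ := F.tm i hi
  obtain ⟨-, a3, a4⟩ := F.tm j hj
  have b := abs_le.1 ((abs_abs_sub_abs_le_abs_sub ((pt j).2 - (pt i).2) ((p j).2 - (p i).2)).trans
    (abs_le.2 ⟨by linarith, by linarith⟩ : _ ≤ S.r ^ 2))
  have b1 : S.r ^ 2 ≤ |(pt j).2 - (pt i).2| := by linarith
  refine ⟨b1, by linarith [pow_pos r0 2], ?_⟩
  have e : (pt j).1 - (pt i).1 - (2 * ((pt j).2 - (pt i).2)) • c =
      (p j).1 - (p i).1 - (2 * ((p j).2 - (p i).2)) • c +
        ((p i).1 - ((pt i).1 - (2 * ((pt i).2 - (p i).2)) • c)) +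
        -((p j).1 - ((pt j).1 - (2 * ((pt j).2 - (p j).2)) • c)) := by module
  rw [e]
  refine norm_add₃_le.trans ?_
  rw [norm_neg]
  have c1 : S.r ≤ |(pt j).2 - (pt i).2| / S.r := by rw [le_div_iff₀ r0, ← sq]; exact b1
  have c2 : |(p j).2 - (p i).2| / S.r ≤ 2 * (|(pt j).2 - (pt i).2| / S.r) := by
    rw [← mul_div_assoc]; gcongr; linarith
  have c3 : S.w * (S.r + |(p j).2 - (p i).2| / S.r) ≤ S.w * (3 * (|(pt j).2 - (pt i).2| / S.r)) := by
    gcongr; linarith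
  have c4 : (2 * S.w + d) * S.r ≤ (2 * S.w + d) * (|(pt j).2 - (pt i).2| / S.r) := by gcongr
  have : (0 : ℝ) ≤ d := Nat.cast_nonneg d
  have c5 : (7 * S.w + 2 * d) * (|(pt j).2 - (pt i).2| / S.r) ≤ S.w ^ 2 * (|(pt j).2 - (pt i).2| / S.r) := by
    gcongr; nlinarith
  rw [mul_div_assoc]
  linarith [F.nr i hi, F.nr j hj]

end Srx

open Srx in
theorem sr (d : ℕ) : SR d := by
  classical
  intro N hN
  have hN' : 2 * (d : ℝ) ≤ N := by exact_mod_cast hN
  have W0 : 0 ≤ cW d := by simpa using wE_lat hN' one_pos (∅ : Finset Unit) (fun _ => (0 : E d)) (by simp) 0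
  refine ⟨(1 + 8 * d) ^ (N : ℝ) * (3 * (2 ^ (N : ℝ) * cW d) + 1 + 2 * 2 ^ ((d : ℝ) / 2)), 2 * d + 8, by positivity,
    fun S A c ι β I p pt sl bl hw F hc hI i hi => ?_⟩
  have r0 := S.r_pos
  have w0 := S.w_pos
  refine (sum_le_sum fun j _ => kk_le N r0 c p bl i j).trans ?_
  rw [← mul_sum]
  refine mul_le_mul_of_nonneg_left ?_ (by positivity)
  set T := A.filter fun p' => S.r ^ 2 ≤ |p'.2 - (pt i).2| ∧ |p'.2 - (pt i).2| ≤ 2 * S.t0 ∧
    ‖p'.1 - (pt i).1 - (2 * (p'.2 - (pt i).2)) • c‖ ≤ S.w ^ 2 * |p'.2 - (pt i).2| / S.r with hT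
  have dt : ∀ j ∈ I, (p j).2 - (p i).2 = S.r ^ 2 * ((sl j - sl i : ℤ) : ℝ) := fun j hj => by
    rw [(F.tm j hj).1, (F.tm i hi).1]; push_cast; ring
  have key : ∀ j ∈ I.filter (fun j => |(p j).2 - (p i).2| ≤ S.t0), kS N S.r c (p i) (p j) ≤
      (if sl j ∈ Finset.Icc (sl i - 1) (sl i + 1) then
        2 ^ (N : ℝ) * wE N S.r ((p j).1 - (p i).1 - (2 * ((p j).2 - (p i).2)) • c) else 0) + (S.w ^ N)⁻¹ +
      (if pt j ∈ T then 2 ^ ((d : ℝ) / 2) * (S.r ^ 2 / |(pt j).2 - (pt i).2|) ^ ((d : ℝ) / 2) else 0) := by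
    intro j hj
    obtain ⟨hj, ht⟩ := mem_filter.1 hj
    have hL : 0 < S.r + |(p j).2 - (p i).2| / S.r := by positivity
    have d0 : -(d : ℝ) / 2 ≤ 0 := by have := Nat.cast_nonneg (α := ℝ) d; linarith
    have a1 : kS N S.r c (p i) (p j) ≤ wE N (S.r + |(p j).2 - (p i).2| / S.r) _ :=
      mul_le_of_le_one_left (wE_pos hL _).le
        (Real.rpow_le_one_of_one_le_of_nonpos (le_add_of_nonneg_right (by positivity)) d0)
    have g3 : 0 ≤ if pt j ∈ T then (2 : ℝ) ^ ((d : ℝ) / 2) * (S.r ^ 2 / |(pt j).2 - (pt i).2|) ^ ((d : ℝ) / 2)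
      else 0 := by positivity
    have g2 : 0 ≤ (S.w ^ N)⁻¹ := by positivity
    by_cases h : sl j ∈ Finset.Icc (sl i - 1) (sl i + 1)
    · rw [if_pos h]
      have b1 : |((sl j - sl i : ℤ) : ℝ)| ≤ 1 := by
        rw [mem_Icc] at h
        exact_mod_cast (abs_le.2 ⟨by omega, by omega⟩ : |sl j - sl i| ≤ 1)
      have b2 : S.r + |(p j).2 - (p i).2| / S.r ≤ S.r * 2 := by
        have : |(p j).2 - (p i).2| / S.r ≤ S.r := by
          rw [div_le_iff₀ r0, dt j hj, abs_mul, abs_of_pos (pow_pos r0 2), ← sq]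
          exact mul_le_of_le_one_right (by positivity) b1
        linarith
      have := (a1.trans (wE_mono (Nat.cast_nonneg N) hL b2 _)).trans (wE_scale (Nat.cast_nonneg N) r0 one_le_two _)
      linarith
    · rw [if_neg h]
      by_cases h2 : ‖(p j).1 - (p i).1 - (2 * ((p j).2 - (p i).2)) • c‖ ≤ S.w * (S.r + |(p j).2 - (p i).2| / S.r)
      · have b1 : (2 : ℝ) ≤ |((sl j - sl i : ℤ) : ℝ)| := by
          rw [mem_Icc] at h
          exact_mod_cast (le_abs.2 (by omega) : 2 ≤ |sl j - sl i|)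
        have b2 : 2 * S.r ^ 2 ≤ |(p j).2 - (p i).2| := by
          rw [dt j hj, abs_mul, abs_of_pos (pow_pos r0 2), mul_comm]
          gcongr
        obtain ⟨c1, c2, c3⟩ := far F hw hi hj b2 h2
        rw [if_pos (mem_filter.2 ⟨F.mem j hj, c1, by linarith, c3⟩)]
        have q0 : 0 < |(pt j).2 - (pt i).2| := (pow_pos r0 2).trans_le c1
        have b3 : kS N S.r c (p i) (p j) ≤ (1 + |(p j).2 - (p i).2| / S.r ^ 2) ^ (-(d : ℝ) / 2) :=
          mul_le_of_le_one_right (by positivity) (wE_le_one (Nat.cast_nonneg N) hL _)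
        have b4 : (1 + |(p j).2 - (p i).2| / S.r ^ 2) ^ (-(d : ℝ) / 2) ≤
            2 ^ ((d : ℝ) / 2) * (S.r ^ 2 / |(pt j).2 - (pt i).2|) ^ ((d : ℝ) / 2) := by
          rw [← Real.mul_rpow (by norm_num) (by positivity), neg_div, Real.rpow_neg (by positivity),
            ← Real.inv_rpow (by positivity)]
          refine Real.rpow_le_rpow (by positivity) ?_ (by positivity)
          rw [inv_le_comm₀ (by positivity) (by positivity), ← mul_div_assoc, inv_div]
          have : |(pt j).2 - (pt i).2| / (2 * S.r ^ 2) ≤ |(p j).2 - (p i).2| / S.r ^ 2 := by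
            rw [← div_div]; gcongr; linarith
          linarith
        linarith
      · have : wE N (S.r + |(p j).2 - (p i).2| / S.r) ((p j).1 - (p i).1 - (2 * ((p j).2 - (p i).2)) • c) ≤
            (S.w ^ N)⁻¹ := by
          rw [← Real.rpow_natCast, ← Real.rpow_neg w0.le]
          refine Real.rpow_le_rpow_of_nonpos w0 ?_ (by simp)
          have := (le_div_iff₀ hL).2 (not_le.1 h2).le
          linarith
        linarith
  refine (sum_le_sum key).trans ((sum_le_sum_of_subset_of_nonneg (filter_subset _ I) fun j _ _ => by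
    have := (wE_pos (M := N) r0 ((p j).1 - (p i).1 - (2 * ((p j).2 - (p i).2)) • c)).le
    positivity).trans ?_)
  rw [sum_add_distrib, sum_add_distrib, ← sum_filter, ← sum_filter]
  refine add_le_add_three ?_ ?_ ?_
  · rw [← sum_fiberwise_of_maps_to (g := sl) (t := Finset.Icc (sl i - 1) (sl i + 1)) fun j hj => (mem_filter.1 hj).2]
    refine (sum_le_card_nsmul _ _ (2 ^ (N : ℝ) * cW d) fun s _ => ?_).trans (le_of_eq ?_)
    · rw [← mul_sum]
      refine mul_le_mul_of_nonneg_left (le_trans (le_of_eq (sum_congr rfl fun j hj => ?_)) (wE_lat hN' r0 _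
        (fun j => (p j).1) (fun a ha b hb h => ?_) ((p i).1 + (2 * (S.r ^ 2 * ((s - sl i : ℤ) : ℝ))) • c)))
        (by positivity)
      · obtain ⟨a, rfl⟩ := mem_filter.1 hj
        rw [dt j (mem_filter.1 a).1, sub_sub, wE_sub_comm]
      · exact F.inj a (mem_filter.1 (mem_filter.1 ha).1).1 b (mem_filter.1 (mem_filter.1 hb).1).1
          ((mem_filter.1 ha).2.trans (mem_filter.1 hb).2.symm) h
    · rw [Int.card_Icc, show sl i + 1 + 1 - (sl i - 1) = (3 : ℕ) by push_cast; ring, Int.toNat_natCast, nsmul_eq_mul]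
      norm_num
  · rw [sum_const, nsmul_eq_mul, ← div_eq_mul_inv, div_le_one (by positivity)]
    exact hI
  · rw [← mul_sum, mul_comm 2]
    refine mul_le_mul_of_nonneg_left ?_ (by positivity)
    rw [← sum_fiberwise_of_maps_to (g := pt) (t := T) fun j hj => (mem_filter.1 hj).2]
    calc _ ≤ ∑ q ∈ T, 2 * S.w ^ (2 * d) * (S.r ^ 2 / |q.2 - (pt i).2|) ^ ((d : ℝ) / 2) := sum_le_sum fun q _ => ?_
      _ = 2 * (S.w ^ (2 * d) * S.crw A (pt i) c) := by rw [← mul_sum, mul_assoc]; rfl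
      _ ≤ _ := by linarith [hc i hi]
    rw [sum_congr rfl fun j hj => by rw [(mem_filter.1 hj).2], sum_const, nsmul_eq_mul]
    refine mul_le_mul_of_nonneg_right (le_trans (Nat.cast_le.2 (card_le_card fun j hj => ?_)) (mult F hw q))
      (by positivity)
    exact mem_filter.2 ⟨(mem_filter.1 (mem_filter.1 hj).1).1, (mem_filter.1 hj).2⟩

end Vale.Agent.P076N.KEY
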