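import Vale.Agent.P076N.KEY.Step1

/-!
# P076N / KEY : row STEP
-/

set_option linter.all false

open MeasureTheory Finset
open scoped RealInnerProductSpace

namespace Vale.Agent.P076N.KEY

open Vale.Agent.P076 Vale.Agent.P076N

noncomputable section

namespace STx

variable {d : ℕ}

/-- the truncated density at the time `t₀` -/
def FF (h : E d → ℂ) (t₀ ρ Λ : ℝ) (z : E d) : ℝ := min (lE h (z, t₀) (3 * ρ) / ρ ^ d) Λ

lemma FF_facts (hB : BAS d) {h : E d → ℂ} (hh : Bd 3 h) (t₀ : ℝ) {ρ Λ : ℝ} (hρ : 0 < ρ) (hΛ : 0 < Λ) :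
    Measurable (FF h t₀ ρ Λ) ∧ Integrable (FF h t₀ ρ Λ) ∧ (∀ z, 0 ≤ FF h t₀ ρ Λ z ∧ FF h t₀ ρ Λ z ≤ Λ) ∧
    (∫ z, FF h t₀ ρ Λ z ≤ 3 ^ d * cv d * en h) ∧ ∀ (z : E d) (lam : ℝ), 0 < lam →
      ⨍ x in Metric.ball z lam, FF h t₀ ρ Λ x ≤ min (3 ^ d * lE h (z, t₀) (lam + 3 * ρ) / lam ^ d) Λ := by
  obtain ⟨_, b2, _, b4, b5, _⟩ := hB.1 3 h hh
  have fi := (b4 t₀).1
  have fm : Measurable fun x : E d => ‖Uu h (x, t₀)‖ ^ 2 :=
    ((b2.comp (continuous_id.prodMk continuous_const)).norm.pow 2).measurable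
  have gm : Measurable fun z : E d => lE h (z, t₀) (3 * ρ) / ρ ^ d := (ball_meas fm (3 * ρ)).div_const _
  have gi : Integrable fun z : E d => lE h (z, t₀) (3 * ρ) / ρ ^ d := (ball_int fi (3 * ρ)).div_const _
  have m1 : Measurable (FF h t₀ ρ Λ) := gm.min measurable_const
  have n1 : ∀ z, 0 ≤ FF h t₀ ρ Λ z := fun z => le_min (div_nonneg (b5 _ _).1 (by positivity)) hΛ.le
  have i1 : Integrable (FF h t₀ ρ Λ) := gi.mono' m1.aestronglyMeasurable (Filter.Eventually.of_forall fun z => by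
    rw [Real.norm_eq_abs, abs_of_nonneg (n1 z)]
    exact min_le_left _ _)
  refine ⟨m1, i1, fun z => ⟨n1 z, min_le_right _ _⟩, ?_, fun z lam hl => ?_⟩
  · refine (integral_mono i1 gi fun z => min_le_left _ _).trans (le_of_eq ?_)
    rw [integral_div]
    have := ball_integral fi (show 0 < 3 * ρ by positivity)
    rw [(b4 t₀).2] at this
    rw [show (∫ z : E d, lE h (z, t₀) (3 * ρ)) = _ from this, mul_pow]
    field_simp
  · refine avg_le i1 gi hl z (fun _ => min_le_right _ _) (fun _ => min_le_left _ _) ?_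
    rw [integral_div, div_le_iff₀ (by positivity)]
    refine (ball_local fi (fun _ => by positivity) (show 0 < 3 * ρ by positivity) z lam).trans (le_of_eq ?_)
    rw [show (∫ x in Metric.ball z (lam + 3 * ρ), ‖Uu h (x, t₀)‖ ^ 2) = lE h (z, t₀) (lam + 3 * ρ) from rfl, mul_pow]
    field_simp

lemma min_le_aux {a b c k Λ : ℝ} (hb : 0 ≤ b) (hc : 0 ≤ c) (hk : 1 ≤ k) (hΛ : 0 ≤ Λ) (h : a ≤ k * b + c) :
    min a Λ ≤ k * min b Λ + c := by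
  rcases le_total b Λ with h1 | h1
  · rw [min_eq_left h1]
    exact (min_le_left _ _).trans h
  · rw [min_eq_right h1]
    refine (min_le_right _ _).trans ?_
    nlinarith

/-- one cap -/
lemma cap_le (hB : BAS d) {CF : ℝ} {N : ℕ} (hCF : 0 ≤ CF)
    (hF : ∀ (L : ℝ) (c : E d) (R : ℝ) (h : E d → ℂ) (p p₀ : E d × ℝ) (ρ ρ₀ m : ℝ), 0 < L → 1 ≤ m → 0 ≤ ρ → Bd R h →
      Nr ((d : ℝ) + 1) L c h → ‖p.1 - (2 * (p.2 - p₀.2)) • c - p₀.1‖ + ρ + m * (L + |p.2 - p₀.2| / L) ≤ ρ₀ →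
      lE h p ρ ≤ 2 * lE h p₀ ρ₀ + CF * (m ^ N)⁻¹ * (ρ / L) ^ d * en h)
    {h : E d → ℂ} (hh : Bd 3 h) {M Λ ρ ρ₂ s m t₀ : ℝ} {c : E d} (hc : ‖c‖ ≤ 4) (hn : Nr ((d : ℝ) + 1) M c h)
    (hM : 1 ≤ M) (hΛ : 0 < Λ) (hm : 1 ≤ m) (hρ : 0 < ρ) (h10 : 10 * ρ ≤ ρ₂) (hs : m * (M + s / M) ≤ ρ)
    (p q : E d × ℝ) (hp : |p.2 - t₀| ≤ s) (h1 : ‖q.1 - p.1‖ ≤ ρ / 20) (h2 : |q.2 + t₀ - p.2| ≤ ρ / 20) :
    min (lE h p ρ / ρ ^ d) Λ / 2 - 2 * 6 ^ d * min (lE h p ρ₂ / ρ₂ ^ d) Λ - (1 + 6 ^ d) * (CF * (m ^ N)⁻¹) * en h ≤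
      FF h t₀ ρ Λ (q.1 - (2 * q.2) • c) - ⨍ z in Metric.ball (q.1 - (2 * q.2) • c) (ρ₂ / 2), FF h t₀ ρ Λ z := by
  obtain ⟨_, _, b3, _, b5, _⟩ := hB.1 3 h hh
  have hρ2 : 0 < ρ₂ := by linarith
  have ht : 0 ≤ CF * (m ^ N)⁻¹ * en h := by positivity
  have g1 : ‖p.1 - (2 * (p.2 - t₀)) • c - (q.1 - (2 * q.2) • c)‖ ≤ 9 * ρ / 20 := by
    have e : p.1 - (2 * (p.2 - t₀)) • c - (q.1 - (2 * q.2) • c) = (2 * (q.2 + t₀ - p.2)) • c - (q.1 - p.1) := by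
      module
    rw [e]
    refine (norm_sub_le _ _).trans ?_
    rw [norm_smul, Real.norm_eq_abs, abs_mul, abs_two]
    have := mul_le_mul (mul_le_mul_of_nonneg_left h2 (by norm_num : (0 : ℝ) ≤ 2)) hc (norm_nonneg _) (by positivity)
    linarith
  have g2 : m * (M + |p.2 - t₀| / M) ≤ ρ :=
    le_trans (mul_le_mul_of_nonneg_left (add_le_add le_rfl (div_le_div_of_nonneg_right hp (by linarith)))
      (by linarith)) hs
  have hMd : (1 : ℝ) ≤ M ^ d := one_le_pow₀ hM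
  have a1 := hF M c 3 h p (q.1 - (2 * q.2) • c, t₀) ρ (3 * ρ) m (by linarith) hm hρ.le hh hn (by linarith)
  have a2 : lE h p ρ / ρ ^ d ≤ 2 * (lE h (q.1 - (2 * q.2) • c, t₀) (3 * ρ) / ρ ^ d) + CF * (m ^ N)⁻¹ * en h := by
    refine (div_le_div_of_nonneg_right a1 (by positivity)).trans ?_
    rw [add_div, mul_div_assoc]
    refine add_le_add le_rfl ?_
    rw [div_le_iff₀ (by positivity), div_pow]
    calc CF * (m ^ N)⁻¹ * (ρ ^ d / M ^ d) * en h = CF * (m ^ N)⁻¹ * en h * (ρ ^ d / M ^ d) := by ring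
      _ ≤ _ := mul_le_mul_of_nonneg_left (div_le_self (by positivity) hMd) ht
  have a3 := min_le_aux (Λ := Λ) (div_nonneg (b5 _ _).1 (by positivity)) ht (by norm_num) hΛ.le a2
  have c1 := hF M c 3 h (q.1 - (2 * q.2) • c, t₀) p (ρ₂ / 2 + 3 * ρ) ρ₂ m (by linarith) hm (by positivity) hh hn (by
    have e : q.1 - (2 * q.2) • c - (2 * (t₀ - p.2)) • c - p.1 =
        -(p.1 - (2 * (p.2 - t₀)) • c - (q.1 - (2 * q.2) • c)) := by module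
    show ‖q.1 - (2 * q.2) • c - (2 * (t₀ - p.2)) • c - p.1‖ + _ + m * (M + |t₀ - p.2| / M) ≤ _
    rw [e, norm_neg, abs_sub_comm t₀]
    linarith)
  have h6 : (1 : ℝ) ≤ 6 ^ d := one_le_pow₀ (by norm_num)
  have c2 : 3 ^ d * lE h (q.1 - (2 * q.2) • c, t₀) (ρ₂ / 2 + 3 * ρ) / (ρ₂ / 2) ^ d ≤
      2 * 6 ^ d * (lE h p ρ₂ / ρ₂ ^ d) + 6 ^ d * (CF * (m ^ N)⁻¹ * en h) := by
    have e : 3 ^ d * lE h (q.1 - (2 * q.2) • c, t₀) (ρ₂ / 2 + 3 * ρ) / (ρ₂ / 2) ^ d =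
        6 ^ d * (lE h (q.1 - (2 * q.2) • c, t₀) (ρ₂ / 2 + 3 * ρ) / ρ₂ ^ d) := by
      rw [div_pow, show (6 : ℝ) = 3 * 2 by norm_num, mul_pow]
      field_simp
    have k1 : ((ρ₂ / 2 + 3 * ρ) / M) ^ d ≤ ρ₂ ^ d :=
      pow_le_pow_left₀ (by positivity) ((div_le_self (by positivity) hM).trans (by linarith)) d
    have k2 : lE h (q.1 - (2 * q.2) • c, t₀) (ρ₂ / 2 + 3 * ρ) / ρ₂ ^ d ≤
        2 * (lE h p ρ₂ / ρ₂ ^ d) + CF * (m ^ N)⁻¹ * en h := by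
      refine (div_le_div_of_nonneg_right c1 (by positivity)).trans ?_
      rw [add_div, mul_div_assoc]
      refine add_le_add le_rfl ?_
      rw [div_le_iff₀ (by positivity)]
      calc CF * (m ^ N)⁻¹ * ((ρ₂ / 2 + 3 * ρ) / M) ^ d * en h
          = CF * (m ^ N)⁻¹ * en h * ((ρ₂ / 2 + 3 * ρ) / M) ^ d := by ring
        _ ≤ _ := mul_le_mul_of_nonneg_left k1 ht
    rw [e]
    have := mul_le_mul_of_nonneg_left k2 (by positivity : (0 : ℝ) ≤ 6 ^ d)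
    linarith
  have c3 := ((FF_facts hB hh t₀ hρ hΛ).2.2.2.2 (q.1 - (2 * q.2) • c) (ρ₂ / 2) (by positivity)).trans
    (min_le_aux (Λ := Λ) (div_nonneg (b5 _ _).1 (by positivity)) (by positivity) (by linarith) hΛ.le c2)
  have a4 : FF h t₀ ρ Λ (q.1 - (2 * q.2) • c) = min (lE h (q.1 - (2 * q.2) • c, t₀) (3 * ρ) / ρ ^ d) Λ := rfl
  rw [a4]
  linarith

lemma split_card (A : Finset (E d × ℝ)) (ρ : ℝ) {s T X : ℝ} (hs : 0 < s) (hT : 0 ≤ T)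
    (hA : ∀ p ∈ A, 0 ≤ p.2 ∧ p.2 ≤ T)
    (h : ∀ j : ℕ, (#((A.filter fun p => ⌊p.2 / s⌋₊ = j).image (cub ρ)) : ℝ) ≤ X) :
    (#(A.image (cub ρ)) : ℝ) ≤ (T / s + 1) * X := by
  classical
  have hX : 0 ≤ X := le_trans (Nat.cast_nonneg _) (h 0)
  have h1 : A.image (cub ρ) ⊆ (Finset.range (⌊T / s⌋₊ + 1)).biUnion fun j =>
      (A.filter fun p => ⌊p.2 / s⌋₊ = j).image (cub ρ) := by
    intro c hc
    obtain ⟨p, hp, rfl⟩ := Finset.mem_image.1 hc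
    refine Finset.mem_biUnion.2 ⟨⌊p.2 / s⌋₊, Finset.mem_range.2 (Nat.lt_succ_of_le (Nat.floor_mono ?_)),
      Finset.mem_image_of_mem _ (Finset.mem_filter.2 ⟨hp, rfl⟩)⟩
    exact div_le_div_of_nonneg_right (hA p hp).2 hs.le
  have h2 := (Finset.card_le_card h1).trans Finset.card_biUnion_le
  calc (#(A.image (cub ρ)) : ℝ) ≤ ∑ j ∈ Finset.range (⌊T / s⌋₊ + 1),
        (#((A.filter fun p => ⌊p.2 / s⌋₊ = j).image (cub ρ)) : ℝ) := by exact_mod_cast h2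
    _ ≤ ∑ _j ∈ Finset.range (⌊T / s⌋₊ + 1), X := Finset.sum_le_sum fun j _ => h j
    _ = ((⌊T / s⌋₊ : ℝ) + 1) * X := by simp
    _ ≤ _ := mul_le_mul_of_nonneg_right (add_le_add (Nat.floor_le (by positivity)) le_rfl) hX

end STx

open STx in
theorem step (d : ℕ) : STEP d := by
  intro hB hFS hVA ψ N hψ
  obtain ⟨CF, hCF, hF⟩ := hFS ((d : ℝ) + 1) N (by positivity)
  obtain ⟨CV, hCV, hV⟩ := hVA
  have h6 : (1 : ℝ) ≤ 6 ^ d := one_le_pow₀ (by norm_num)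
  obtain ⟨C, c0, c1, c2, c3⟩ : ∃ C : ℝ, 1 ≤ C ∧ 4 * 6 ^ d ≤ C ∧ 4 * ((1 + 6 ^ d) * CF) ≤ C ∧
      3 * (20 ^ d * 10 * 3 ^ (d + 1) * 3 ^ d * 16 * CV) ≤ C := by
    have p1 : 0 ≤ 4 * ((1 + 6 ^ d) * CF) := by positivity
    have p2 : 0 ≤ 3 * (20 ^ d * 10 * 3 ^ (d + 1) * 3 ^ d * 16 * CV) := by positivity
    exact ⟨4 * 6 ^ d + 4 * ((1 + 6 ^ d) * CF) + 3 * (20 ^ d * 10 * 3 ^ (d + 1) * 3 ^ d * 16 * CV),
      by linarith, by linarith, by linarith, by linarith⟩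
  refine ⟨C, c0, fun g M Λ y ρ ρ₂ K m T A hg hM hΛ hy hK hm hρ h10 hT hs ht hA => ?_⟩
  obtain ⟨b1, b2, _⟩ := hB.2.2.2.1 ψ 3 M g hψ (by linarith) hg
  have hρ2 : 0 < ρ₂ := by linarith
  have hKρ : ρ₂ ≤ K * ρ₂ := by nlinarith
  have eg : 0 ≤ en g := (hB.1 3 g hg).2.2.1
  have hsum : ∑ θ ∈ Th d M, en (cp ψ M θ g) ≤ en g := (b2 (Th d M)).2.2.1
  have hcv := cv_pos d
  have hW : 0 ≤ M ^ d * (M⁻¹ + (√K)⁻¹) * Λ * en g := by positivity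
  -- one interval
  have one : ∀ j : ℕ, (#((A.filter fun p => ⌊p.2 / (K * ρ₂ / 2)⌋₊ = j).image (cub ρ)) : ℝ) ≤
      20 ^ d * 10 * 3 ^ (d + 1) * 3 ^ d * 16 * CV * (K * ρ₂) * (M ^ d * (M⁻¹ + (√K)⁻¹) * Λ * en g) /
        (ρ ^ (d + 1) * y ^ 2) := by
    intro j
    have fF := fun θ => FF_facts hB (b1 θ).1 (j * (K * ρ₂ / 2)) hρ hΛ
    have v1 := hV M (ρ₂ / 2) (2 * K) Λ (y / 4) (fun θ => FF (cp ψ M θ g) (j * (K * ρ₂ / 2)) ρ Λ) hM (by positivity)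
      (by linarith) (by positivity) fun θ => ⟨(fF θ).1, (fF θ).2.1, (fF θ).2.2.1⟩
    have v2 : ∑ θ ∈ Th d M, ∫ z, FF (cp ψ M θ g) (j * (K * ρ₂ / 2)) ρ Λ z ≤ 3 ^ d * cv d * en g :=
      (Finset.sum_le_sum fun θ _ => (fF θ).2.2.2.1).trans (by
        rw [← Finset.mul_sum]
        exact mul_le_mul_of_nonneg_left hsum (by positivity))
    have v3 : (√(2 * K))⁻¹ ≤ (√K)⁻¹ :=
      inv_anti₀ (Real.sqrt_pos.2 (by linarith)) (Real.sqrt_le_sqrt (by linarith))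
    have v4 : CV * (2 * K * (ρ₂ / 2)) * M ^ d * (M⁻¹ + (√(2 * K))⁻¹) * Λ *
        (∑ θ ∈ Th d M, ∫ z, FF (cp ψ M θ g) (j * (K * ρ₂ / 2)) ρ Λ z) / (y / 4) ^ 2 ≤
        CV * (2 * K * (ρ₂ / 2)) * M ^ d * (M⁻¹ + (√K)⁻¹) * Λ * (3 ^ d * cv d * en g) / (y / 4) ^ 2 := by
      have : 0 ≤ ∑ θ ∈ Th d M, ∫ z, FF (cp ψ M θ g) (j * (K * ρ₂ / 2)) ρ Λ z :=
        Finset.sum_nonneg fun θ _ => integral_nonneg fun z => ((fF θ).2.2.1 z).1
      gcongr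
    have k := cubes (A.filter fun p => ⌊p.2 / (K * ρ₂ / 2)⌋₊ = j) _ (t₀ := j * (K * ρ₂ / 2)) hρ (by positivity)
      (fun p hp q q1 q2 => ?_) (v1.trans (ENNReal.ofReal_le_ofReal v4))
    · rw [le_div_iff₀ (by positivity)]
      generalize (#((A.filter fun p => ⌊p.2 / (K * ρ₂ / 2)⌋₊ = j).image (cub ρ)) : ℝ) = n at k ⊢
      have e1 : n * (ρ ^ (d + 1) * y ^ 2) =
          n * ((ρ / 20) ^ d * cv d * (ρ / 10)) * (20 ^ d * 10 * y ^ 2 / cv d) := by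
        rw [div_pow, pow_succ ρ d]
        field_simp
      rw [e1]
      refine (mul_le_mul_of_nonneg_right k (by positivity)).trans (le_of_eq ?_)
      field_simp
      norm_num
    · obtain ⟨hp1, hp2⟩ := Finset.mem_filter.1 hp
      obtain ⟨t1, t2, t3⟩ := hA p hp1
      have hs0 : 0 < K * ρ₂ / 2 := by positivity
      have f1 := Nat.floor_le (div_nonneg t1 hs0.le)
      have f2 := Nat.lt_floor_add_one (p.2 / (K * ρ₂ / 2))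
      rw [hp2] at f1 f2
      rw [le_div_iff₀ hs0] at f1
      rw [div_lt_iff₀ hs0] at f2
      have f3 : |p.2 - j * (K * ρ₂ / 2)| ≤ K * ρ₂ := by
        rw [abs_le]
        constructor <;> linarith
      refine ⟨?_, ?_⟩
      · have := abs_le.1 q2
        rw [abs_le]
        constructor <;> linarith [this.1, this.2]
      · have u1 := Finset.sum_le_sum fun θ (hθ : θ ∈ Th d M) => cap_le hB hCF hF (b1 θ).1 (Λ := Λ)
          (Finset.mem_filter.1 hθ).2 (fun η hη => ((b1 θ).2 η hη).trans (by linarith)) hM hΛ hm hρ h10 hs p q f3 q1 q2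
        rw [Finset.sum_sub_distrib, Finset.sum_sub_distrib, ← Finset.sum_div, ← Finset.mul_sum, ← Finset.mul_sum] at u1
        refine le_trans ?_ u1
        have u2 : 0 ≤ Dn ψ M Λ g p ρ₂ := Finset.sum_nonneg fun θ _ =>
          le_min (div_nonneg ((hB.1 3 _ (b1 θ).1).2.2.2.2.1 _ _).1 (by positivity)) hΛ.le
        have u3 := mul_le_mul_of_nonneg_right c1 u2
        have u4 : (1 + 6 ^ d) * (CF * (m ^ N)⁻¹) * ∑ θ ∈ Th d M, en (cp ψ M θ g) ≤ y / 4 := by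
          have w1 : (1 + 6 ^ d) * (CF * (m ^ N)⁻¹) * ∑ θ ∈ Th d M, en (cp ψ M θ g) ≤
              (1 + 6 ^ d) * (CF * (m ^ N)⁻¹) * en g := mul_le_mul_of_nonneg_left hsum (by positivity)
          have w2 := mul_le_mul_of_nonneg_right c2 (show 0 ≤ (m ^ N)⁻¹ * en g by positivity)
          linarith
        unfold Dn at t3 u2 u3
        linarith
  have fin := split_card A ρ (s := K * ρ₂ / 2) (by positivity) (by linarith) (fun p hp => ⟨(hA p hp).1, (hA p hp).2.1⟩) one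
  have n1 : (T / (K * ρ₂ / 2) + 1) * (K * ρ₂) ≤ 3 * T := by
    have : T / (K * ρ₂ / 2) * (K * ρ₂) = 2 * T := by field_simp
    linarith
  rw [← mul_div_assoc, le_div_iff₀ (by positivity), ← mul_assoc (#(A.image (cub ρ)) : ℝ)] at fin
  refine fin.trans ?_
  have hT0 : 0 ≤ T := by linarith
  calc _ = 20 ^ d * 10 * 3 ^ (d + 1) * 3 ^ d * 16 * CV * ((T / (K * ρ₂ / 2) + 1) * (K * ρ₂)) *
        (M ^ d * (M⁻¹ + (√K)⁻¹) * Λ * en g) := by ring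
    _ ≤ 20 ^ d * 10 * 3 ^ (d + 1) * 3 ^ d * 16 * CV * (3 * T) * (M ^ d * (M⁻¹ + (√K)⁻¹) * Λ * en g) := by gcongr
    _ = 3 * (20 ^ d * 10 * 3 ^ (d + 1) * 3 ^ d * 16 * CV) * (T * (M ^ d * (M⁻¹ + (√K)⁻¹) * Λ * en g)) := by ring
    _ ≤ C * (T * (M ^ d * (M⁻¹ + (√K)⁻¹) * Λ * en g)) := mul_le_mul_of_nonneg_right c3 (by positivity)
    _ = _ := by ring

end

end Vale.Agent.P076N.KEY
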