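import Vale.Agent.P076N.KEY.Spec2

/-!
# P076N / KEY : the row SUM
-/

set_option linter.all false

open Finset

namespace Vale.Agent.P076N.KEY

namespace SumP

theorem geo {q : ℝ} (h0 : 0 ≤ q) (h1 : q < 1) (n : ℕ) :
    ∑ i ∈ range n, ∑ j ∈ range n, q ^ (i + j) ≤ ((1 - q) ^ 2)⁻¹ := by
  have a1 : ∑ i ∈ range n, q ^ i ≤ (1 - q)⁻¹ := by
    rw [← tsum_geometric_of_lt_one h0 h1]
    exact (summable_geometric_of_lt_one h0 h1).sum_le_tsum _ (fun i _ => by positivity)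
  have a2 : ∑ i ∈ range n, ∑ j ∈ range n, q ^ (i + j) = (∑ i ∈ range n, q ^ i) ^ 2 := by
    rw [sq, sum_mul_sum]
    simp_rw [pow_add]
  rw [a2, ← inv_pow]
  gcongr

theorem ee_ge {z : ℝ} (hz : 1 ≤ z) (i j : ℕ) : z * 2 ^ (((i + j : ℕ) : ℝ) / 2) ≤ ee z i j := by
  unfold ee
  have h1 : (2 : ℝ) ^ ((j : ℝ) / 2) ≤ 4 ^ j := by
    calc (2 : ℝ) ^ ((j : ℝ) / 2) ≤ 2 ^ (j : ℝ) :=
          Real.rpow_le_rpow_of_exponent_le (by norm_num) (by have : (0 : ℝ) ≤ j := Nat.cast_nonneg j; linarith)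
      _ = 2 ^ j := Real.rpow_natCast _ _
      _ ≤ 4 ^ j := by gcongr; norm_num
  push_cast
  rw [add_div, Real.rpow_add (by norm_num), ← mul_assoc]
  gcongr

theorem one_le_ee {z : ℝ} (hz : 1 ≤ z) (i j : ℕ) : 1 ≤ ee z i j := by
  refine le_trans ?_ (ee_ge hz i j)
  exact one_le_mul_of_one_le_of_one_le hz (Real.one_le_rpow (by norm_num) (by positivity))

theorem ee_pow {z δ : ℝ} (hz : 1 ≤ z) (hδ : 0 ≤ δ) (i j : ℕ) :
    ee z i j ^ (-δ) ≤ z⁻¹ ^ δ * (((2 : ℝ) ^ (-δ / 16)) ^ (i + j)) ^ 8 := by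
  have h0 : 0 < z := by linarith
  refine (Real.rpow_le_rpow_of_nonpos (by positivity) (ee_ge hz i j) (by linarith)).trans (le_of_eq ?_)
  rw [Real.mul_rpow h0.le (by positivity), Real.rpow_neg h0.le, Real.inv_rpow h0.le, ← pow_mul, ← Real.rpow_natCast,
    ← Real.rpow_mul (by norm_num), ← Real.rpow_mul (by norm_num)]
  congr 2
  push_cast
  ring

theorem kw_le {d : ℕ} (hd : 2 ≤ d) {b e x : ℝ} (hb : 0 < b) (hb1 : b ≤ 1) (he : 1 ≤ e) (hx : 0 < x)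
    (h : x ≤ b ^ 2 * e ^ (8 / (4 * (d : ℝ) + 2))) : Kw x * x ^ ((d : ℝ) / 2) ≤ 2 * b * e := by
  have hd' : (2 : ℝ) ≤ d := by exact_mod_cast hd
  have key : ∀ a : ℝ, 1 / 2 ≤ a → a ≤ (d : ℝ) / 2 + 1 / 4 → x ^ a ≤ b * e := by
    intro a h1 h2
    refine (Real.rpow_le_rpow hx.le h (by linarith)).trans ?_
    rw [Real.mul_rpow (by positivity) (by positivity), ← Real.rpow_mul (by linarith), ← Real.rpow_natCast,
      ← Real.rpow_mul hb.le]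
    have e1 : b ^ (((2 : ℕ) : ℝ) * a) ≤ b := by
      have := Real.rpow_le_rpow_of_exponent_ge hb hb1 (show (1 : ℝ) ≤ ((2 : ℕ) : ℝ) * a by push_cast; linarith)
      rwa [Real.rpow_one] at this
    have e2 : e ^ (8 / (4 * (d : ℝ) + 2) * a) ≤ e := by
      have := Real.rpow_le_rpow_of_exponent_le he (show 8 / (4 * (d : ℝ) + 2) * a ≤ 1 by
        rw [div_mul_eq_mul_div, div_le_one (by linarith)]; linarith)
      rwa [Real.rpow_one] at this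
    gcongr
  have a1 := key (1 / 4 + (d : ℝ) / 2) (by linarith) (by linarith)
  have a2 := key (-(1 / 4) + (d : ℝ) / 2) (by linarith) (by linarith)
  rw [Real.rpow_add hx] at a1 a2
  rw [Real.rpow_neg hx.le, ← Real.inv_rpow hx.le] at a2
  unfold Kw
  linarith

theorem ee_le {d : ℕ} (hd : 2 ≤ d) {c e X : ℝ} (hc : 0 < c) (hc1 : c ≤ 1) (he : 1 ≤ e) (hX : 1 ≤ X)
    (h : c * e ^ (8 / (4 * (d : ℝ) + 2)) ≤ X) : e ≤ X ^ d / c ^ d := by
  have hd' : (2 : ℝ) ≤ d := by exact_mod_cast hd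
  rw [← div_pow]
  have h1 : e ^ (8 / (4 * (d : ℝ) + 2)) ≤ X / c := by rw [le_div_iff₀ hc]; linarith
  refine le_trans ?_ (pow_le_pow_left₀ (by positivity) h1 d)
  rw [← Real.rpow_natCast, ← Real.rpow_mul (by linarith)]
  have := Real.rpow_le_rpow_of_exponent_le he (show (1 : ℝ) ≤ 8 / (4 * (d : ℝ) + 2) * d by
    rw [div_mul_eq_mul_div, one_le_div (by linarith)]; linarith)
  rwa [Real.rpow_one] at this

theorem term_le {g₁ g₂ e w c₁ c y Z : ℝ} (hg : 0 ≤ g₁) (hg1 : g₁ ≤ 1) (he : 1 ≤ e) (hw1 : w ≤ 1) (hc₁ : 0 < c₁)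
    (hc : 0 < c) (hy : 0 < y) (hy1 : y ≤ 1) (hZ : 0 ≤ Z) (hw : c * y ≤ w) (h : e ^ (-(g₂ - g₁)) ≤ Z * y ^ 8) :
    (e / w ^ 2) ^ g₁ / w ^ 2 / (c₁ * e ^ g₂) ≤ (c₁ * c ^ 4)⁻¹ * Z * y := by
  have hw0 : 0 < w := lt_of_lt_of_le (by positivity) hw
  have he0 : 0 < e := by linarith
  have a1 : (e / w ^ 2) ^ g₁ ≤ e ^ g₁ / w ^ 2 := by
    rw [Real.div_rpow he0.le (by positivity)]
    have := Real.rpow_le_rpow_of_exponent_ge (show 0 < w ^ 2 by positivity) (pow_le_one₀ hw0.le hw1) hg1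
    rw [Real.rpow_one] at this
    gcongr
  have a2 : e ^ g₁ = e ^ (-(g₂ - g₁)) * e ^ g₂ := by
    rw [← Real.rpow_add he0]; congr 1; ring
  have a3 : y ^ 4 ≤ y := pow_le_of_le_one hy.le hy1 (by norm_num)
  have a4 : 0 < e ^ g₂ := by positivity
  calc (e / w ^ 2) ^ g₁ / w ^ 2 / (c₁ * e ^ g₂) ≤ e ^ g₁ / w ^ 2 / w ^ 2 / (c₁ * e ^ g₂) := by gcongr
    _ = e ^ (-(g₂ - g₁)) / (c₁ * w ^ 4) := by rw [a2]; field_simp
    _ ≤ Z * y ^ 8 / (c₁ * (c * y) ^ 4) := by gcongr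
    _ = (c₁ * c ^ 4)⁻¹ * Z * y ^ 4 := by field_simp
    _ ≤ _ := by gcongr

end SumP

open SumP in
theorem sum_ (d : ℕ) (hd : 2 ≤ d) : SUM d := by
  classical
  have hd' : (2 : ℝ) ≤ d := by exact_mod_cast hd
  obtain ⟨g₁, hg₁⟩ : ∃ g : ℝ, g = 8 / (4 * (d : ℝ) + 3) := ⟨_, rfl⟩
  obtain ⟨g₂, hg₂⟩ : ∃ g : ℝ, g = 8 / (4 * (d : ℝ) + 2) := ⟨_, rfl⟩
  have p1 : 0 ≤ g₁ := by rw [hg₁]; positivity
  have p2 : g₁ ≤ 1 := by rw [hg₁, div_le_one (by linarith)]; linarith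
  have p3 : 0 < g₂ - g₁ := by
    rw [hg₁, hg₂, sub_pos]
    exact div_lt_div_of_pos_left (by norm_num) (by linarith) (by linarith)
  have p4 : g₂ - g₁ ≤ 1 / 2 := by
    rw [hg₁, hg₂, div_sub_div _ _ (by positivity) (by positivity), div_le_iff₀ (by positivity)]
    nlinarith
  refine ⟨g₂ - g₁, p3, p4, fun c₃ C₀ hc₃ hC₀ => ?_⟩
  obtain ⟨q, hq⟩ : ∃ q : ℝ, q = (2 : ℝ) ^ (-(g₂ - g₁) / 16) := ⟨_, rfl⟩
  have q0 : 0 < q := by rw [hq]; positivity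
  have q1 : q < 1 := by rw [hq]; exact Real.rpow_lt_one_of_one_lt_of_neg (by norm_num) (by linarith)
  obtain ⟨b, hb⟩ : ∃ b : ℝ, b = min 1 (c₃ / 2) := ⟨_, rfl⟩
  have b0 : 0 < b := by rw [hb]; positivity
  have b1 : b ≤ 1 := by rw [hb]; exact min_le_left _ _
  have b2 : 2 * b ≤ c₃ := by have : b ≤ c₃ / 2 := by rw [hb]; exact min_le_right _ _
                             linarith
  have b3 : b ^ 2 ≤ 1 := pow_le_one₀ b0.le b1
  have hq' : 0 < 1 - q := by linarith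
  obtain ⟨c, hc⟩ : ∃ c : ℝ, c = (1 - q) ^ 2 / 2 := ⟨_, rfl⟩
  have c0 : 0 < c := by rw [hc]; positivity
  have c1 : c ≤ 1 := by rw [hc]; nlinarith
  obtain ⟨Ca, hCa⟩ : ∃ x : ℝ, x = 4 * C₀ / (b ^ 2) ^ d := ⟨_, rfl⟩
  obtain ⟨Cb, hCb⟩ : ∃ x : ℝ, x = (b ^ 2 * c ^ 4)⁻¹ * ((1 - q) ^ 2)⁻¹ := ⟨_, rfl⟩
  have a0 : 0 ≤ Ca := by rw [hCa]; positivity
  have a1 : 0 ≤ Cb := by rw [hCb]; positivity
  refine ⟨Ca + Cb + 4, by linarith, fun n z X m₀ ℓ hn hz hX hm hℓ => ?_⟩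
  have hn' : (1 : ℝ) ≤ n := by exact_mod_cast hn
  obtain ⟨w, hw⟩ : ∃ w : ℕ → ℕ → ℝ, w = fun i j => max (c * q ^ (i + j)) (1 / (2 * (n : ℝ) ^ 2)) := ⟨_, rfl⟩
  have y0 : ∀ k : ℕ, 0 < q ^ k := fun k => by positivity
  have y1 : ∀ k : ℕ, q ^ k ≤ 1 := fun k => pow_le_one₀ q0.le q1.le
  have n2 : (1 : ℝ) ≤ (n : ℝ) ^ 2 := one_le_pow₀ hn'
  have w1 : ∀ i j, 1 / (2 * (n : ℝ) ^ 2) ≤ w i j := fun i j => by rw [hw]; exact le_max_right _ _
  have w2 : ∀ i j, c * q ^ (i + j) ≤ w i j := fun i j => by rw [hw]; exact le_max_left _ _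
  have w3 : ∀ i j, w i j ≤ 1 := fun i j => by
    rw [hw]
    refine max_le (mul_le_one₀ c1 (y0 _).le (y1 _)) ?_
    rw [div_le_one (by positivity)]; linarith
  have w0 : ∀ i j, 0 < w i j := fun i j => lt_of_lt_of_le (by positivity) (w1 i j)
  have w4 : ∀ i j, (w i j ^ 2)⁻¹ ≤ 4 * (n : ℝ) ^ 4 := fun i j => by
    calc (w i j ^ 2)⁻¹ ≤ ((1 / (2 * (n : ℝ) ^ 2)) ^ 2)⁻¹ := by gcongr; exact w1 i j
      _ = _ := by field_simp; norm_num
  have e1 := one_le_ee hz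
  have e0 : ∀ i j, 0 < ee z i j := fun i j => by linarith [e1 i j]
  refine ⟨w, fun i j => if X ≤ b ^ 2 * ee z i j ^ g₂ then m₀ else (ee z i j / w i j ^ 2) ^ g₁,
    fun i j => min (b ^ 2 * ee z i j ^ g₂) X, fun i j => ⟨w1 i j, w3 i j, ?_, ?_⟩, fun i j => ⟨?_, min_le_right _ _, ?_⟩,
    ?_, ?_⟩
  · have := e0 i j
    beta_reduce
    split_ifs
    · exact hm
    · positivity
  · beta_reduce
    split_ifs with h
    · exact Or.inl le_rfl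
    · refine Or.inr ⟨le_trans ?_ hℓ, by rw [hg₁]⟩
      have f1 := ee_le hd (show 0 < b ^ 2 by positivity) b3 (e1 i j) hX (by rw [← hg₂]; exact (not_le.1 h).le)
      have f2 := w4 i j
      calc C₀ * ee z i j / w i j ^ 2 = C₀ * ee z i j * (w i j ^ 2)⁻¹ := div_eq_mul_inv _ _
        _ ≤ C₀ * (X ^ d / (b ^ 2) ^ d) * (4 * (n : ℝ) ^ 4) := by gcongr
        _ = Ca * n ^ 4 * X ^ d := by rw [hCa]; ring
        _ ≤ _ := by gcongr; linarith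
  · have := e0 i j
    exact lt_min (by positivity) (by linarith)
  · have := e0 i j
    refine (kw_le hd b0 b1 (e1 i j) (lt_min (by positivity) (by linarith)) (by rw [← hg₂]; exact min_le_left _ _)).trans ?_
    gcongr
  · calc ∑ i ∈ range n, ∑ j ∈ range n, w i j
        ≤ ∑ i ∈ range n, ∑ j ∈ range n, (c * q ^ (i + j) + 1 / (2 * (n : ℝ) ^ 2)) := by
          refine sum_le_sum fun i _ => sum_le_sum fun j _ => ?_
          rw [hw]
          exact max_le_add_of_nonneg (by positivity) (by positivity)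
      _ = c * ∑ i ∈ range n, ∑ j ∈ range n, q ^ (i + j) + 1 / 2 := by
          simp only [sum_add_distrib, ← mul_sum, sum_const, card_range, nsmul_eq_mul]
          field_simp
      _ ≤ c * ((1 - q) ^ 2)⁻¹ + 1 / 2 := by gcongr; exact geo q0.le q1 n
      _ = 1 := by rw [hc]; field_simp; norm_num
  · have hZ : 0 ≤ z⁻¹ ^ (g₂ - g₁) := by positivity
    have hX0 : 0 < X := by linarith
    calc ∑ i ∈ range n, ∑ j ∈ range n, (if X ≤ b ^ 2 * ee z i j ^ g₂ then m₀ else (ee z i j / w i j ^ 2) ^ g₁) /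
            w i j ^ 2 / min (b ^ 2 * ee z i j ^ g₂) X
        ≤ ∑ i ∈ range n, ∑ j ∈ range n,
            ((b ^ 2 * c ^ 4)⁻¹ * z⁻¹ ^ (g₂ - g₁) * q ^ (i + j) + 4 * (n : ℝ) ^ 4 * m₀ / X) := by
          refine sum_le_sum fun i _ => sum_le_sum fun j _ => ?_
          split_ifs with h
          · rw [min_eq_right h]
            refine le_add_of_nonneg_of_le (by positivity) ?_
            have f2 := w4 i j
            rw [div_eq_mul_inv m₀, mul_comm m₀]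
            gcongr
          · rw [min_eq_left (not_le.1 h).le]
            refine le_add_of_le_of_nonneg ?_ (by positivity)
            exact term_le p1 p2 (e1 i j) (w3 i j) (by positivity) c0 (y0 _) (y1 _) hZ (w2 i j)
              (by rw [hq]; exact ee_pow hz p3.le i j)
      _ = (b ^ 2 * c ^ 4)⁻¹ * z⁻¹ ^ (g₂ - g₁) * ∑ i ∈ range n, ∑ j ∈ range n, q ^ (i + j) +
            4 * ((n : ℝ) ^ 6 * m₀ / X) := by
          simp only [sum_add_distrib, ← mul_sum, sum_const, card_range, nsmul_eq_mul]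
          ring
      _ ≤ (b ^ 2 * c ^ 4)⁻¹ * z⁻¹ ^ (g₂ - g₁) * ((1 - q) ^ 2)⁻¹ + 4 * ((n : ℝ) ^ 6 * m₀ / X) := by
          gcongr; exact geo q0.le q1 n
      _ = Cb * z⁻¹ ^ (g₂ - g₁) + 4 * ((n : ℝ) ^ 6 * m₀ / X) := by rw [hCb]; ring
      _ ≤ _ := by
          have : 0 ≤ (n : ℝ) ^ 6 * m₀ / X := by positivity
          nlinarith

end Vale.Agent.P076N.KEY
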