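import Vale.Agent.P076N.KEY.Sc
import Vale.Agent.P076.H791.Basic

/-!
# P076N / KEY : row T4X, few smooth caps
-/

set_option linter.all false

open MeasureTheory Finset

namespace Vale.Agent.P076N.KEY

open Vale.Agent.P076 Vale.Agent.P076N Vale.Agent.P076.H791

noncomputable section

variable {d : ℕ}

namespace T4P

def sh (ρ : ℝ) (b : Bool) : ℝ := if b then ρ / 2 else 0

theorem sh_bd {ρ : ℝ} (hρ : 0 < ρ) (b : Bool) : 0 ≤ sh ρ b ∧ sh ρ b ≤ ρ := by
  unfold sh
  split_ifs <;> constructor <;> linarith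

theorem deep1 {ρ : ℝ} (hρ : 0 < ρ) (x : ℝ) :
    ∃ b : Bool, ∀ x', |x' - (x + sh ρ b)| ≤ ρ / 4 → ⌊x' / ρ⌋ = ⌊(x + sh ρ b) / ρ⌋ := by
  have key : ∀ y x' : ℝ, ∀ k : ℤ, (k : ℝ) + 1 / 4 ≤ y / ρ → y / ρ < k + 3 / 4 → |x' - y| ≤ ρ / 4 →
      ⌊x' / ρ⌋ = ⌊y / ρ⌋ := by
    intro y x' k h1 h2 h3
    have h4 := abs_le.1 h3
    have h5 : x' / ρ = y / ρ + (x' - y) / ρ := by ring
    have h6 : -(1 / 4) ≤ (x' - y) / ρ := by rw [le_div_iff₀ hρ]; linarith
    have h7 : (x' - y) / ρ ≤ 1 / 4 := by rw [div_le_iff₀ hρ]; linarith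
    have a : ⌊x' / ρ⌋ = k := Int.floor_eq_iff.2 ⟨by linarith, by linarith⟩
    have b : ⌊y / ρ⌋ = k := Int.floor_eq_iff.2 ⟨by linarith, by linarith⟩
    rw [a, b]
  have f1 := Int.floor_le (x / ρ)
  have f2 := Int.lt_floor_add_one (x / ρ)
  have e : (x + ρ / 2) / ρ = x / ρ + 1 / 2 := by field_simp
  by_cases h1 : x / ρ < ⌊x / ρ⌋ + 1 / 4
  · exact ⟨true, fun x' h => key _ x' ⌊x / ρ⌋ (by simp only [sh, if_true, e]; linarith)
      (by simp only [sh, if_true, e]; linarith) h⟩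
  by_cases h2 : x / ρ < ⌊x / ρ⌋ + 3 / 4
  · exact ⟨false, fun x' h => key _ x' ⌊x / ρ⌋ (by simp [sh]; linarith) (by simp [sh]; linarith) h⟩
  · exact ⟨true, fun x' h => key _ x' (⌊x / ρ⌋ + 1) (by simp only [sh, if_true, e]; push_cast; linarith)
      (by simp only [sh, if_true, e]; push_cast; linarith) h⟩

def mv (ρ : ℝ) (σ : (Fin d → Bool) × Bool) (p : E d × ℝ) : E d × ℝ :=
  (p.1 + WithLp.toLp 2 fun l => sh ρ (σ.1 l), p.2 + sh ρ σ.2)

theorem mv_inj (ρ : ℝ) (σ : (Fin d → Bool) × Bool) : Function.Injective (mv (d := d) ρ σ) := by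
  intro p q h
  simp only [mv, Prod.mk.injEq, add_left_inj] at h
  exact Prod.ext h.1 h.2

theorem deep {ρ : ℝ} (hρ : 0 < ρ) (p : E d × ℝ) : ∃ σ, ∀ p' : E d × ℝ, ‖p'.1 - (mv ρ σ p).1‖ ≤ ρ / 4 →
    |p'.2 - (mv ρ σ p).2| ≤ ρ / 4 → cub ρ p' = cub ρ (mv ρ σ p) := by
  choose b hb using deep1 hρ
  refine ⟨(fun l => b (p.1 l), b p.2), fun p' h1 h2 => Prod.ext (funext fun l => ?_) (hb _ _ h2)⟩
  exact hb _ _ ((P076T.abs_apply_le (p'.1 - (mv ρ (fun l => b (p.1 l), b p.2) p).1) l).trans h1)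

theorem close {ρ : ℝ} (hρ : 0 < ρ) {x y : ℝ} (h : ⌊x / ρ⌋ = ⌊y / ρ⌋) : |x - y| ≤ ρ := by
  have a1 := Int.floor_le (x / ρ)
  have a2 := Int.lt_floor_add_one (x / ρ)
  have a3 := Int.floor_le (y / ρ)
  have a4 := Int.lt_floor_add_one (y / ρ)
  rw [h] at a1 a2
  have e : x - y = (x / ρ - y / ρ) * ρ := by field_simp
  rw [e, abs_mul, abs_of_pos hρ]
  exact mul_le_of_le_one_left hρ.le (abs_le.2 ⟨by linarith, by linarith⟩)

def cells (T : Finset (Zv d)) : Finset (Zv d) :=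
  T.biUnion fun θ => Fintype.piFinset fun l => ({θ l - 1, θ l} : Finset ℤ)

theorem card_cells (T : Finset (Zv d)) : (#(cells T) : ℝ) ≤ 2 ^ d * #T := by
  have h : #(cells T) ≤ #T * 2 ^ d := by
    refine card_biUnion_le_card_mul _ _ _ fun θ _ => ?_
    rw [Fintype.card_piFinset]
    refine (prod_le_pow_card _ _ 2 fun l _ => card_le_two).trans (by simp)
  rw [mul_comm]
  exact_mod_cast h

theorem cp_cell {ψ : E d → ℝ} (hψ : Prt ψ) {M : ℝ} (hM : 0 < M) {θ : Zv d} {g : E d → ℂ} {η : E d}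
    (h : cp ψ M θ g η ≠ 0) (l : Fin d) : cell M η l = θ l - 1 ∨ cell M η l = θ l := by
  have h1 : ψ (M • (η - ce M θ)) ≠ 0 := by
    intro h0
    apply h
    simp [cp, bp, h0]
  have h2 := hψ.supp _ h1 l
  have e : (M • (η - ce M θ)) l = M * η l - θ l := by
    simp only [ce, toV, PiLp.smul_apply, PiLp.sub_apply, smul_eq_mul]
    field_simp
  rw [e, abs_lt] at h2
  have a1 : θ l - 1 ≤ ⌊M * η l⌋ := Int.le_floor.2 (by push_cast; linarith)
  have a2 : ⌊M * η l⌋ < θ l + 1 := Int.floor_lt.2 (by push_cast; linarith)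
  simp only [cell]
  omega

def par2 (θ : Zv d) : Fin d → Bool := fun l => decide (θ l % 2 = 0)

open Classical in
theorem ind_eq {ψ : E d → ℝ} (hψ : Prt ψ) {M : ℝ} (hM : 0 < M) {T U : Finset (Zv d)} (hT : T ⊆ U) {c : Fin d → Bool}
    (hU : ∀ θ ∈ U, par2 θ = c) (g : E d → ℂ) :
    (fun η => if cell M η ∈ cells T then cs ψ M U g η else 0) = cs ψ M T g := by
  ext η
  unfold cs
  split_ifs with h
  · obtain ⟨θ₀, h0, h1⟩ := mem_biUnion.1 h
    refine (sum_subset hT fun θ hθ hn => ?_).symm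
    by_contra hz
    apply hn
    have : θ = θ₀ := by
      ext l
      have a := cp_cell hψ hM hz l
      have b := Fintype.mem_piFinset.1 h1 l
      have e := congrFun ((hU θ hθ).trans (hU θ₀ (hT h0)).symm) l
      simp only [mem_insert, mem_singleton] at b
      simp only [par2, decide_eq_decide] at e
      omega
    rwa [this]
  · refine (sum_eq_zero fun θ hθ => ?_).symm
    by_contra hz
    exact h (mem_biUnion.2 ⟨θ, hθ, Fintype.mem_piFinset.2 fun l => by
      simpa only [mem_insert, mem_singleton] using cp_cell hψ hM hz l⟩)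

open Classical in
theorem wg_mv {B ℓ : ℝ} {A A' : Finset (E d × ℝ)} (h : WG B ℓ A) (hA : A' ⊆ A) (ρ : ℝ) (σ : (Fin d → Bool) × Bool) :
    WG (2 * B) (2 * ℓ) (A'.image (mv ρ σ)) := by
  intro y s
  set v : E d := WithLp.toLp 2 fun l => sh ρ (σ.1 l) with hv
  have h1 := h (y - v) (s - sh ρ σ.2 - ℓ)
  have h2 := h (y - v) (s - sh ρ σ.2 + ℓ)
  have hs : (A'.image (mv ρ σ)).filter (fun p => ‖p.1 - y‖ ≤ 1 ∧ |p.2 - s| ≤ 2 * ℓ) ⊆
      ((A.filter fun p => ‖p.1 - (y - v)‖ ≤ 1 ∧ |p.2 - (s - sh ρ σ.2 - ℓ)| ≤ ℓ) ∪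
        (A.filter fun p => ‖p.1 - (y - v)‖ ≤ 1 ∧ |p.2 - (s - sh ρ σ.2 + ℓ)| ≤ ℓ)).image (mv ρ σ) := by
    intro q hq
    obtain ⟨hq1, hq2, hq3⟩ := mem_filter.1 hq
    obtain ⟨p, hp, rfl⟩ := mem_image.1 hq1
    refine mem_image_of_mem _ ?_
    have e : p.1 - (y - v) = (mv ρ σ p).1 - y := by simp only [mv, hv]; abel
    have a := abs_le.1 hq3
    simp only [mv] at a
    rw [mem_union, mem_filter, mem_filter, e]
    by_cases hc : p.2 ≤ s - sh ρ σ.2
    · exact .inl ⟨hA hp, hq2, abs_le.2 ⟨by linarith, by linarith⟩⟩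
    · exact .inr ⟨hA hp, hq2, abs_le.2 ⟨by linarith, by linarith⟩⟩
  have h3 := (card_le_card hs).trans (card_image_le.trans (card_union_le _ _))
  have h4 := (Nat.cast_le (α := ℝ)).2 h3
  rw [Nat.cast_add] at h4
  linarith

def tr (ρ : ℝ) (σ : (Fin d → Bool) × Bool) (G : E d → ℂ) : E d → ℂ :=
  trl (WithLp.toLp 2 fun l => sh ρ (σ.1 l)) (sft (-sh ρ σ.2) G)

theorem uu_tr (ρ : ℝ) (σ : (Fin d → Bool) × Bool) (G : E d → ℂ) (p : E d × ℝ) : Uu (tr ρ σ G) (mv ρ σ p) = Uu G p := by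
  simp only [Uu, tr, mv, evo_trl, evo_sft, add_sub_cancel_right, add_neg_cancel_right]

theorem norm_tr (ρ : ℝ) (σ : (Fin d → Bool) × Bool) (G : E d → ℂ) (η : E d) : ‖tr ρ σ G η‖ = ‖G η‖ := by
  rw [tr, norm_trl, norm_sft]

theorem bd_tr (ρ : ℝ) (σ : (Fin d → Bool) × Bool) {G : E d → ℂ} (h : Bd 3 G) : Bd 4 (tr ρ σ G) := by
  refine ⟨?_, ?_, fun η hη => (h.supp η fun h0 => hη ?_).trans (by norm_num)⟩
  · have := h.meas
    unfold tr trl sft
    fun_prop
  · simpa only [norm_tr] using h.bdd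
  · rw [← norm_eq_zero, norm_tr, h0, norm_zero]

theorem pig {ι : Type} [Fintype ι] [Nonempty ι] (f : ι → ℂ) {α : ℝ} (h : α ≤ ‖∑ i, f i‖) :
    ∃ i, α / Fintype.card ι ≤ ‖f i‖ := by
  by_contra hc
  push Not at hc
  have h1 := sum_lt_sum_of_nonempty univ_nonempty fun i (_ : i ∈ univ) => hc i
  have h2 : (0 : ℝ) < Fintype.card ι := by exact_mod_cast Fintype.card_pos
  rw [sum_const, card_univ, nsmul_eq_mul, mul_div_cancel₀ _ h2.ne'] at h1
  linarith [norm_sum_le univ f]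

end T4P

open T4P in
theorem t4x (d : ℕ) (hd : 2 ≤ d) : T4X d := by
  classical
  intro hb h4
  have hθ : (0 : ℝ) < 1 / (1300 * ((d : ℝ) + 2)) := by positivity
  have hθ1 : 1 / (1300 * ((d : ℝ) + 2)) ≤ 1 := by
    rw [div_le_one (by positivity)]
    have : (0 : ℝ) ≤ d := Nat.cast_nonneg d
    linarith
  obtain ⟨κ, hκ, h4⟩ := h4 _ _ hθ (half_pos hθ)
  refine ⟨κ, hκ, fun ψ B hψ => ?_⟩
  obtain ⟨C, h4⟩ := h4 (2 * B)
  refine ⟨2 ^ (2 * d + 1) * (4 * 4 ^ d * max C 0), 4 ^ (d + 1), by positivity, ?_⟩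
  intro S g A α Sf hw hg hα hW hA hS
  have hM := S.M_pos
  have hl := S.l_pos d
  have hw0 := S.w_pos
  have hd1 : (d : ℝ) + 1 ≤ S.w := by
    refine le_trans ?_ hw
    have : d + 1 < 4 ^ (d + 1) := Nat.lt_pow_self (by norm_num)
    exact_mod_cast this.le
  obtain ⟨hcp, hcs, -⟩ := hb.2.2.2.1 ψ 3 S.M g hψ hM hg
  have hen : 0 ≤ en g := (hb.1 3 g hg).2.2.1
  set ρ : ℝ := S.rb / (d + 1) with hρ
  have hρ0 : 0 < ρ := div_pos S.rb_pos (by positivity)
  have hρ1 : ((d : ℝ) + 1) * ρ = S.rb := mul_div_cancel₀ _ (by positivity)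
  have hd0 : (0 : ℝ) < d := by exact_mod_cast (by omega : 0 < d)
  choose σ hσ using deep (d := d) hρ0
  have hcol : ∀ p ∈ A, ∃ c : Fin d → Bool, α / 2 ^ d ≤ ‖Uu (cs ψ S.M ((Sf p).filter (par2 · = c)) g) p‖ := by
    intro p hp
    have h1 := (hA p hp).2.2.2
    rw [(hcs _).2.2.2, ← sum_fiberwise (Sf p) par2] at h1
    obtain ⟨c, hc⟩ := pig _ h1
    refine ⟨c, ?_⟩
    rw [(hcs _).2.2.2]
    simpa using hc
  choose! col hcol using hcol
  have hxb := S.xb_nonneg κ g α hen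
  have main : ∀ u : ((Fin d → Bool) × Bool) × (Fin d → Bool),
      (#(A.filter fun p => (σ p, col p) = u) : ℝ) ≤ 4 * 4 ^ d * max C 0 * S.xb κ g α := by
    rintro ⟨s, c⟩
    set A₁ := A.filter fun p => (σ p, col p) = (s, c) with hA₁
    have hsub : A₁ ⊆ A := filter_subset _ _
    have hcl : ∀ p ∈ A₁, σ p = s ∧ col p = c := fun p hp => by simpa using (mem_filter.1 hp).2
    set U := (A.biUnion Sf).filter (par2 · = c) with hU
    set Sq : (Fin d → ℤ) × ℤ → Finset (Zv d) := fun q =>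
      if h : ∃ p ∈ A₁, cub ρ (mv ρ s p) = q then cells ((Sf h.choose).filter (par2 · = c)) else ∅ with hSq
    have e2 : (2 * S.l d) ^ (1 / (1300 * ((d : ℝ) + 2))) ≤ 2 * S.w := by
      rw [Real.mul_rpow (by norm_num) hl.le, S.l_rpow_w]
      refine mul_le_mul_of_nonneg_right ?_ hw0.le
      simpa using Real.rpow_le_rpow_of_exponent_le (by norm_num : (1 : ℝ) ≤ 2) hθ1
    have k := h4 (2 * S.l d) ρ S.jM (tr ρ s (cs ψ S.M U g)) (A₁.image (mv ρ s)) (α / 2 ^ d) Sq
      (by linarith [S.one_le_l d]) (by positivity) (bd_tr ρ s (hcs U).1) (wg_mv hW hsub ρ s)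
      (e2.trans ((by simpa using S.mul_pw_le S.two (show 1 + 1 ≤ 400 by norm_num) : 2 * S.w ≤ S.w ^ 400).trans S.M1))
      ?_ ?_ ?_ ?_
    · rw [card_image_of_injective _ (mv_inj ρ s)] at k
      have e1 : en (tr ρ s (cs ψ S.M U g)) ≤ en g := by
        refine le_trans (le_of_eq ?_) (hcs U).2.1
        simp only [en, norm_tr]
      have e3 : (2 * S.l d) ^ (2 * ((d : ℝ) + 1) / (d + 2) - κ) ≤ 4 * S.l d ^ (2 * ((d : ℝ) + 1) / (d + 2) - κ) := by
        rw [Real.mul_rpow (by norm_num) hl.le]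
        refine mul_le_mul_of_nonneg_right ?_ (by positivity)
        have : 2 * ((d : ℝ) + 1) / (d + 2) ≤ 2 := by rw [div_le_iff₀ (by positivity)]; linarith
        refine (Real.rpow_le_rpow_of_exponent_le (by norm_num) (by linarith : _ ≤ (2 : ℝ))).trans (by norm_num)
      have e4 : 0 ≤ en (tr ρ s (cs ψ S.M U g)) := integral_nonneg fun _ => by positivity
      have k2 : (α / 2 ^ d) ^ 2 * #A₁ ≤ max C 0 * (4 * S.l d ^ (2 * ((d : ℝ) + 1) / (d + 2) - κ)) * en g :=
        k.trans (mul_le_mul (mul_le_mul (le_max_left _ _) e3 (by positivity) (le_max_right _ _)) e1 e4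
          (by positivity))
      have e5 : (α / 2 ^ d) ^ 2 = α ^ 2 / 4 ^ d := by
        rw [div_pow, ← pow_mul, mul_comm d 2, pow_mul]; norm_num
      rw [e5, div_mul_eq_mul_div, div_le_iff₀ (by positivity)] at k2
      unfold Sc.xb
      rw [← mul_div_assoc, ← mul_div_assoc, le_div_iff₀ (by positivity)]
      linarith
    · refine le_trans ?_ (Real.rpow_le_rpow hl.le (by linarith : S.l d ≤ 2 * S.l d) (by positivity))
      rw [S.l_rpow]
      have : 1300 * ((d : ℝ) + 2) * (1 / (2 * ((d : ℝ) + 2))) = ((650 : ℕ) : ℝ) := by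
        push_cast
        field_simp
        norm_num
      rw [this, Real.rpow_natCast]
      exact S.M_le.trans (S.pw_le (by norm_num))
    · refine S.M3_le.trans ?_
      rw [hρ, le_div_iff₀ (by positivity), mul_comm]
      exact S.mul_pw_le hd1 (by norm_num)
    · intro q
      have hb0 : 0 < (2 * S.l d) ^ (1 / (1300 * ((d : ℝ) + 2)) / 2) := by positivity
      simp only [hSq]
      split_ifs with h
      · have h1 := (hA _ (hsub h.choose_spec.1)).2.2.1
        have h2 : (#((Sf h.choose).filter (par2 · = c)) : ℝ) ≤ #(Sf h.choose) := Nat.cast_le.2 (card_filter_le _ _)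
        have h3 : (2 * S.l d) ^ (1 / (1300 * ((d : ℝ) + 2)) / 2) * 2 ^ d ≤ S.w := by
          refine abs_le_of_sq_le_sq' ?_ hw0.le |>.2
          rw [mul_pow, ← Real.rpow_natCast _ 2, ← Real.rpow_mul (by positivity)]
          have : 1 / (1300 * ((d : ℝ) + 2)) / 2 * ((2 : ℕ) : ℝ) = 1 / (1300 * ((d : ℝ) + 2)) := by push_cast; ring
          rw [this, ← pow_mul, mul_comm d 2, pow_mul]
          have h5 : (4 : ℝ) ^ (d + 1) = 4 * (2 ^ 2) ^ d := by rw [pow_succ]; norm_num [mul_comm]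
          have h6 : (0 : ℝ) < (2 ^ 2) ^ d := by positivity
          have h7 := mul_le_mul_of_nonneg_right e2 h6.le
          rw [h5] at hw
          refine h7.trans ?_
          generalize ((2 : ℝ) ^ 2) ^ d = Z at hw h6 ⊢
          nlinarith [mul_le_mul_of_nonneg_left hw hw0.le, mul_pos hw0 h6]
        rw [Real.rpow_neg (by positivity), ← div_eq_inv_mul, le_div_iff₀ hb0]
        refine le_trans ?_ h1
        calc _ ≤ 2 ^ d * #(Sf h.choose) * (2 * S.l d) ^ (1 / (1300 * ((d : ℝ) + 2)) / 2) :=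
              mul_le_mul_of_nonneg_right ((card_cells _).trans (by gcongr)) hb0.le
          _ = #(Sf h.choose) * ((2 * S.l d) ^ (1 / (1300 * ((d : ℝ) + 2)) / 2) * 2 ^ d) := by ring
          _ ≤ _ := mul_le_mul_of_nonneg_left h3 (by positivity)
      · simp only [card_empty, Nat.cast_zero]
        positivity
    · intro p' hp'
      obtain ⟨p, hp, rfl⟩ := mem_image.1 hp'
      obtain ⟨t0, t1, -, -⟩ := hA p (hsub hp)
      obtain ⟨b0, b1⟩ := sh_bd hρ0 s.2
      have hρl : ρ ≤ S.l d := by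
        have : S.rb ≤ S.l d := S.pw_le (by omega)
        nlinarith
      refine ⟨by simp only [mv]; linarith, by simp only [mv]; nlinarith [S.one_le_l d], ?_, ?_⟩
      · have := hσ p
        rwa [(hcl p hp).1] at this
      · have hex : ∃ p₁ ∈ A₁, cub ρ (mv ρ s p₁) = cub ρ (mv ρ s p) := ⟨p, hp, rfl⟩
        have h1 := hex.choose_spec
        have h2 : Sf p = Sf hex.choose := by
          refine hS p (hsub hp) _ (hsub h1.1) ?_ ?_
          · have := P076T.norm_le_mul (v := hex.choose.1 - p.1) (r := ρ) fun l => by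
              have := close hρ0 (congrFun (congrArg Prod.fst h1.2) l)
              simpa [mv] using this
            linarith
          · have h7 : |hex.choose.2 - p.2| ≤ ρ := by
              have := close hρ0 (congrArg Prod.snd h1.2)
              simpa [mv] using this
            nlinarith [mul_pos hd0 hρ0]
        have h3 : Sq (cub ρ (mv ρ s p)) = cells ((Sf p).filter (par2 · = c)) := by
          simp only [hSq]
          rw [dif_pos hex, ← h2]
        have h5 : (fun η => if cell (2 ^ S.jM) η ∈ Sq (cub ρ (mv ρ s p)) then tr ρ s (cs ψ S.M U g) η else 0) =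
            tr ρ s (cs ψ S.M ((Sf p).filter (par2 · = c)) g) := by
          rw [h3, ← ind_eq hψ hM (T := (Sf p).filter (par2 · = c)) (U := U) (c := c)
            (filter_subset_filter _ (subset_biUnion_of_mem Sf (hsub hp))) (fun θ h => (mem_filter.1 h).2) g]
          ext η
          by_cases hc : cell S.M η ∈ cells ((Sf p).filter (par2 · = c))
          · have hc' : cell (2 ^ S.jM) η ∈ cells ((Sf p).filter (par2 · = c)) := hc
            simp only [tr, trl, sft, if_pos hc, if_pos hc']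
          · have hc' : ¬ cell (2 ^ S.jM) η ∈ cells ((Sf p).filter (par2 · = c)) := hc
            simp only [tr, trl, sft, if_neg hc, if_neg hc', mul_zero]
        have h6 := hcol p (hsub hp)
        rw [(hcl p hp).2, ← uu_tr ρ s, ← h5] at h6
        convert h6
  rw [card_eq_sum_card_fiberwise (f := fun p => (σ p, col p)) (t := univ) (fun _ _ => mem_univ _), Nat.cast_sum]
  refine (sum_le_card_nsmul _ _ _ fun u _ => main u).trans (le_of_eq ?_)
  simp only [card_univ, Fintype.card_prod, Fintype.card_pi, Fintype.card_bool, prod_const, Fintype.card_fin,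
    nsmul_eq_mul]
  push_cast
  ring

end

end Vale.Agent.P076N.KEY
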