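import Vale.Agent.P076N.KEY.Spec1
import Vale.Agent.P076T.Dir

/-!
# P076N / KEY : row TL (tails and sup bounds for `cut`)
-/

set_option linter.all false

open MeasureTheory Finset
open scoped RealInnerProductSpace

namespace Vale.Agent.P076N.KEY

open Vale.Agent.P076 Vale.Agent.P076N Vale.Agent.P076T

noncomputable section

variable {d : ℕ}

namespace Tl

/-- weighted Cauchy-Schwarz -/
theorem wcs {α : Type*} [MeasurableSpace α] {μ : Measure α} {w u : α → ℝ} (h0 : ∀ y, 0 ≤ w y)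
    (h1 : Integrable w μ) (h2 : Integrable (fun y => w y * u y) μ) (h3 : Integrable (fun y => w y * u y ^ 2) μ) :
    (∫ y, w y * u y ∂μ) ^ 2 ≤ (∫ y, w y ∂μ) * ∫ y, w y * u y ^ 2 ∂μ := by
  have h : ∀ t : ℝ, 0 ≤ (∫ y, w y ∂μ) * (t * t) + (-2 * ∫ y, w y * u y ∂μ) * t + ∫ y, w y * u y ^ 2 ∂μ := by
    intro t
    have e : (∫ y, w y ∂μ) * (t * t) + (-2 * ∫ y, w y * u y ∂μ) * t + ∫ y, w y * u y ^ 2 ∂μ =
        ∫ y, (w y * (t * t) + (-2 * t) * (w y * u y) + w y * u y ^ 2) ∂μ := by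
      have i1 : Integrable (fun y => w y * (t * t) + (-2 * t) * (w y * u y)) μ :=
        (h1.mul_const _).add (h2.const_mul _)
      rw [integral_add i1 h3, integral_add (h1.mul_const _) (h2.const_mul _), integral_mul_const, integral_const_mul]
      ring
    rw [e]
    refine integral_nonneg fun y => ?_
    have : w y * (t * t) + (-2 * t) * (w y * u y) + w y * u y ^ 2 = w y * (t - u y) ^ 2 := by ring
    simp only [Pi.zero_apply]
    rw [this]
    exact mul_nonneg (h0 y) (sq_nonneg _)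
  have := discrim_le_zero h
  unfold discrim at this
  nlinarith

theorem bp_int {a : E d → ℝ} (ha : Smo a) {L : ℝ} (hL : 0 < L) (c : E d) : Integrable (bp a L c) := by
  have h1 : Integrable a := ha.cd.continuous.integrable_of_hasCompactSupport ha.cs
  exact ((h1.comp_smul hL.ne').comp_sub_right c).ofReal

theorem wE_out {N : ℕ} {Λ m : ℝ} (hΛ : 0 < Λ) (hm : 1 ≤ m) {v : E d} (hv : m * Λ ≤ ‖v‖) :
    wE N Λ v ≤ (m ^ N)⁻¹ := by
  unfold wE
  have h1 : m ≤ 1 + ‖v‖ / Λ := by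
    have : m ≤ ‖v‖ / Λ := (le_div_iff₀ hΛ).2 hv
    linarith
  rw [Real.rpow_neg (by positivity), Real.rpow_natCast]
  exact inv_anti₀ (by positivity) (pow_le_pow_left₀ (by linarith) h1 N)

theorem disp {L s : ℝ} (hL : 0 < L) (d : ℕ) :
    ((1 + |s| / L ^ 2) ^ (-(d : ℝ) / 2)) ^ 2 * (L + |s| / L) ^ d = L ^ d := by
  have h0 : 0 < 1 + |s| / L ^ 2 := by positivity
  have e1 : L + |s| / L = L * (1 + |s| / L ^ 2) := by field_simp
  have e2 : ((1 + |s| / L ^ 2) ^ (-(d : ℝ) / 2)) ^ 2 = ((1 + |s| / L ^ 2) ^ d)⁻¹ := by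
    rw [sq ((1 + |s| / L ^ 2) ^ (-(d : ℝ) / 2)), ← Real.rpow_add h0, ← Real.rpow_natCast _ d, ← Real.rpow_neg h0.le]
    congr 1
    ring
  rw [e1, e2, mul_pow]
  field_simp

theorem disp_le_one {L s : ℝ} (hL : 0 < L) (d : ℕ) : (1 + |s| / L ^ 2) ^ (-(d : ℝ) / 2) ≤ 1 :=
  Real.rpow_le_one_of_one_le_of_nonpos (le_add_of_nonneg_right (by positivity))
    (by have : (0 : ℝ) ≤ d := Nat.cast_nonneg d; linarith)

end Tl

open Tl in
/-- **[TL]** -/
theorem tl (d : ℕ) : TL d := by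
  intro hB hK hC a ha N
  obtain ⟨C₀, hC₀, hk⟩ := hK a ha (N + (d + 1))
  have hI1 := cI_nonneg d ((d + 1 : ℕ) : ℝ)
  have hI2 := cI_nonneg d ((N + (d + 1) : ℕ) : ℝ)
  refine ⟨C₀ ^ 2 * cI d ((d + 1 : ℕ) : ℝ) + C₀ * 3 ^ d * cI d ((N + (d + 1) : ℕ) : ℝ), by positivity, ?_⟩
  intro L c t₀ R Ω h x t hL hΩ hh
  obtain ⟨-, -, e1, e2⟩ := hC.1 a L c t₀ R Ω h ha hL hΩ hh
  obtain ⟨hi, hc, hen, hpl, -⟩ := hB.1 R h hh
  obtain ⟨hi2, hpl2⟩ := hpl t₀
  rw [e1, e2]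
  set s := t - t₀ with hs
  set Λ := L + |s| / L with hΛ
  have hΛ0 : 0 < Λ := by positivity
  set z := x - (2 * s) • c with hz
  set D := (1 + |s| / L ^ 2) ^ (-(d : ℝ) / 2) with hD
  have hD0 : 0 ≤ D := by positivity
  set κ := C₀ * (L ^ d)⁻¹ * D with hκ
  have hκ0 : 0 ≤ κ := by positivity
  set w : E d → ℝ := fun y => wE ((N + (d + 1) : ℕ) : ℝ) Λ (y - z) with hw
  have hw0 : ∀ y, 0 ≤ w y := fun y => (wE_pos hΛ0 _).le
  have hw1 : ∀ y, w y ≤ 1 := fun y => wE_le_one (Nat.cast_nonneg _) hΛ0 _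
  have hwi : Integrable w := wE_integrable (by push_cast; have : (0 : ℝ) ≤ N := Nat.cast_nonneg N; linarith) hΛ0 z
  have hKw : ∀ y, ‖evo (bp a L c) (x - y) s 0‖ ≤ κ * w y := by
    intro y
    have := hk L c (x - y) s hL
    have e : x - y - (2 * s) • c = z - y := by rw [hz]; abel
    rw [e, wE_sub_comm] at this
    exact this
  have hu : Continuous fun y : E d => Uu h (y, t₀) := hc.comp (by fun_prop)
  have hub : ∀ y, ‖Uu h (y, t₀)‖ ≤ ∫ η, ‖h η‖ := fun y => evo_bd h y t₀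
  have hKc : Continuous fun y : E d => evo (bp a L c) (x - y) s 0 :=
    (evo_cont_x (bp_int ha hL c) s).comp (by fun_prop)
  have hwu : Integrable fun y => w y * ‖Uu h (y, t₀)‖ :=
    hwi.mul_bdd hu.norm.aestronglyMeasurable (c := ∫ η, ‖h η‖)
      (Filter.Eventually.of_forall fun y => by rw [norm_norm]; exact hub y)
  have hle : ∀ y, ‖evo (bp a L c) (x - y) s 0 * Uu h (y, t₀)‖ ≤ κ * (w y * ‖Uu h (y, t₀)‖) := by
    intro y
    rw [norm_mul, ← mul_assoc]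
    exact mul_le_mul_of_nonneg_right (hKw y) (norm_nonneg _)
  have hF : Integrable fun y => evo (bp a L c) (x - y) s 0 * Uu h (y, t₀) :=
    (hwu.const_mul κ).mono' (hKc.mul hu).aestronglyMeasurable (Filter.Eventually.of_forall hle)
  constructor
  · intro m hm hball
    have hm0 : 0 < m := by linarith
    rw [← setIntegral_compl hΩ.1 hF]
    have h1 : ‖∫ y in Ωᶜ, evo (bp a L c) (x - y) s 0 * Uu h (y, t₀)‖ ≤ κ * ∫ y in Ωᶜ, w y * ‖Uu h (y, t₀)‖ := by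
      rw [← integral_const_mul]
      exact norm_integral_le_of_norm_le (hwu.const_mul κ).integrableOn (Filter.Eventually.of_forall hle)
    have hwm : Measurable w := (wE_meas _ _).comp (by fun_prop)
    have hwu2 : Integrable fun y => w y * ‖Uu h (y, t₀)‖ ^ 2 :=
      hi2.bdd_mul hwm.aestronglyMeasurable (c := 1)
        (Filter.Eventually.of_forall fun y => by rw [Real.norm_of_nonneg (hw0 y)]; exact hw1 y)
    have h2 := wcs (μ := volume.restrict Ωᶜ) hw0 hwi.integrableOn hwu.integrableOn hwu2.integrableOn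
    have h3 : ∫ y in Ωᶜ, w y * ‖Uu h (y, t₀)‖ ^ 2 ≤ en h := by
      rw [← hpl2]
      calc ∫ y in Ωᶜ, w y * ‖Uu h (y, t₀)‖ ^ 2 ≤ ∫ y, w y * ‖Uu h (y, t₀)‖ ^ 2 :=
            setIntegral_le_integral hwu2 (Filter.Eventually.of_forall fun y => mul_nonneg (hw0 y) (sq_nonneg _))
        _ ≤ _ := integral_mono hwu2 hi2 fun y => mul_le_of_le_one_left (sq_nonneg _) (hw1 y)
    have hw' : Integrable fun y => wE ((d + 1 : ℕ) : ℝ) Λ (y - z) :=
      wE_integrable (by push_cast; linarith) hΛ0 z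
    have h4 : ∫ y in Ωᶜ, w y ≤ (m ^ N)⁻¹ * (Λ ^ d * cI d ((d + 1 : ℕ) : ℝ)) := by
      rw [← wE_integral hΛ0 z, ← integral_const_mul]
      calc ∫ y in Ωᶜ, w y ≤ ∫ y in Ωᶜ, (m ^ N)⁻¹ * wE ((d + 1 : ℕ) : ℝ) Λ (y - z) := by
            refine setIntegral_mono_on hwi.integrableOn (hw'.const_mul _).integrableOn hΩ.1.compl fun y hy => ?_
            have hy' : m * Λ ≤ ‖y - z‖ := by
              by_contra hlt
              exact hy (hball (by rw [Metric.mem_ball, dist_eq_norm]; exact lt_of_not_ge hlt))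
            simp only [hw]
            rw [Nat.cast_add, wE_add hΛ0]
            exact mul_le_mul_of_nonneg_right (wE_out hΛ0 hm hy') (wE_pos hΛ0 _).le
        _ ≤ _ := setIntegral_le_integral (hw'.const_mul _)
            (Filter.Eventually.of_forall fun y => mul_nonneg (by positivity) (wE_pos hΛ0 _).le)
    have h5 : (∫ y in Ωᶜ, w y * ‖Uu h (y, t₀)‖) ^ 2 ≤ (m ^ N)⁻¹ * (Λ ^ d * cI d ((d + 1 : ℕ) : ℝ)) * en h :=
      h2.trans (mul_le_mul h4 h3 (integral_nonneg fun y => mul_nonneg (hw0 y) (sq_nonneg _)) (by positivity))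
    have h6 : D ^ 2 * Λ ^ d = L ^ d := disp hL d
    calc _ ≤ (κ * ∫ y in Ωᶜ, w y * ‖Uu h (y, t₀)‖) ^ 2 := pow_le_pow_left₀ (norm_nonneg _) h1 2
      _ = κ ^ 2 * (∫ y in Ωᶜ, w y * ‖Uu h (y, t₀)‖) ^ 2 := mul_pow _ _ _
      _ ≤ κ ^ 2 * ((m ^ N)⁻¹ * (Λ ^ d * cI d ((d + 1 : ℕ) : ℝ)) * en h) :=
          mul_le_mul_of_nonneg_left h5 (sq_nonneg _)
      _ = C₀ ^ 2 * cI d ((d + 1 : ℕ) : ℝ) * (m ^ N)⁻¹ * ((L ^ d)⁻¹ ^ 2 * (D ^ 2 * Λ ^ d)) * en h := by
          rw [hκ]; ring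
      _ = C₀ ^ 2 * cI d ((d + 1 : ℕ) : ℝ) * (m ^ N)⁻¹ * (L ^ d)⁻¹ * en h := by
          rw [h6]; field_simp
      _ ≤ _ := by
          have : 0 ≤ C₀ * 3 ^ d * cI d ((N + (d + 1) : ℕ) : ℝ) := by positivity
          gcongr
          linarith
  · intro A hA hs2 hb
    have h1 : ‖∫ y in Ω, evo (bp a L c) (x - y) s 0 * Uu h (y, t₀)‖ ≤ ∫ y in Ω, κ * A * w y := by
      refine norm_integral_le_of_norm_le (hwi.const_mul _).integrableOn ?_
      refine (ae_restrict_iff' hΩ.1).2 (Filter.Eventually.of_forall fun y hy => (hle y).trans ?_)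
      rw [mul_assoc κ A, mul_comm A]
      exact mul_le_mul_of_nonneg_left (mul_le_mul_of_nonneg_left (hb y hy) (hw0 y)) hκ0
    have h2 : ∫ y in Ω, κ * A * w y ≤ κ * A * (Λ ^ d * cI d ((N + (d + 1) : ℕ) : ℝ)) := by
      rw [← wE_integral hΛ0 z, ← integral_const_mul]
      exact setIntegral_le_integral (hwi.const_mul _)
        (Filter.Eventually.of_forall fun y => mul_nonneg (by positivity) (hw0 y))
    have h3 : Λ ≤ 3 * L := by
      have : |s| / L ≤ 2 * L := by rw [div_le_iff₀ hL]; nlinarith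
      linarith
    have h4 : Λ ^ d ≤ 3 ^ d * L ^ d := by rw [← mul_pow]; exact pow_le_pow_left₀ hΛ0.le h3 d
    have h5 : D ≤ 1 := disp_le_one hL d
    calc _ ≤ κ * A * (Λ ^ d * cI d ((N + (d + 1) : ℕ) : ℝ)) := h1.trans h2
      _ ≤ C₀ * (L ^ d)⁻¹ * 1 * A * ((3 ^ d * L ^ d) * cI d ((N + (d + 1) : ℕ) : ℝ)) := by
          rw [hκ]; gcongr
      _ = C₀ * 3 ^ d * cI d ((N + (d + 1) : ℕ) : ℝ) * A := by field_simp
      _ ≤ _ := by
          have : 0 ≤ C₀ ^ 2 * cI d ((d + 1 : ℕ) : ℝ) := by positivity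
          gcongr
          linarith

end

end Vale.Agent.P076N.KEY
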