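import Vale.Agent.P076N.KEY.Spec1

/-!
# P076N / KEY : the row VA1
-/

open MeasureTheory Finset Complex
open scoped RealInnerProductSpace ComplexConjugate

namespace Vale.Agent.P076N.KEY

open Vale.Agent.P076 Vale.Agent.P076N Vale.Agent.P076T

namespace Va1

theorem step (x h : ℝ) (h0 : 0 ≤ h) (h1 : h ≤ 1) :
    Real.exp (-x ^ 2) / 3 * h ≤ Real.arctan (x + h) - Real.arctan x := by
  have := (convex_Icc x (x + h)).mul_sub_le_image_sub_of_le_deriv
    Real.continuous_arctan.continuousOn Real.differentiable_arctan.differentiableOn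
    (C := Real.exp (-x ^ 2) / 3) (fun y hy => by
      rw [interior_Icc] at hy
      rw [Real.deriv_arctan, Real.exp_neg, div_le_div_iff₀ (by norm_num) (by positivity),
        inv_mul_le_iff₀ (Real.exp_pos _)]
      nlinarith [Real.add_one_le_exp (x ^ 2), hy.1, hy.2, sq_nonneg (x - (y - x)),
        mul_nonneg (sub_nonneg.2 hy.1.le) (show 0 ≤ 1 - (y - x) by linarith [hy.2])])
    x ⟨le_rfl, by linarith⟩ (x + h) ⟨by linarith, le_rfl⟩ (by linarith)
  simpa using this

theorem row_pos {a : ℝ} (ha : 0 < a) (b : ℝ) (p q : ℤ) :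
    ∑ j ∈ Icc p q, Real.exp (-(a * j + b) ^ 2) ≤ 12 * (1 + a⁻¹) := by
  have m0 : 0 < min a 1 := lt_min ha one_pos
  let F : ℕ → ℝ := fun i => Real.arctan (a * (p + i) + b)
  have h1 : ∑ j ∈ Icc p q, Real.exp (-(a * j + b) ^ 2) / 3 * min a 1 ≤ 4 := by
    rw [Int.Icc_eq_finset_map, sum_map]
    refine (sum_le_sum (g := fun i => F (i + 1) - F i) fun i _ => ?_).trans ?_
    · have := step (a * (p + i) + b) _ m0.le (min_le_right a 1)
      have := Real.arctan_mono (show a * (p + i) + b + min a 1 ≤ a * (p + (i + 1 : ℕ)) + b by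
        push_cast; linarith [min_le_left a 1])
      simp only [Function.Embedding.trans_apply, Nat.castEmbedding_apply, addLeftEmbedding_apply, F,
        Int.cast_add, Int.cast_natCast]
      linarith
    · rw [sum_range_sub]
      have h1 : F (q + 1 - p).toNat < _ := Real.arctan_lt_pi_div_two _
      have h2 : _ < F 0 := Real.neg_pi_div_two_lt_arctan _
      linarith [Real.pi_le_four]
  rw [← sum_mul, ← sum_div, ← le_div_iff₀ m0, div_le_iff₀ (by norm_num)] at h1
  refine h1.trans ?_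
  have : (min a 1)⁻¹ ≤ 1 + a⁻¹ := by
    rcases le_total a 1 with h | h
    · rw [min_eq_left h]; linarith
    · rw [min_eq_right h]; have := inv_pos.2 ha; linarith [inv_one (G := ℝ)]
  rw [div_eq_mul_inv]; linarith

theorem row {a : ℝ} (ha : a ≠ 0) (b : ℝ) (p q : ℤ) :
    ∑ j ∈ Icc p q, Real.exp (-(a * j + b) ^ 2) ≤ 12 * (1 + |a|⁻¹) := by
  rcases ha.lt_or_gt with h | h
  · rw [abs_of_neg h]
    convert row_pos (neg_pos.2 h) (-b) p q using 4; ring
  · rw [abs_of_pos h]; exact row_pos h b p q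

theorem avg {d : ℕ} (t : Finset ℤ) (l : Fin d) (f : Zv d → ℝ) :
    ∑ θ ∈ Fintype.piFinset fun _ => t, ∑ _j ∈ t, f θ =
      ∑ θ ∈ Fintype.piFinset fun _ => t, ∑ j ∈ t, f (Function.update θ l j) := by
  rw [← sum_product', ← sum_product']
  have hm : ∀ x ∈ (Fintype.piFinset fun _ : Fin d => t) ×ˢ t,
      (Function.update x.1 l x.2, x.1 l) ∈ (Fintype.piFinset fun _ : Fin d => t) ×ˢ t := by
    intro x hx
    simp only [mem_product, Fintype.mem_piFinset] at hx ⊢
    refine ⟨fun i => ?_, hx.1 l⟩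
    rcases eq_or_ne i l with rfl | h
    · simpa using hx.2
    · simpa [h] using hx.1 i
  exact sum_nbij' (fun x => (Function.update x.1 l x.2, x.1 l))
    (fun x => (Function.update x.1 l x.2, x.1 l)) hm hm (by simp) (by simp) (by simp)

theorem gauss {ι : Type} (Θ : Finset ι) (c : ι → ℂ) (ω : ι → ℝ) {s R : ℝ} (hs : 0 < s)
    (hR : ∀ θ ∈ Θ, ∑ θ' ∈ Θ, Real.exp (-(s / 2 * (ω θ' - ω θ)) ^ 2) ≤ R) :
    ∫ σ in Set.Icc (-s) s, ‖∑ θ ∈ Θ, c θ * cexp (-(I * ω θ * σ))‖ ^ 2 ≤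
      6 * s * R * ∑ θ ∈ Θ, ‖c θ‖ ^ 2 := by
  obtain ⟨b, hb⟩ : ∃ b : ℂ, b = (((s ^ 2)⁻¹ : ℝ) : ℂ) := ⟨_, rfl⟩
  have b0 : 0 < b.re := by rw [hb, ofReal_re]; positivity
  let g : ℝ → ℂ := fun σ => ∑ θ ∈ Θ, c θ * cexp (-(I * ω θ * σ))
  let w : ι → ι → ℝ → ℂ := fun θ θ' σ =>
    c θ * conj (c θ') * (cexp (I * (ω θ' - ω θ : ℝ) * σ) * cexp (-b * σ ^ 2))
  have iw : ∀ θ θ', Integrable (w θ θ') := fun θ θ' => by
    refine Integrable.const_mul ?_ _
    refine (integrable_cexp_quadratic b0 (I * (ω θ' - ω θ : ℝ)) 0).congr (.of_forall fun σ => ?_)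
    simp only [← Complex.exp_add]; congr 1; ring
  have iW : Integrable fun σ => ∑ θ ∈ Θ, ∑ θ' ∈ Θ, w θ θ' σ :=
    integrable_finsetSum _ fun θ _ => integrable_finsetSum _ fun θ' _ => iw θ θ'
  have e : ∀ σ : ℝ, Real.exp (-((s ^ 2)⁻¹ * σ ^ 2)) * ‖g σ‖ ^ 2 =
      (∑ θ ∈ Θ, ∑ θ' ∈ Θ, w θ θ' σ).re := fun σ => by
    rw [← ofReal_re (_ * _)]
    congr 1
    push_cast
    rw [← mul_conj', map_sum, sum_mul_sum, mul_sum]
    refine sum_congr rfl fun θ _ => ?_
    rw [mul_sum]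
    refine sum_congr rfl fun θ' _ => ?_
    have : cexp (I * (ω θ' - ω θ : ℝ) * σ) = cexp (-(I * ω θ * σ)) * conj (cexp (-(I * ω θ' * σ))) := by
      rw [← exp_conj, ← Complex.exp_add]; congr 1; simp; ring
    simp only [w, this, hb, map_mul]
    push_cast
    ring_nf
  have gc : Continuous g := by fun_prop
  calc _ ≤ ∫ σ in Set.Icc (-s) s, 3 * (∑ θ ∈ Θ, ∑ θ' ∈ Θ, w θ θ' σ).re := by
        refine setIntegral_mono_on ((gc.norm.pow 2).integrableOn_Icc)
          (iW.re.const_mul 3).integrableOn measurableSet_Icc fun σ hσ => ?_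
        rw [← e, ← mul_assoc]
        refine le_mul_of_one_le_left (by positivity) ?_
        have h1 : (s ^ 2)⁻¹ * σ ^ 2 ≤ 1 := by
          rw [inv_mul_le_iff₀ (by positivity)]; nlinarith [hσ.1, hσ.2]
        rw [Real.exp_neg, ← div_eq_mul_inv, one_le_div (Real.exp_pos _)]
        linarith [Real.exp_le_exp.2 h1, Real.exp_one_lt_d9]
    _ ≤ ∫ σ, 3 * (∑ θ ∈ Θ, ∑ θ' ∈ Θ, w θ θ' σ).re :=
        setIntegral_le_integral (iW.re.const_mul 3) (.of_forall fun σ => by
          simp only [Pi.zero_apply, ← e]; positivity)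
    _ = 3 * (∑ θ ∈ Θ, ∑ θ' ∈ Θ, ∫ σ, w θ θ' σ).re := by
        have := integral_re iW
        simp only [RCLike.re_to_complex] at this
        rw [integral_const_mul, this,
          integral_finsetSum _ fun θ _ => integrable_finsetSum _ fun θ' _ => iw θ θ']
        simp only [integral_finsetSum _ fun θ' _ => iw _ θ']
    _ ≤ 3 * ∑ θ ∈ Θ, ∑ θ' ∈ Θ, s * (‖c θ‖ ^ 2 + ‖c θ'‖ ^ 2) *
          Real.exp (-(s / 2 * (ω θ' - ω θ)) ^ 2) := by
        gcongr
        refine (re_le_norm _).trans ((norm_sum_le _ _).trans (sum_le_sum fun θ _ =>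
          (norm_sum_le _ _).trans (sum_le_sum fun θ' _ => ?_)))
        have e1 : -((ω θ' - ω θ : ℝ) : ℂ) ^ 2 / (4 * b) =
            ((-(s / 2 * (ω θ' - ω θ)) ^ 2 : ℝ) : ℂ) := by
          have : (s : ℂ) ≠ 0 := by exact_mod_cast hs.ne'
          rw [hb]; push_cast; field_simp; ring
        have e2 : ‖((Real.pi : ℂ) / b) ^ (1 / 2 : ℂ)‖ ≤ 2 * s := by
          have : (Real.pi : ℂ) / b = ((Real.pi * s ^ 2 : ℝ) : ℂ) := by
            rw [hb]; push_cast; rw [div_inv_eq_mul]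
          rw [this, norm_cpow_eq_rpow_re_of_pos (by positivity),
            show (1 / 2 : ℂ).re = 1 / 2 by simp, ← Real.sqrt_eq_rpow, Real.sqrt_le_left (by positivity)]
          nlinarith [Real.pi_le_four]
        rw [integral_const_mul, fourierIntegral_gaussian b0, e1, norm_mul, norm_mul, norm_mul,
          norm_conj, norm_exp_ofReal, ← mul_assoc]
        refine mul_le_mul_of_nonneg_right ?_ (Real.exp_pos _).le
        nlinarith [mul_le_mul_of_nonneg_left e2 (mul_nonneg (norm_nonneg (c θ)) (norm_nonneg (c θ'))),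
          mul_nonneg hs.le (sq_nonneg (‖c θ‖ - ‖c θ'‖))]
    _ ≤ _ := by
        have h1 : ∑ θ ∈ Θ, ∑ θ' ∈ Θ, ‖c θ‖ ^ 2 * Real.exp (-(s / 2 * (ω θ' - ω θ)) ^ 2) ≤
            R * ∑ θ ∈ Θ, ‖c θ‖ ^ 2 := by
          rw [mul_sum]
          refine sum_le_sum fun θ hθ => ?_
          rw [← mul_sum, mul_comm]
          exact mul_le_mul_of_nonneg_right (hR θ hθ) (by positivity)
        have h2 : ∑ θ ∈ Θ, ∑ θ' ∈ Θ, ‖c θ'‖ ^ 2 * Real.exp (-(s / 2 * (ω θ' - ω θ)) ^ 2) =
            ∑ θ ∈ Θ, ∑ θ' ∈ Θ, ‖c θ‖ ^ 2 * Real.exp (-(s / 2 * (ω θ' - ω θ)) ^ 2) := by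
          rw [sum_comm]
          refine sum_congr rfl fun θ _ => sum_congr rfl fun θ' _ => ?_
          congr 2; ring
        simp only [mul_assoc s, ← mul_sum _ _ s, add_mul, sum_add_distrib, h2]
        nlinarith

end Va1

theorem va1 (d : ℕ) : VA1 d := by
  refine ⟨72 * 11 ^ d * (d + 1), by positivity, fun M s κ k Θ c hM hs hκ hΘ hk => ?_⟩
  have M0 : 0 < M := by linarith
  rcases Nat.eq_zero_or_pos d with rfl | hd
  · rw [Subsingleton.elim k 0, norm_zero] at hk; linarith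
  have : Nonempty (Fin d) := ⟨⟨0, hd⟩⟩
  obtain ⟨l, hl⟩ := Finite.exists_max fun i => |k i|
  have d1 : (1 : ℝ) ≤ d := by exact_mod_cast hd
  have kl : ‖k‖ ≤ d * |k l| := by
    rw [EuclideanSpace.norm_eq, Real.sqrt_le_left (by positivity)]
    refine (sum_le_card_nsmul _ _ (|k l| ^ 2) fun i _ => by
      rw [Real.norm_eq_abs]; exact pow_le_pow_left₀ (abs_nonneg _) (hl i) 2).trans ?_
    simp only [card_univ, Fintype.card_fin, nsmul_eq_mul, mul_pow]
    gcongr; nlinarith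
  have k0 : κ ≤ d * (s * |k l|) := by nlinarith
  have k1 : 0 < |k l| := by
    by_contra h; nlinarith [mul_pos hs (zero_lt_one.trans_le d1), abs_nonneg (k l)]
  let ω : Zv d → ℝ := fun θ => 4 * Real.pi * ⟪k, ce M θ⟫
  have hω : ∀ θ, ω θ = 4 * Real.pi * M⁻¹ * ∑ i, k i * θ i := fun θ => by
    simp [ω, ce, inner_smul_right, toV, PiLp.inner_apply, mul_comm, mul_assoc, mul_left_comm]
  set t := Finset.Icc (-⌈4 * M⌉) ⌈4 * M⌉
  have ct : (#t : ℝ) = 2 * ⌈4 * M⌉ + 1 := by
    have : 0 ≤ ⌈4 * M⌉ := Int.ceil_nonneg (by positivity)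
    have h : ((#t : ℕ) : ℤ) = 2 * ⌈4 * M⌉ + 1 := by rw [Int.card_Icc_of_le _ _ (by omega)]; ring
    exact_mod_cast h
  have c1 : M ≤ #t := by rw [ct]; linarith [Int.le_ceil (4 * M)]
  have c2 : (#t : ℝ) ≤ 11 * M := by rw [ct]; linarith [Int.ceil_lt_add_one (4 * M)]
  set a := 2 * Real.pi * s * M⁻¹ * k l
  have ha : κ / (d * M) ≤ |a| := by
    have : |a| = 2 * Real.pi * (s * |k l|) * M⁻¹ := by
      simp only [a, abs_mul, abs_of_pos hs, abs_of_pos Real.pi_pos, abs_of_pos (inv_pos.2 M0),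
        abs_two]; ring
    rw [this, div_le_iff₀ (by positivity)]
    field_simp
    nlinarith [Real.pi_gt_three, mul_pos (mul_pos hs k1) (zero_lt_one.trans_le d1)]
  have a0 : 0 < κ / (d * M) := by positivity
  have := Va1.gauss Θ c ω hs (R := 12 * 11 ^ d * (d + 1) * M ^ d * (M⁻¹ + κ⁻¹)) fun θ _ => by
    let f : Zv d → ℝ := fun θ' => Real.exp (-(s / 2 * (ω θ' - ω θ)) ^ 2)
    have h1 : ∑ θ' ∈ Θ, f θ' ≤ ∑ θ' ∈ Fintype.piFinset fun _ => t, f θ' :=
      sum_le_sum_of_subset_of_nonneg (hΘ.trans (by unfold Th; exact filter_subset _ _))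
        fun _ _ _ => (Real.exp_pos _).le
    have h2 := Va1.avg t l f
    have h3 : ∀ θ', ∑ j ∈ t, f (Function.update θ' l j) ≤ 12 * (1 + d * M / κ) := fun θ' => by
      refine le_trans (le_of_eq (sum_congr rfl fun j _ => ?_)) ((Va1.row (a := a)
        (abs_pos.1 (a0.trans_le ha)) (s / 2 * (ω (Function.update θ' l 0) - ω θ)) _ _).trans ?_)
      · have : ∀ j : ℤ, ∑ i, k i * (Function.update θ' l j i : ℝ) =
            k l * j + ∑ i ∈ univ.erase l, k i * θ' i := fun j => by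
          rw [← add_sum_erase _ _ (mem_univ l), Function.update_self]
          congr 1
          exact sum_congr rfl fun i hi => by rw [Function.update_of_ne (ne_of_mem_erase hi)]
        simp only [f, hω (Function.update _ _ _), this, a]
        congr 3; push_cast; ring
      · gcongr
        rw [← inv_div]
        exact inv_anti₀ a0 ha
    have h4 := sum_le_card_nsmul (Fintype.piFinset fun _ : Fin d => t) _ _ fun θ' _ => h3 θ'
    rw [← h2] at h4
    simp only [sum_const, nsmul_eq_mul, ← mul_sum, Fintype.card_piFinset, prod_const, card_univ,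
      Fintype.card_fin, Nat.cast_pow] at h4
    have f0 : 0 ≤ ∑ θ' ∈ Fintype.piFinset fun _ => t, f θ' :=
      sum_nonneg fun _ _ => (Real.exp_pos _).le
    refine h1.trans (le_of_mul_le_mul_left (((mul_le_mul_of_nonneg_right c1 f0).trans h4).trans ?_) M0)
    calc _ ≤ (11 * M) ^ d * (12 * ((d + 1) * (1 + M / κ))) := by
          gcongr
          have : 0 < M / κ := by positivity
          rw [mul_div_assoc]; nlinarith
      _ = _ := by rw [mul_pow]; field_simp
  convert this using 1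
  · congr 1; ext σ; congr 2
    refine sum_congr rfl fun θ _ => ?_
    congr 3; simp only [ω]; push_cast; ring
  · ring

end Vale.Agent.P076N.KEY
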