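import Vale.Agent.P076N.KEY.Spec1

/-!
# P076N / KEY : row VA2, velocity averaging in measure
-/

set_option linter.all false

open MeasureTheory Finset Metric
open scoped RealInnerProductSpace FourierTransform ENNReal

namespace Vale.Agent.P076N.KEY

open Vale.Agent.P076 Vale.Agent.P076N Vale.Agent.P076T

noncomputable section

namespace Va2

variable {d : ℕ}

/-- the phase -/
def ph (r : ℝ) : ℂ := Complex.exp (((2 * Real.pi * r : ℝ) : ℂ) * Complex.I)

theorem ph_add (r r' : ℝ) : ph (r + r') = ph r * ph r' := by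
  rw [ph, ph, ph, ← Complex.exp_add]
  congr 1
  push_cast
  ring

theorem norm_ph (r : ℝ) : ‖ph r‖ = 1 := Complex.norm_exp_ofReal_mul_I _

@[fun_prop]
theorem ph_c : Continuous ph := by unfold ph; fun_prop

theorem one_sub_ph (r : ℝ) : ‖1 - ph r‖ ^ 2 ≤ 4 ∧ ‖1 - ph r‖ ^ 2 ≤ 40 * r ^ 2 := by
  have h1 := norm_sub_le 1 (ph r)
  have h2 : ‖1 - ph r‖ ≤ |2 * Real.pi * r| := by
    rw [norm_sub_rev, ph, mul_comm _ Complex.I]
    exact Real.norm_exp_I_mul_ofReal_sub_one_le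
  have h3 := pow_le_pow_left₀ (norm_nonneg _) h2 2
  have h4 : Real.pi ^ 2 ≤ 10 := by nlinarith [Real.pi_lt_d2, Real.pi_pos]
  rw [norm_one, norm_ph] at h1
  rw [sq_abs] at h3
  exact ⟨by nlinarith [norm_nonneg (1 - ph r)], by nlinarith [sq_nonneg r]⟩

/-- the transform -/
def ft (G : E d → ℂ) (k : E d) : ℂ := ∫ v, ph ⟪v, k⟫ * G v

theorem ft_eq (G : E d → ℂ) : (𝓕⁻ G : E d → ℂ) = ft G := funext fun k => Real.fourierInv_eq' G k

theorem ft_int {G : E d → ℂ} (h : Integrable G) (k : E d) : Integrable fun v => ph ⟪v, k⟫ * G v :=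
  h.bdd_mul (c := 1) (by fun_prop) (ae_of_all _ fun v => (norm_ph _).le)

theorem ft_c {G : E d → ℂ} (h : Integrable G) : Continuous (ft G) :=
  continuous_of_dominated (bound := fun v => ‖G v‖) (fun k => (ft_int h k).1)
    (fun k => ae_of_all _ fun v => by rw [norm_mul, norm_ph, one_mul]) h.norm
    (ae_of_all _ fun v => by fun_prop)

theorem ft_sh (G : E d → ℂ) (a k : E d) : ft (fun x => G (x - a)) k = ft G k * ph ⟪a, k⟫ := by
  rw [ft, ← integral_add_right_eq_self _ a, ft, ← integral_mul_const]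
  refine integral_congr_ae (ae_of_all _ fun v => ?_)
  simp only [add_sub_cancel_right, inner_add_left, ph_add]
  ring

theorem pl {G : E d → ℂ} (h1 : Integrable G) (h2 : MemLp G 2) :
    ∫⁻ x, ENNReal.ofReal (‖G x‖ ^ 2) = ∫⁻ k, ENNReal.ofReal (‖ft G k‖ ^ 2) := by
  have h := planch h1 h2
  rw [ft_eq] at h
  rw [← ofReal_integral_eq_lintegral_ofReal h.1 (ae_of_all _ fun _ => by positivity), h.2,
    ofReal_integral_eq_lintegral_ofReal (h2.integrable_norm_pow two_ne_zero)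
      (ae_of_all _ fun _ => by positivity)]

/-- the difference -/
def df (Θ : Finset (Zv d)) (G : Zv d → E d → ℂ) (a : Zv d → E d) (w x : E d) : ℂ :=
  ∑ θ ∈ Θ, (G θ (x - a θ) - G θ (x - (a θ - w)))

theorem pl_df (Θ : Finset (Zv d)) {G : Zv d → E d → ℂ} (h1 : ∀ θ, Integrable (G θ))
    (h2 : ∀ θ, MemLp (G θ) 2) (a : Zv d → E d) (w : E d) :
    ∫⁻ x, ENNReal.ofReal (‖df Θ G a w x‖ ^ 2) = ∫⁻ k, ENNReal.ofReal
      (‖1 - ph (-⟪w, k⟫)‖ ^ 2 * ‖∑ θ ∈ Θ, ft (G θ) k * ph ⟪a θ, k⟫‖ ^ 2) := by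
  have i := fun θ b => (h1 θ).comp_sub_right b
  have m := fun θ b => (h2 θ).comp_measurePreserving (measurePreserving_sub_right volume b)
  rw [pl (G := df Θ G a w) (integrable_finset_sum _ fun θ _ => (i θ _).sub (i θ _))
    (memLp_finset_sum _ fun θ _ => (m θ _).sub (m θ _))]
  refine lintegral_congr fun k => ?_
  rw [← mul_pow, ← norm_mul, Finset.mul_sum, ft]
  simp only [df, Finset.mul_sum, mul_sub]
  congr 3
  refine (integral_finset_sum _ fun θ _ => (ft_int (i θ _) k).sub (ft_int (i θ _) k)).trans ?_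
  refine Finset.sum_congr rfl fun θ _ => ?_
  refine (integral_sub (ft_int (i θ _) k) (ft_int (i θ _) k)).trans ?_
  change ft (fun x => G θ (x - a θ)) k - ft (fun x => G θ (x - (a θ - w))) k = _
  rw [ft_sh, ft_sh, inner_sub_left, sub_eq_add_neg ⟪a θ, k⟫, ph_add]
  ring

/-- the bound at one frequency -/
theorem freq (hB : BAS d) (hV : VA1 d) : ∃ C : ℝ, 0 ≤ C ∧ ∀ (M lam K : ℝ) (w k : E d)
    (c : Zv d → ℂ), 1 ≤ M → 0 < lam → 1 ≤ K → ‖w‖ ≤ lam →
    ‖1 - ph (-⟪w, k⟫)‖ ^ 2 * ∫ σ in Set.Icc (-(K * lam)) (K * lam),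
      ‖∑ θ ∈ Th d M, c θ * ph ⟪(2 * σ) • ce M θ, k⟫‖ ^ 2 ≤
    C * (K * lam) * M ^ d * (M⁻¹ + (√K)⁻¹) * ∑ θ ∈ Th d M, ‖c θ‖ ^ 2 := by
  obtain ⟨C, C0, hC⟩ := hV
  refine ⟨4 * C + 80 * 11 ^ d, by positivity, fun M lam K w k c hM hl hK hw => ?_⟩
  have s0 : 0 < K * lam := by positivity
  have r0 : 0 < √K := by positivity
  have S0 : 0 ≤ ∑ θ ∈ Th d M, ‖c θ‖ ^ 2 := by positivity
  have I0 : 0 ≤ ∫ σ in Set.Icc (-(K * lam)) (K * lam),
      ‖∑ θ ∈ Th d M, c θ * ph ⟪(2 * σ) • ce M θ, k⟫‖ ^ 2 := integral_nonneg fun _ => by positivity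
  have h := one_sub_ph (-⟪w, k⟫)
  by_cases hk : √K ≤ K * lam * ‖k‖
  · have e := hC M (K * lam) √K (-k) (Th d M) c hM s0 r0 subset_rfl (by rwa [norm_neg])
    have e2 : ∀ (σ : ℝ) θ, Complex.exp (-(2 * Real.pi * Complex.I *
        ((2 * σ * ⟪-k, ce M θ⟫ : ℝ) : ℂ))) = ph ⟪(2 * σ) • ce M θ, k⟫ := fun σ θ => by
      rw [ph, inner_neg_left, real_inner_smul_left, real_inner_comm]
      congr 1
      push_cast
      ring
    simp only [e2] at e
    calc _ ≤ 4 * (C * (K * lam) * M ^ d * (M⁻¹ + (√K)⁻¹) * ∑ θ ∈ Th d M, ‖c θ‖ ^ 2) :=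
          mul_le_mul h.1 e I0 (by norm_num)
      _ = 4 * C * (K * lam) * M ^ d * (M⁻¹ + (√K)⁻¹) * ∑ θ ∈ Th d M, ‖c θ‖ ^ 2 := by ring
      _ ≤ _ := by gcongr; exact le_add_of_nonneg_right (by positivity)
  have k1 : ‖1 - ph (-⟪w, k⟫)‖ ^ 2 ≤ 40 * (√K)⁻¹ := by
    refine h.2.trans (mul_le_mul_of_nonneg_left ?_ (by norm_num))
    have a1 : |⟪w, k⟫| ≤ lam * ‖k‖ := (abs_real_inner_le_norm w k).trans (by gcongr)
    have a2 : lam * ‖k‖ ≤ (√K)⁻¹ := by
      rw [← one_div, le_div_iff₀ r0]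
      refine le_of_mul_le_mul_left ?_ r0
      nlinarith [Real.mul_self_sqrt (zero_le_one.trans hK), not_le.1 hk]
    have a3 : (√K)⁻¹ ≤ 1 := inv_le_one_of_one_le₀ (Real.one_le_sqrt.2 hK)
    rw [neg_sq, ← sq_abs]
    nlinarith [abs_nonneg ⟪w, k⟫]
  have k2 := norm_setIntegral_le_of_norm_le_const (μ := volume)
    (s := Set.Icc (-(K * lam)) (K * lam)) (C := 11 ^ d * M ^ d * ∑ θ ∈ Th d M, ‖c θ‖ ^ 2)
    (f := fun σ => ‖∑ θ ∈ Th d M, c θ * ph ⟪(2 * σ) • ce M θ, k⟫‖ ^ 2) (by simp) fun σ _ => by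
      rw [Real.norm_of_nonneg (by positivity)]
      refine (pow_le_pow_left₀ (norm_nonneg _) (norm_sum_le _ _) 2).trans
        (sq_sum_le_card_mul_sum_sq.trans ?_)
      simp only [norm_mul, norm_ph, mul_one]
      exact mul_le_mul_of_nonneg_right (hB.2.2.2.2 M hM) S0
  rw [Real.norm_of_nonneg I0, Real.volume_real_Icc_of_le (by linarith)] at k2
  calc _ ≤ _ := mul_le_mul k1 k2 I0 (by positivity)
    _ = 80 * 11 ^ d * (K * lam) * M ^ d * (√K)⁻¹ * ∑ θ ∈ Th d M, ‖c θ‖ ^ 2 := by ring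
    _ ≤ _ := by
      gcongr
      · exact le_add_of_nonneg_left (by positivity)
      · exact le_add_of_nonneg_left (by positivity)

/-- the inequality of Jensen -/
theorem jen {α : Type*} [MeasurableSpace α] {μ : Measure α} [IsProbabilityMeasure μ] {h : α → ℝ}
    (hm : MemLp h 2 μ) {y : ℝ} (hy : 0 < y) (hh : y ≤ ∫ w, h w ∂μ) :
    ENNReal.ofReal (y ^ 2) ≤ ∫⁻ w, ENNReal.ofReal (h w ^ 2) ∂μ := by
  have i1 := hm.integrable one_le_two
  rw [← ofReal_integral_eq_lintegral_ofReal hm.integrable_sq (ae_of_all _ fun _ => sq_nonneg _)]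
  have k := integral_mono (f := fun w => 2 * y * h w - y ^ 2) ((i1.const_mul _).sub
    (integrable_const _)) hm.integrable_sq fun w => by nlinarith [sq_nonneg (h w - y)]
  rw [integral_sub (i1.const_mul _) (integrable_const _), integral_const_mul] at k
  simp only [integral_const, probReal_univ, one_smul] at k
  exact ENNReal.ofReal_le_ofReal (by nlinarith)

theorem avg (F : E d → ℝ) (x : E d) (lam : ℝ) : ⨍ z in Metric.ball x lam, F z =
    ∫ w, F (x + w) ∂(volume (Metric.ball (0 : E d) lam))⁻¹ •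
      volume.restrict (Metric.ball (0 : E d) lam) := by
  rw [← setAverage_eq', setAverage_eq, setAverage_eq, measureReal_def, measureReal_def,
    Measure.addHaar_ball_center, ← (measurePreserving_add_left volume x).setIntegral_preimage_emb
      (MeasurableEquiv.addLeft x).measurableEmbedding F (Metric.ball x lam)]
  congr 3
  ext w
  simp [mem_ball_iff_norm]

end Va2

open Va2 in
/-- **[VA2]** -/
theorem va2 (d : ℕ) : VA2 d := by
  intro hB hV
  obtain ⟨C, C0, hC⟩ := freq hB hV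
  refine ⟨C, C0, fun M lam K Λ y F hM hl hK hy hF => ?_⟩
  obtain ⟨μ, hμ⟩ : ∃ μ : Measure (E d), μ = (volume (Metric.ball (0 : E d) lam))⁻¹ •
    volume.restrict (Metric.ball (0 : E d) lam) := ⟨_, rfl⟩
  haveI : IsProbabilityMeasure μ := ⟨by
    rw [hμ, Measure.smul_apply, Measure.restrict_apply_univ, smul_eq_mul,
      ENNReal.inv_mul_cancel (measure_ball_pos _ _ hl).ne' measure_ball_lt_top.ne]⟩
  obtain ⟨ν, hν⟩ : ∃ ν : Measure ℝ, ν = volume.restrict (Set.Icc (-(K * lam)) (K * lam)) := ⟨_, rfl⟩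
  haveI : SFinite ν := hν ▸ inferInstance
  obtain ⟨G, hG⟩ : ∃ G : Zv d → E d → ℂ, G = fun θ z => (F θ z : ℂ) := ⟨_, rfl⟩
  have m0 := fun θ => (hF θ).1
  have m1 : ∀ θ, Measurable (G θ) := fun θ => hG ▸ Complex.measurable_ofReal.comp (m0 θ)
  have i1 : ∀ θ, Integrable (G θ) := fun θ => hG ▸ (hF θ).2.1.ofReal
  have b1 : ∀ θ z, ‖G θ z‖ ^ 2 ≤ Λ * F θ z := fun θ z => by
    rw [hG, Complex.norm_real, Real.norm_eq_abs, sq_abs]
    nlinarith [(hF θ).2.2 z]
  have i2 : ∀ θ, MemLp (G θ) 2 := fun θ =>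
    (memLp_two_iff_integrable_sq_norm (i1 θ).1).2 (((hF θ).2.1.const_mul Λ).mono'
      ((i1 θ).1.norm.pow 2) (ae_of_all _ fun z => by
        rw [Real.norm_of_nonneg (by positivity)]; exact b1 θ z))
  obtain ⟨f, hf⟩ : ∃ f : E d × ℝ → E d → ℝ≥0∞, f = fun p w => ENNReal.ofReal
    (‖df (Th d M) G (fun θ => (2 * p.2) • ce M θ) w p.1‖ ^ 2) := ⟨_, rfl⟩
  have mf : Measurable (Function.uncurry f) := by
    rw [hf]
    unfold df Function.uncurry
    fun_prop
  obtain ⟨B, hB⟩ : ∃ B, B = C * (K * lam) * M ^ d * (M⁻¹ + (√K)⁻¹) := ⟨_, rfl⟩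
  have B0 : 0 ≤ B := hB ▸ by positivity
  have key : ∀ w, ‖w‖ ≤ lam → ∫⁻ p, f p w ∂volume.prod ν ≤
      ENNReal.ofReal (B * Λ * ∑ θ ∈ Th d M, ∫ z, F θ z) := fun w hw => by
    have c1 := fun θ => ft_c (i1 θ)
    rw [lintegral_prod_symm (fun p => f p w) (mf.comp measurable_prodMk_right).aemeasurable]
    simp only [hf, pl_df _ i1 i2]
    rw [lintegral_lintegral_swap (Measurable.aemeasurable (by
      unfold Function.uncurry
      exact (Continuous.measurable (by fun_prop)).ennreal_ofReal))]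
    have p := fun θ => ft_eq (G θ) ▸ planch (i1 θ) (i2 θ)
    have i3 : Integrable fun k => B * ∑ θ ∈ Th d M, ‖ft (G θ) k‖ ^ 2 :=
      (integrable_finset_sum _ fun θ _ => (p θ).1).const_mul B
    refine (lintegral_mono (g := fun k => ENNReal.ofReal (B * ∑ θ ∈ Th d M, ‖ft (G θ) k‖ ^ 2))
      fun k => ?_).trans ?_
    · rw [hν, ← ofReal_integral_eq_lintegral_ofReal (Continuous.integrableOn_Icc (by fun_prop))
        (ae_of_all _ fun _ => by positivity), integral_const_mul]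
      exact ENNReal.ofReal_le_ofReal (hB ▸ hC M lam K w k _ hM hl hK hw)
    rw [← ofReal_integral_eq_lintegral_ofReal i3 (ae_of_all _ fun _ => by positivity),
      integral_const_mul, integral_finset_sum _ fun θ _ => (p θ).1, mul_assoc, Finset.mul_sum _ _ Λ]
    refine ENNReal.ofReal_le_ofReal (mul_le_mul_of_nonneg_left (sum_le_sum fun θ _ => ?_) B0)
    rw [(p θ).2, ← integral_const_mul]
    exact integral_mono ((i2 θ).integrable_norm_pow two_ne_zero) ((hF θ).2.1.const_mul Λ) (b1 θ)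
  have tot : ∫⁻ p, (∫⁻ w, f p w ∂μ) ∂volume.prod ν ≤
      ENNReal.ofReal (B * Λ * ∑ θ ∈ Th d M, ∫ z, F θ z) := by
    rw [lintegral_lintegral_swap mf.aemeasurable]
    refine (lintegral_mono_ae (g := fun _ => ENNReal.ofReal (B * Λ * ∑ θ ∈ Th d M, ∫ z, F θ z))
      ?_).trans (by simp)
    rw [hμ]
    exact Measure.ae_smul_measure ((ae_restrict_mem measurableSet_ball).mono fun w hw =>
      key w (mem_ball_zero_iff.1 hw).le) _
  have ch := (mul_meas_ge_le_lintegral₀ (μ := volume.prod ν)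
    (mf.lintegral_prod_right (ν := μ)).aemeasurable (ENNReal.ofReal (y ^ 2))).trans tot
  rw [← hB, ENNReal.ofReal_div_of_pos (by positivity), ENNReal.le_div_iff_mul_le
    (.inl (by simpa using hy.ne')) (.inl ENNReal.ofReal_ne_top), mul_comm]
  refine le_trans (mul_le_mul_right ?_ _) ch
  rw [hν, ← Measure.restrict_univ (μ := (volume : Measure (E d))), Measure.prod_restrict,
    ← Measure.volume_eq_prod]
  refine le_trans (measure_mono ?_) (Measure.le_restrict_apply _ _)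
  refine fun p hp => ⟨?_, trivial, abs_le.1 hp.1⟩
  have q : ∀ θ (x : E d), MemLp (fun w => F θ (x + w)) 2 μ := fun θ x =>
    MemLp.of_bound (Measurable.aestronglyMeasurable (by fun_prop)) Λ (ae_of_all _ fun w => by
      rw [Real.norm_of_nonneg ((hF θ).2.2 _).1]; exact ((hF θ).2.2 _).2)
  have q2 : ∀ θ (x : E d), MemLp (fun w => F θ x - F θ (x + w)) 2 μ := fun θ x =>
    (memLp_const _).sub (q θ x)
  refine (jen (h := fun w => ∑ θ ∈ Th d M, (F θ (p.1 - (2 * p.2) • ce M θ) -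
    F θ (p.1 - (2 * p.2) • ce M θ + w))) (memLp_finset_sum _ fun θ _ => q2 θ _) hy
    (hp.2.trans_eq ?_)).trans_eq (lintegral_congr fun w => ?_)
  · rw [integral_finset_sum _ fun θ _ => (q2 θ _).integrable one_le_two]
    refine sum_congr rfl fun θ _ => ?_
    rw [integral_sub (integrable_const _) ((q θ _).integrable one_le_two),
      Measure.restrict_univ, avg, ← hμ]
    simp
  · simp only [hf, hG, df, ← Complex.ofReal_sub, ← Complex.ofReal_sum, Complex.norm_real,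
      Real.norm_eq_abs, sq_abs, sub_add]

end

end Vale.Agent.P076N.KEY
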