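import Vale.Agent.P076N.KEY.Abs
import Vale.Agent.P076N.KEY.Bad
import Vale.Agent.P076N.KEY.Bas
import Vale.Agent.P076N.KEY.Bes
import Vale.Agent.P076N.KEY.Bmp
import Vale.Agent.P076N.KEY.Cls
import Vale.Agent.P076N.KEY.Cnt
import Vale.Agent.P076N.KEY.Cut
import Vale.Agent.P076N.KEY.Den
import Vale.Agent.P076N.KEY.Few
import Vale.Agent.P076N.KEY.Fsr
import Vale.Agent.P076N.KEY.K1
import Vale.Agent.P076N.KEY.K2
import Vale.Agent.P076N.KEY.K3
import Vale.Agent.P076N.KEY.K56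
import Vale.Agent.P076N.KEY.Ker
import Vale.Agent.P076N.KEY.Ksum
import Vale.Agent.P076N.KEY.Lb
import Vale.Agent.P076N.KEY.Locp
import Vale.Agent.P076N.KEY.Ortc
import Vale.Agent.P076N.KEY.Ovl
import Vale.Agent.P076N.KEY.Pk1
import Vale.Agent.P076N.KEY.Pk2
import Vale.Agent.P076N.KEY.Rec
import Vale.Agent.P076N.KEY.Sr
import Vale.Agent.P076N.KEY.Step
import Vale.Agent.P076N.KEY.Sum
import Vale.Agent.P076N.KEY.T4x
import Vale.Agent.P076N.KEY.Tl
import Vale.Agent.P076N.KEY.Ttl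
import Vale.Agent.P076N.KEY.Va1
import Vale.Agent.P076N.KEY.Va2

/-! # P076N / KEY : all rows -/

set_option linter.all false

namespace Vale.Agent.P076N.KEY

theorem rows (d : ℕ) (hd : 2 ≤ d) : Rows d where
  bmp := bmp d
  bas := bas d
  ker := ker d
  cut := cut_ d
  tl := tl d
  fsr := fsr d
  ortc := ortc d
  va1 := va1 d
  va2 := va2 d
  step := step d
  ttl := ttl d
  locp := locp d hd
  ksum := ksum d
  bes := bes d
  lb := lb d (by omega)
  rc := rec_ d
  ovl := ovl d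
  few := few d hd
  den := den d hd
  t4x := t4x d hd
  bad := bad d hd
  abs := abs_ d hd
  k1 := k1 d hd
  cls := cls d
  pk1 := pk1 d
  pk2 := pk2 d
  sr := sr d
  cnt := cnt d hd
  sum := sum_ d hd
  k56 := k56 d hd
  k2 := k2 d hd
  k3 := k3 d hd

theorem key (d : ℕ) (hd : 2 ≤ d) (h1 : T1 d) (h3 : T3 d) (h4 : T4 d) : KEY d := key_of (rows d hd) h1 h3 h4

end Vale.Agent.P076N.KEY
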