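import Vale.Agent.P076N.KEY.Spec1

/-! # P076N / KEY : Gram forms for the Bessel inequality -/

set_option linter.all false

open MeasureTheory Finset
open scoped RealInnerProductSpace

namespace Vale.Agent.P076N.KEY.Bes

open Vale.Agent.P076 Vale.Agent.P076N Vale.Agent.P076T
open Vale.Agent.P122.H84 (ee norm_ee ee_add ee_zero conj_ee continuous_ee measurable_ee)

noncomputable section

variable {d : ℕ} {ι β : Type}

def ex (p : E d × ℝ) (η : E d) : ℂ := ee (inner ℝ p.1 η - p.2 * ‖η‖ ^ 2)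

def FS (J : Finset ι) (c : ι → ℂ) (p : ι → E d × ℝ) (η : E d) : ℂ := ∑ i ∈ J, c i * ex (p i) η

def gr (w : E d → ℝ) (p q : E d × ℝ) : ℂ := evo (fun η => (w η : ℂ)) (p.1 - q.1) (p.2 - q.2) 0

def QQ (w : E d → ℝ) (J : Finset ι) (c : ι → ℂ) (p : ι → E d × ℝ) : ℝ := ∫ η, w η * ‖FS J c p η‖ ^ 2

theorem ex_cont (p : E d × ℝ) : Continuous (ex p) := by
  unfold ex
  exact continuous_ee.comp (by fun_prop)

theorem ex_norm (p : E d × ℝ) (η : E d) : ‖ex p η‖ = 1 := norm_ee _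

theorem ex_mul (p q : E d × ℝ) (η : E d) :
    ex p η * (starRingEnd ℂ) (ex q η) = ee (inner ℝ (p.1 - q.1) η - (p.2 - q.2) * ‖η‖ ^ 2) := by
  unfold ex
  rw [conj_ee, ← ee_add, inner_sub_left]
  congr 1
  ring

theorem FS_cont (J : Finset ι) (c : ι → ℂ) (p : ι → E d × ℝ) : Continuous (FS J c p) := by
  unfold FS
  exact continuous_finset_sum _ fun i _ => continuous_const.mul (ex_cont _)

theorem FS_le (J : Finset ι) (c : ι → ℂ) (p : ι → E d × ℝ) (η : E d) : ‖FS J c p η‖ ≤ ∑ i ∈ J, ‖c i‖ := by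
  unfold FS
  refine (norm_sum_le _ _).trans (le_of_eq (Finset.sum_congr rfl fun i _ => ?_))
  rw [norm_mul, ex_norm, mul_one]

theorem q_int {w : E d → ℝ} (hw : Integrable w) (J : Finset ι) (c : ι → ℂ) (p : ι → E d × ℝ) :
    Integrable fun η => w η * ‖FS J c p η‖ ^ 2 := by
  refine hw.mul_bdd (c := (∑ i ∈ J, ‖c i‖) ^ 2) ?_ ?_
  · exact ((FS_cont J c p).norm.pow 2).aestronglyMeasurable
  · refine Filter.Eventually.of_forall fun η => ?_
    rw [Real.norm_eq_abs, abs_of_nonneg (by positivity)]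
    exact pow_le_pow_left₀ (norm_nonneg _) (FS_le J c p η) 2

theorem gram {w : E d → ℝ} (hw : Integrable w) (J : Finset ι) (c : ι → ℂ) (p : ι → E d × ℝ) :
    ((QQ w J c p : ℝ) : ℂ) = ∑ i ∈ J, ∑ j ∈ J, c i * (starRingEnd ℂ) (c j) * gr w (p i) (p j) := by
  have hw' : Integrable fun η => (w η : ℂ) := hw.ofReal
  have h1 : ∀ i j, Integrable fun η => c i * (starRingEnd ℂ) (c j) *
      ((w η : ℂ) * ee (inner ℝ ((p i).1 - (p j).1) η - ((p i).2 - (p j).2) * ‖η‖ ^ 2)) :=
    fun i j => (mod_int hw' _ _).const_mul _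
  unfold QQ gr
  simp_rw [evo_ee, ← integral_const_mul]
  simp_rw [← integral_finsetSum _ fun j _ => h1 _ j]
  rw [← integral_finsetSum _ fun i _ => integrable_finsetSum _ fun j _ => h1 i j, ← integral_complex_ofReal]
  congr 1
  ext η
  have h2 : ((‖FS J c p η‖ ^ 2 : ℝ) : ℂ) = FS J c p η * (starRingEnd ℂ) (FS J c p η) := by
    rw [Complex.mul_conj, Complex.normSq_eq_norm_sq]
  rw [Complex.ofReal_mul, h2]
  unfold FS
  rw [map_sum, Finset.sum_mul_sum, Finset.mul_sum]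
  refine Finset.sum_congr rfl fun i _ => ?_
  rw [Finset.mul_sum]
  refine Finset.sum_congr rfl fun j _ => ?_
  rw [← ex_mul, map_mul]
  ring

theorem q_nn {w : E d → ℝ} (h0 : ∀ η, 0 ≤ w η) (J : Finset ι) (c : ι → ℂ) (p : ι → E d × ℝ) : 0 ≤ QQ w J c p :=
  integral_nonneg fun η => mul_nonneg (h0 η) (by positivity)

theorem q_le {w : E d → ℝ} (hw : Integrable w) (J : Finset ι) (c : ι → ℂ) (p : ι → E d × ℝ) :
    QQ w J c p ≤ ∑ i ∈ J, ∑ j ∈ J, ‖c i‖ * ‖c j‖ * ‖gr w (p i) (p j)‖ := by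
  have h1 : QQ w J c p ≤ ‖((QQ w J c p : ℝ) : ℂ)‖ := by
    rw [Complex.norm_real]; exact le_abs_self _
  rw [gram hw] at h1
  refine h1.trans ((norm_sum_le _ _).trans (Finset.sum_le_sum fun i _ => (norm_sum_le _ _).trans (le_of_eq ?_)))
  refine Finset.sum_congr rfl fun j _ => ?_
  rw [norm_mul, norm_mul, Complex.norm_conj]

open Classical in
theorem diag_sum {M : Type} [AddCommMonoid M] (I : Finset ι) (bl : ι → β) (T : ι → ι → M) :
    ∑ i ∈ I, ∑ j ∈ I, (if bl i = bl j then T i j else 0) =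
      ∑ b ∈ I.image bl, ∑ i ∈ I.filter (fun i => bl i = b), ∑ j ∈ I.filter (fun i => bl i = b), T i j := by
  rw [← Finset.sum_fiberwise_of_maps_to (s := I) (t := I.image bl) (g := bl)
    (fun i hi => Finset.mem_image_of_mem _ hi)]
  refine Finset.sum_congr rfl fun b _ => Finset.sum_congr rfl fun i hi => ?_
  rw [Finset.sum_filter]
  refine Finset.sum_congr rfl fun j _ => ?_
  rw [(Finset.mem_filter.1 hi).2]
  by_cases h : bl j = b
  · rw [if_pos h, if_pos h.symm]
  · rw [if_neg h, if_neg fun h' => h h'.symm]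

open Classical in
/-- splitting of the form into the blocks and the rest -/
theorem q_split {w : E d → ℝ} (hw : Integrable w) (h0 : ∀ η, 0 ≤ w η) (I : Finset ι) (c : ι → ℂ)
    (p : ι → E d × ℝ) (bl : ι → β) (u : β → Prop) [DecidablePred u] :
    QQ w I (fun i => if u (bl i) then c i else 0) p ≤
      ∑ b ∈ I.image bl, QQ w (I.filter fun i => bl i = b) c p +
        ∑ i ∈ I, ∑ j ∈ I, (if bl i = bl j then 0 else ‖c i‖ * ‖c j‖ * ‖gr w (p i) (p j)‖) := by
  set c' : ι → ℂ := fun i => if u (bl i) then c i else 0 with hc'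
  have hn : ∀ i, ‖c' i‖ ≤ ‖c i‖ := fun i => by
    simp only [hc']
    split_ifs
    · exact le_rfl
    · simp
  set T : ι → ι → ℂ := fun i j => c' i * (starRingEnd ℂ) (c' j) * gr w (p i) (p j) with hT
  have h1 : QQ w I c' p ≤ ‖((QQ w I c' p : ℝ) : ℂ)‖ := by
    rw [Complex.norm_real]; exact le_abs_self _
  have h2 : ((QQ w I c' p : ℝ) : ℂ) = ∑ i ∈ I, ∑ j ∈ I, (if bl i = bl j then T i j else 0) +
      ∑ i ∈ I, ∑ j ∈ I, (if bl i = bl j then 0 else T i j) := by
    rw [gram hw, ← Finset.sum_add_distrib]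
    refine Finset.sum_congr rfl fun i _ => ?_
    rw [← Finset.sum_add_distrib]
    refine Finset.sum_congr rfl fun j _ => ?_
    split_ifs <;> simp [hT]
  rw [h2, diag_sum] at h1
  refine h1.trans ((norm_add_le _ _).trans (add_le_add ?_ ?_))
  · refine (norm_sum_le _ _).trans (Finset.sum_le_sum fun b _ => ?_)
    have h3 := gram hw (I.filter fun i => bl i = b) c' p
    simp only [hT]
    rw [← h3, Complex.norm_real, Real.norm_eq_abs, abs_of_nonneg (q_nn h0 _ _ _)]
    by_cases hu : u b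
    · refine le_of_eq ?_
      unfold QQ FS
      congr 1
      ext η
      congr 3
      refine Finset.sum_congr rfl fun i hi => ?_
      simp only [hc', (Finset.mem_filter.1 hi).2, if_pos hu]
    · refine le_trans (le_of_eq ?_) (q_nn h0 _ c p)
      unfold QQ FS
      refine integral_eq_zero_of_ae (Filter.Eventually.of_forall fun η => ?_)
      have : ∑ i ∈ I.filter (fun i => bl i = b), c' i * ex (p i) η = 0 := by
        refine Finset.sum_eq_zero fun i hi => ?_
        simp only [hc', (Finset.mem_filter.1 hi).2, if_neg hu, zero_mul]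
      simp only [this, norm_zero, Pi.zero_apply]
      simp
  · refine (norm_sum_le _ _).trans (Finset.sum_le_sum fun i _ => (norm_sum_le _ _).trans ?_)
    refine Finset.sum_le_sum fun j _ => ?_
    split_ifs
    · simp
    · simp only [hT]
      rw [norm_mul, norm_mul, Complex.norm_conj]
      have := hn i
      have := hn j
      gcongr

/-- Schur test -/
theorem schur (I : Finset ι) (a : ι → ℝ) (K : ι → ι → ℝ) (σ : ℝ) (h0 : ∀ i j, 0 ≤ K i j) (hs : ∀ i j, K i j = K j i)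
    (hK : ∀ i ∈ I, ∑ j ∈ I, K i j ≤ σ) : ∑ i ∈ I, ∑ j ∈ I, a i * a j * K i j ≤ σ * ∑ i ∈ I, a i ^ 2 := by
  have h1 : ∑ i ∈ I, ∑ j ∈ I, a i ^ 2 * K i j ≤ σ * ∑ i ∈ I, a i ^ 2 := by
    rw [Finset.mul_sum]
    refine Finset.sum_le_sum fun i hi => ?_
    rw [← Finset.mul_sum, mul_comm σ]
    exact mul_le_mul_of_nonneg_left (hK i hi) (sq_nonneg _)
  have h2 : ∑ i ∈ I, ∑ j ∈ I, a j ^ 2 * K i j = ∑ i ∈ I, ∑ j ∈ I, a i ^ 2 * K i j := by
    rw [Finset.sum_comm]
    exact Finset.sum_congr rfl fun i _ => Finset.sum_congr rfl fun j _ => by rw [hs]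
  have h3 : 2 * ∑ i ∈ I, ∑ j ∈ I, a i * a j * K i j ≤
      ∑ i ∈ I, ∑ j ∈ I, a i ^ 2 * K i j + ∑ i ∈ I, ∑ j ∈ I, a j ^ 2 * K i j := by
    rw [Finset.mul_sum, ← Finset.sum_add_distrib]
    refine Finset.sum_le_sum fun i _ => ?_
    rw [Finset.mul_sum, ← Finset.sum_add_distrib]
    refine Finset.sum_le_sum fun j _ => ?_
    nlinarith [mul_nonneg (sq_nonneg (a i - a j)) (h0 i j)]
  linarith

/-- the duality step for one cap -/
theorem dual {h : E d → ℂ} {w : E d → ℝ} (h1 : Integrable h) (h2 : Integrable fun η => ‖h η‖ ^ 2) (hw : Integrable w)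
    (h0 : ∀ η, 0 ≤ w η) (hone : ∀ η, h η ≠ 0 → w η = 1) (J : Finset ι) (c : ι → ℂ) (p : ι → E d × ℝ) {K : ℝ}
    (hK : 0 < K) : ‖∑ i ∈ J, c i * Uu h (p i)‖ ≤ K / 2 * en h + 1 / (2 * K) * QQ w J c p := by
  have e1 : ∑ i ∈ J, c i * Uu h (p i) = ∫ η, h η * FS J c p η := by
    unfold Uu FS ex
    simp_rw [evo_ee, ← integral_const_mul]
    rw [← integral_finsetSum _ fun i _ => (mod_int h1 _ _).const_mul _]
    congr 1
    ext η
    rw [Finset.mul_sum]
    exact Finset.sum_congr rfl fun i _ => by ring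
  rw [e1]
  unfold en QQ
  rw [← integral_const_mul, ← integral_const_mul,
    ← integral_add (h2.const_mul _) ((q_int hw J c p).const_mul _)]
  refine norm_integral_le_of_norm_le ((h2.const_mul _).add ((q_int hw J c p).const_mul _))
    (Filter.Eventually.of_forall fun η => ?_)
  by_cases hh : h η = 0
  · rw [hh, zero_mul, norm_zero]
    have := h0 η
    positivity
  · rw [hone η hh, one_mul, norm_mul]
    have e : K / 2 * ‖h η‖ ^ 2 + 1 / (2 * K) * ‖FS J c p η‖ ^ 2 - ‖h η‖ * ‖FS J c p η‖ =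
        1 / (2 * K) * (K * ‖h η‖ - ‖FS J c p η‖) ^ 2 := by
      field_simp
      ring
    have : 0 ≤ 1 / (2 * K) * (K * ‖h η‖ - ‖FS J c p η‖) ^ 2 := by positivity
    linarith

end

end Vale.Agent.P076N.KEY.Bes
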