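import Vale.Agent.P076N.KEY.Sc

/-!
# P076N / KEY : row CNT, first part (geometry of the anchors, the local Bessel inequality for a subfamily)
-/

set_option linter.all false

open MeasureTheory Finset
open scoped RealInnerProductSpace

namespace Vale.Agent.P076N.KEY

open Vale.Agent.P076 Vale.Agent.P076N Vale.Agent.P076T

noncomputable section

variable {d : ℕ}

namespace Cnt

theorem kk_nonneg {ι β : Type} (N : ℕ) (R : ℝ) {r : ℝ} (hr : 0 < r) (c : E d) (p : ι → E d × ℝ) (bl : ι → β)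
    (i j : ι) : 0 ≤ kk N R r c p bl i j := by
  unfold kk
  split_ifs
  · exact mul_nonneg (by positivity) (wE_pos (by positivity) _).le
  · unfold kD
    split_ifs
    · positivity
    · exact le_rfl

theorem Kw_nonneg {x : ℝ} (hx : 0 < x) : 0 ≤ Kw x := by unfold Kw; positivity

theorem Kw_le {x y K : ℝ} (hx : 0 < x) (hy : 0 < y) (hK : 0 < K) (h1 : x ≤ K * y) (h2 : y ≤ K * x) :
    Kw x ≤ K ^ (1 / 4 : ℝ) * Kw y := by
  unfold Kw
  rw [mul_add, ← Real.mul_rpow hK.le hy.le, ← Real.mul_rpow hK.le (inv_pos.2 hy).le]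
  refine add_le_add (Real.rpow_le_rpow hx.le h1 (by norm_num)) (Real.rpow_le_rpow (inv_pos.2 hx).le ?_ (by norm_num))
  rw [← div_eq_mul_inv, le_div_iff₀ hy, inv_mul_le_iff₀ hx]
  linarith

theorem card_int {a x : ℝ} (hx : 0 ≤ x) (T : Finset ℤ) (h : ∀ k ∈ T, a ≤ k ∧ (k : ℝ) ≤ a + x) : (#T : ℝ) ≤ x + 1 := by
  have hsub : T ⊆ Finset.Icc ⌈a⌉ ⌊a + x⌋ := fun k hk =>
    mem_Icc.mpr ⟨Int.ceil_le.mpr (h k hk).1, Int.le_floor.mpr (h k hk).2⟩
  have h1 : (#T : ℝ) ≤ (#(Finset.Icc ⌈a⌉ ⌊a + x⌋) : ℝ) := by exact_mod_cast Finset.card_le_card hsub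
  refine h1.trans ?_
  rw [Int.card_Icc]
  have h2 := Int.le_ceil a
  have h3 := Int.floor_le (a + x)
  rcases le_total (⌊a + x⌋ + 1 - ⌈a⌉) 0 with h0 | h0
  · rw [Int.toNat_eq_zero.2 h0]; push_cast; linarith
  · have : ((⌊a + x⌋ + 1 - ⌈a⌉).toNat : ℝ) = ((⌊a + x⌋ + 1 - ⌈a⌉ : ℤ) : ℝ) := by
      rw [← Int.cast_natCast, Int.toNat_of_nonneg h0]
    rw [this]; push_cast; linarith

open Classical in
theorem fib {ι : Type} (I : Finset ι) (f : ι → ℤ) {a B n : ℝ} (hB : 0 ≤ B) (hn : (#(I.image f) : ℝ) ≤ n)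
    (h : ∀ k, a * #(I.filter fun i => f i = k) ≤ B) : a * #I ≤ n * B := by
  rw [Finset.card_eq_sum_card_image f I]
  push_cast
  rw [Finset.mul_sum]
  calc _ ≤ ∑ _k ∈ I.image f, B := Finset.sum_le_sum fun k _ => by convert h k
    _ = #(I.image f) * B := by simp
    _ ≤ _ := mul_le_mul_of_nonneg_right hn hB

theorem Ee_nonneg (S : Sc) (ψ : E d → ℝ) (g : E d → ℂ) {α : ℝ} (hα : 0 < α) (q : E d × ℝ) {ρ : ℝ} (hρ : 0 ≤ ρ)
    (c : Zv d) : 0 ≤ S.Ee ψ g α q ρ c :=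
  Finset.sum_nonneg fun θ _ => le_min (integral_nonneg fun _ => sq_nonneg _)
    (mul_nonneg (S.Lam_pos d hα).le (by positivity))

theorem Fm_sub {S : Sc} {A : Finset (E d × ℝ)} {c : E d} {ι : Type} {I J : Finset ι} {p pt : ι → E d × ℝ}
    {sl : ι → ℤ} (h : Fm S A c I p pt sl) (hJ : J ⊆ I) : Fm S A c J p pt sl :=
  ⟨fun i hi => h.mem i (hJ hi), fun i hi => h.tm i (hJ hi), fun i hi => h.nr i (hJ hi),
    fun i hi j hj => h.inj i (hJ hi) j (hJ hj)⟩

/-- the anchors are close to the points -/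
theorem anc {S : Sc} {A : Finset (E d × ℝ)} {c : E d} {ι : Type} {I : Finset ι} {p pt : ι → E d × ℝ}
    {sl : ι → ℤ} (h : Fm S A c I p pt sl) (hc : ‖c‖ ≤ 5) (hd : (d : ℝ) ≤ S.w) (hw : 40 ≤ S.w) {i : ι} (hi : i ∈ I) :
    Nb (S.w ^ 103) (pt i) (p i) := by
  obtain ⟨-, t1, t2⟩ := h.tm i hi
  have n1 := h.nr i hi
  have r2 := S.r2_le
  have hr := S.r_pos
  have e1 : 13 * S.w ^ 102 ≤ S.w ^ 103 := S.mul_pw_le (by linarith) le_rfl
  have e0 := S.pw_pos 102
  constructor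
  · have e2 : (2 * S.w + d) * S.r ≤ 3 * S.w ^ 102 :=
      calc (2 * S.w + d) * S.r ≤ (3 * S.w) * S.w ^ 51 := mul_le_mul (by linarith) S.r_le hr.le (by linarith)
        _ = 3 * S.w ^ 52 := by ring
        _ ≤ _ := by have := S.pw_le (show 52 ≤ 102 by norm_num); linarith
    have e3 : ‖(2 * ((pt i).2 - (p i).2)) • c‖ ≤ 10 * S.w ^ 102 := by
      rw [norm_smul, Real.norm_of_nonneg (by linarith)]
      calc 2 * ((pt i).2 - (p i).2) * ‖c‖ ≤ 2 * S.w ^ 102 * 5 :=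
            mul_le_mul (by linarith) hc (norm_nonneg _) (by linarith)
        _ = _ := by ring
    have e4 : (p i).1 - (pt i).1 = ((p i).1 - ((pt i).1 - (2 * ((pt i).2 - (p i).2)) • c)) -
        (2 * ((pt i).2 - (p i).2)) • c := by abel
    rw [e4]
    linarith [norm_sub_le ((p i).1 - ((pt i).1 - (2 * ((pt i).2 - (p i).2)) • c)) ((2 * ((pt i).2 - (p i).2)) • c)]
  · rw [abs_le]; constructor <;> linarith

theorem Nb_trans {a b : ℝ} {p q s : E d × ℝ} (h1 : Nb a p q) (h2 : Nb b q s) : Nb (a + b) p s := by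
  constructor
  · have := norm_sub_le_norm_sub_add_norm_sub s.1 q.1 p.1
    linarith [h1.1, h2.1]
  · have := abs_sub_le s.2 q.2 p.2
    linarith [h1.2, h2.2]

theorem Nb_mono {a b : ℝ} {p q : E d × ℝ} (h1 : Nb a p q) (h : a ≤ b) : Nb b p q := ⟨h1.1.trans h, h1.2.trans h⟩

theorem Nb_symm {a : ℝ} {p q : E d × ℝ} (h1 : Nb a p q) : Nb a q p :=
  ⟨by rw [norm_sub_rev]; exact h1.1, by rw [abs_sub_comm]; exact h1.2⟩

theorem sm1 (S : Sc) (hd : (d : ℝ) ≤ S.w) (hw : 40 ≤ S.w) : d * S.rb + S.w ^ 103 ≤ S.r0 / 20 := by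
  have e1 : d * S.rb ≤ S.w ^ 1251 := S.mul_pw_le hd le_rfl
  have e2 := S.pw_le (show 103 ≤ 1251 by norm_num)
  have e3 : 40 * S.w ^ 1251 ≤ S.w ^ 2533 := S.mul_pw_le hw (by norm_num)
  have e4 := S.le_r0
  linarith

theorem r0_le_ts (S : Sc) : S.r0 ≤ S.ts := by
  rw [S.ts_eq]; exact S.r0_le.trans (S.pw_le (by norm_num))

open Classical in
/-- the number of the packets -/
theorem card_fm {S : Sc} {A : Finset (E d × ℝ)} {c : E d} {ι : Type} {I : Finset ι} {p pt : ι → E d × ℝ}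
    {sl : ι → ℤ} (h : Fm S A c I p pt sl) (hw : 40 ≤ S.w) {p₀ : E d × ℝ} (hn : ∀ i ∈ I, Nb (2 * S.ts) p₀ (p i)) :
    (#I : ℝ) ≤ S.w ^ (2611 * (d + 1)) := by
  have hr := S.r_pos
  have hr1 := S.one_le_r
  have ht : 1 ≤ S.ts := by rw [S.ts_eq]; exact S.one_le_pw _
  have hr2 : 1 ≤ S.r ^ 2 := one_le_pow₀ hr1
  have h1 : (#(I.image sl) : ℝ) ≤ 4 * S.ts / S.r ^ 2 + 1 := by
    refine card_int (a := (p₀.2 - 2 * S.ts) / S.r ^ 2) (by positivity) _ fun k hk => ?_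
    obtain ⟨i, hi, rfl⟩ := mem_image.1 hk
    have a1 := (h.tm i hi).1
    have a2 := abs_le.1 (hn i hi).2
    rw [← add_div, div_le_iff₀ (by positivity), le_div_iff₀ (by positivity)]
    constructor <;> linarith
  have h2 : 4 * S.ts / S.r ^ 2 + 1 ≤ 6 * S.ts := by
    have : 4 * S.ts / S.r ^ 2 ≤ 4 * S.ts := div_le_self (by linarith) hr2
    linarith
  have h3 : 6 * S.ts ≤ S.w ^ 2611 := by rw [S.ts_eq]; exact S.mul_pw_le (by linarith) le_rfl
  have h4 := fib I sl (a := 1) (B := (S.w ^ 2611) ^ d) (by have := S.w_pos; positivity) (h1.trans (h2.trans h3))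
    fun k => by
      rw [one_mul]
      refine (card_ball hr (T := 2 * S.ts) (by linarith) _ (fun i => (p i).1) ?_ p₀.1 ?_).trans ?_
      · intro i hi j hj hij
        obtain ⟨hi1, hi2⟩ := mem_filter.1 hi
        obtain ⟨hj1, hj2⟩ := mem_filter.1 hj
        exact h.inj i hi1 j hj1 (hi2.trans hj2.symm) hij
      · intro i hi k
        exact (abs_apply_le ((p i).1 - p₀.1) k).trans (hn i (mem_filter.1 hi).1).1
      · refine pow_le_pow_left₀ (by positivity) ?_ d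
        have : 2 * (2 * S.ts) / S.r ≤ 2 * (2 * S.ts) := div_le_self (by linarith) hr1
        linarith
  calc (#I : ℝ) = 1 * #I := (one_mul _).symm
    _ ≤ _ := h4
    _ = _ := by rw [pow_mul, pow_succ]; ring

open Classical in
/-- the local Bessel inequality for a subfamily -/
theorem lb1 (hd : 2 ≤ d) (hL : LBS d) {ψ : E d → ℝ} (hψ : Prt ψ) : ∃ (N : ℕ) (C w₀ : ℝ), 2 * d ≤ N ∧
    2611 * (d + 1) ≤ N ∧ 1 ≤ C ∧
    ∀ (S : Sc) (g : E d → ℂ) (α φ Y B : ℝ) (A : Finset (E d × ℝ)) (β : Type) (bl : E d × ℝ → β) (base : β → E d × ℝ)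
      (L : β → Finset (Zv d)) (p₀ : E d × ℝ) (c : Zv d) (ι : Type) (J : Finset ι) (p pt : ι → E d × ℝ) (sl : ι → ℤ)
      (a : ℝ) (q : E d × ℝ) (ρ₂ σ : ℝ), w₀ ≤ S.w → HK S ψ g α φ Y B A bl base L p₀ → 0 ≤ en g →
      Fm S A (ce S.r c) J p pt sl → ‖ce S.r c‖ ≤ 5 → (#J : ℝ) ≤ S.w ^ N → α ≤ S.l d * a →
      (∀ i ∈ J, a ≤ ‖Uu (cs ψ S.M ((L (bl (pt i))).filter fun θ => S.par θ = c) g) (p i)‖) → S.r0 ≤ ρ₂ →
      (∀ j ∈ J, |(p j).2 - q.2| ≤ 3 * S.ts ∧ ∀ θ ∈ Th d S.M, S.par θ = c →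
        ‖(p j).1 - (2 * ((p j).2 - q.2)) • ce S.M θ - q.1‖ + S.r0 ≤ ρ₂) → 0 ≤ σ →
      (∀ i ∈ J, ∑ j ∈ J, kk N (8 * d) S.r (ce S.r c) p (fun i => bl (pt i)) i j ≤ σ) →
      a ^ 2 * S.r ^ d * #J ≤ C * (σ + 1) * S.Ee ψ g α q ρ₂ c := by
  set N : ℕ := 2611 * (d + 1) + 1300 * (d + 2) * (2 * d + 2) + 1701 * d + 1 with hN
  obtain ⟨C, hC, hl⟩ := hL ψ (2 * d) N hψ le_rfl
  refine ⟨N, C, max C (max 40 (2 * d)), by omega, by omega, hC, ?_⟩
  intro S g α φ Y B A β bl base L p₀ c ι J p pt sl a q ρ₂ σ hw H hen F hc hJ ha hamp hρ hq hσ hrow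
  have wC : C ≤ S.w := (le_max_left _ _).trans hw
  have w40 : 40 ≤ S.w := ((le_max_left _ _).trans (le_max_right _ _)).trans hw
  have w2d : 2 * (d : ℝ) ≤ S.w := ((le_max_right _ _).trans (le_max_right _ _)).trans hw
  have d2 : (2 : ℝ) ≤ d := by exact_mod_cast hd
  have wd : (d : ℝ) ≤ S.w := by linarith
  have hr := S.r_pos
  have hM := S.M_pos
  have hw0 := S.w_pos
  have hl0 := S.l_pos d
  have hα := H.pos
  have ha0 : 0 < a := by
    by_contra h
    have := mul_nonpos_of_nonneg_of_nonpos hl0.le (not_lt.1 h)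
    linarith
  have key := hl g S.M S.r S.w (S.Lam d α) S.r0 ρ₂ (3 * S.ts) a σ (ce S.r c)
    ((Th d S.M).filter fun θ => S.par θ = c) ι β J p (fun i => bl (pt i)) base
    (fun b => (L b).filter fun θ => S.par θ = c) q H.bd
    ⟨by linarith, w2d.trans S.w_le_r, S.r_le_M, by linarith [S.w_le_M], hc, fun θ hθ => by
      have := S.par_near θ
      rw [(mem_filter.1 hθ).2] at this
      linarith⟩
    (filter_subset _ _) (fun b => filter_subset_filter _ (H.sub b)) S.one_le_w S.r0_pos.le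
    (by linarith [r0_le_ts S, S.ts_pos]) hρ
    (by
      have e1 : 2 * (3 * S.ts) / S.M ≤ 6 * S.w ^ 2210 := by
        rw [div_le_iff₀ hM, S.ts_eq]
        calc 2 * (3 * S.w ^ 2610) = 6 * S.w ^ 2210 * S.w ^ 400 := by ring
          _ ≤ _ := mul_le_mul_of_nonneg_left S.le_M (by positivity)
      have e2 : S.M ≤ S.w ^ 2210 := S.M_le.trans (S.pw_le (by norm_num))
      have e3 : 7 * S.w ^ 2211 ≤ S.w ^ 2533 := S.mul_pw_le (by linarith) (by norm_num)
      calc S.w * (S.M + 2 * (3 * S.ts) / S.M) ≤ S.w * (7 * S.w ^ 2210) :=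
            mul_le_mul_of_nonneg_left (by linarith) hw0.le
        _ = 7 * S.w ^ 2211 := by ring
        _ ≤ _ := e3.trans S.le_r0)
    (fun i hi j hj hne => by
      have n1 := anc F hc wd w40 hi
      have n2 := anc F hc wd w40 hj
      have e1 := S.M3_le
      have e2 := S.pw_le (show 103 ≤ 1203 by norm_num)
      have e3 : 3 * S.w ^ 1203 ≤ S.rb := S.mul_pw_le (by linarith) (by norm_num)
      rcases H.sep _ (F.mem i hi) _ (F.mem j hj) hne with h | h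
      · left
        have a1 := norm_sub_le_norm_sub_add_norm_sub (pt j).1 (p j).1 (pt i).1
        have a2 := norm_sub_le_norm_sub_add_norm_sub (p j).1 (p i).1 (pt i).1
        linarith [n1.1, (Nb_symm n2).1]
      · right
        have a1 := abs_sub_le (pt j).2 (p j).2 (pt i).2
        have a2 := abs_sub_le (p j).2 (p i).2 (pt i).2
        linarith [n1.2, (Nb_symm n2).2])
    (fun j hj => ⟨Nb_mono (Nb_trans (H.nb _ (F.mem j hj)) (anc F hc wd w40 hj)) (sm1 S wd w40), (hq j hj).1,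
      hamp j hj, fun θ hθ => ⟨(hq j hj).2 θ (H.sub _ (mem_filter.1 hθ).1) (mem_filter.1 hθ).2,
        H.lt _ (F.mem j hj) θ (mem_filter.1 hθ).1⟩⟩)
    hσ (fun i hi => by
      have e : 4 * (2 * (d : ℝ)) = 8 * d := by ring
      rw [e]; exact hrow i hi)
    (by
      calc (#J : ℝ) * (S.r / S.M) ^ N ≤ S.w ^ N * S.w⁻¹ ^ N :=
            mul_le_mul hJ (pow_le_pow_left₀ (by positivity) S.r_div_M N) (by positivity) (by positivity)
        _ = 1 := by rw [← mul_pow, mul_inv_cancel₀ hw0.ne', one_pow])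
    ha0
    (by
      have e1 : C * S.l d ^ (2 * d + 2) ≤ S.w ^ N := by
        unfold Sc.l
        rw [← pow_mul]
        exact S.mul_pw_le wC (by omega)
      have e2 : en g ≤ S.l d ^ (2 * d + 2) * a ^ 2 :=
        calc en g ≤ S.l d ^ (2 * d) * α ^ 2 := H.enl
          _ ≤ S.l d ^ (2 * d) * (S.l d * a) ^ 2 :=
            mul_le_mul_of_nonneg_left (pow_le_pow_left₀ hα.le ha 2) (pow_pos hl0 _).le
          _ = _ := by ring
      rw [mul_assoc, mul_left_comm, inv_mul_le_iff₀ (by positivity)]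
      calc C * en g ≤ C * (S.l d ^ (2 * d + 2) * a ^ 2) := by gcongr
        _ = C * S.l d ^ (2 * d + 2) * a ^ 2 := by ring
        _ ≤ _ := by gcongr)
    (by
      have e0 : S.l d ^ (2 * d) ≤ S.l d ^ (2 * d + 2) := pow_le_pow_right₀ (S.one_le_l d) (by omega)
      have e1 : C * (S.l d ^ (2 * d + 2) * (S.s0 ^ d * (S.w ^ 401) ^ d)) ≤ S.w ^ N := by
        unfold Sc.l Sc.s0
        rw [← pow_mul, ← pow_mul, ← pow_mul, ← pow_add, ← pow_add]
        exact S.mul_pw_le wC (by omega)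
      have e2 : S.M ^ d ≤ (S.w ^ 401) ^ d := pow_le_pow_left₀ hM.le S.M_le d
      have e3 := S.one_le_pw 3
      have hs := S.s0_pos
      have e4 : S.Lam d α = S.w ^ 3 * α ^ 2 / (S.s0 ^ d * S.M ^ d) := by
        unfold Sc.Lam Sc.Y0; field_simp
      rw [mul_assoc, mul_left_comm, inv_mul_le_iff₀ (by positivity), e4, mul_div_assoc',
        le_div_iff₀ (mul_pos (pow_pos hs _) (pow_pos hM _))]
      have e5 : en g ≤ S.l d ^ (2 * d + 2) * α ^ 2 :=
        H.enl.trans (mul_le_mul_of_nonneg_right e0 (sq_nonneg _))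
      have e6 : 0 < S.l d ^ (2 * d + 2) := pow_pos hl0 _
      have e7 : 0 < S.s0 ^ d := pow_pos hs _
      have e8 : 0 < S.M ^ d := pow_pos hM _
      have e9 : 0 < S.w ^ N := pow_pos hw0 _
      generalize S.l d ^ (2 * d + 2) = x1 at *
      generalize S.s0 ^ d = x2 at *
      generalize (S.w ^ 401) ^ d = x3 at *
      generalize S.M ^ d = x4 at *
      generalize S.w ^ N = x5 at *
      generalize S.w ^ 3 = x6 at *
      calc C * en g * (x2 * x4) ≤ C * (x1 * α ^ 2) * (x2 * x3) := by gcongr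
        _ = C * (x1 * (x2 * x3)) * (1 * α ^ 2) := by ring
        _ ≤ _ := by gcongr)
  have e : a ^ 2 * S.r ^ d * #J = S.r ^ d * (a ^ 2 * #J) := by ring
  rw [e, ← le_div_iff₀' (by positivity)]
  refine key.trans (le_of_eq ?_)
  unfold Sc.Ee
  field_simp

end Cnt

end

end Vale.Agent.P076N.KEY
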