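import Vale.Agent.P076N.KEY.Sc

/-!
# P076N / KEY : the row DEN, first part (one step, the top scale)
-/

set_option linter.all false

open MeasureTheory Finset

namespace Vale.Agent.P076N.KEY

open Vale.Agent.P076 Vale.Agent.P076N Vale.Agent.P076T

namespace Den

variable {d : ℕ}

open Classical in
/-- removing the points that violate one of finitely many conditions -/
theorem exc {σ ι : Type} [DecidableEq σ] (A : Finset σ) (I : Finset ι) (P : ι → σ → Prop) (X : ℝ)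
    (h : ∀ i ∈ I, (#(A.filter (P i)) : ℝ) ≤ X) :
    ∃ A' ⊆ A, (#(A \ A') : ℝ) ≤ #I * X ∧ ∀ p ∈ A', ∀ i ∈ I, ¬ P i p := by
  refine ⟨A.filter fun p => ∀ i ∈ I, ¬ P i p, filter_subset _ _, ?_, fun p hp => (mem_filter.1 hp).2⟩
  have h1 : A \ A.filter (fun p => ∀ i ∈ I, ¬ P i p) ⊆ I.biUnion fun i => A.filter (P i) := by
    intro p hp
    rw [mem_sdiff, mem_filter] at hp
    obtain ⟨hp1, hp2⟩ := hp
    by_contra hc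
    refine hp2 ⟨hp1, fun i hi hP => hc (mem_biUnion.2 ⟨i, hi, mem_filter.2 ⟨hp1, hP⟩⟩)⟩
  have h2 := (card_le_card h1).trans card_biUnion_le
  calc (#(A \ A.filter (fun p => ∀ i ∈ I, ¬ P i p)) : ℝ) ≤ ∑ i ∈ I, (#(A.filter (P i)) : ℝ) := by exact_mod_cast h2
    _ ≤ ∑ _i ∈ I, X := sum_le_sum h
    _ = #I * X := by rw [sum_const, nsmul_eq_mul]

theorem wg_mono {B ℓ : ℝ} {A A' : Finset (E d × ℝ)} (h : WG B ℓ A) (hs : A' ⊆ A) : WG B ℓ A' := by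
  classical
  intro y s
  refine le_trans ?_ (h y s)
  exact_mod_cast card_le_card (by convert filter_subset_filter _ hs)

theorem prof_le {s ρ : ℝ} (hs : 0 < s) (h : s ≤ ρ) :
    prof d s ρ * s ^ (d + 2) ≤ 2 ^ d * ρ ^ (d + 1) * (1 + s ^ 2 / ρ) := by
  have hρ : 0 < ρ := hs.trans_le h
  have h1 : (1 + ρ / s) * s ≤ 2 * ρ := by
    rw [add_mul, div_mul_cancel₀ _ hs.ne']; linarith
  have h2 : (1 + ρ / s ^ 2) * s ^ 2 = ρ * (1 + s ^ 2 / ρ) := by field_simp; ring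
  calc prof d s ρ * s ^ (d + 2) = ((1 + ρ / s) * s) ^ d * ((1 + ρ / s ^ 2) * s ^ 2) := by
        unfold prof; rw [mul_pow]; ring
    _ ≤ (2 * ρ) ^ d * (ρ * (1 + s ^ 2 / ρ)) := by
        rw [h2]; gcongr
    _ = _ := by rw [mul_pow]; ring

/-- the numbers of one step -/
theorem num_step {n P l w k Y C e u pr c : ℝ} (hn : 0 ≤ n) (hl : 0 < l) (hw : 0 < w) (hk : 0 < k) (hY : 0 < Y)
    (hC : 0 ≤ C) (hc : 0 ≤ c) (hu : 0 ≤ u) (hP : 0 ≤ P) (L : ℝ) (hL : 0 ≤ L) (he : e ≤ w * Y * L)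
    (h1 : n * P * (Y / w ^ 2) ^ 2 ≤ C * l ^ 2 * (2 / k) * (w ^ 3 * Y) * e) (h2 : pr * l ≤ c * P * u)
    (h3 : 2 * C * c * w ^ 10 * u ≤ k) : n * pr * w ^ 2 ≤ L * l := by
  have a1 : n * P * k ≤ 2 * C * w ^ 8 * l ^ 2 * L := by
    have b1 : n * P * (Y / w ^ 2) ^ 2 ≤ C * l ^ 2 * (2 / k) * (w ^ 3 * Y) * (w * Y * L) :=
      h1.trans (by gcongr)
    have b2 : n * P * k = n * P * (Y / w ^ 2) ^ 2 * (k * w ^ 4 / Y ^ 2) := by field_simp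
    have b3 : 2 * C * w ^ 8 * l ^ 2 * L = C * l ^ 2 * (2 / k) * (w ^ 3 * Y) * (w * Y * L) * (k * w ^ 4 / Y ^ 2) := by
      field_simp
    rw [b2, b3]
    gcongr
  have a2 : n * pr * w ^ 2 * (l * k) ≤ L * l * (l * k) := by
    calc n * pr * w ^ 2 * (l * k) = n * (pr * l) * w ^ 2 * k := by ring
      _ ≤ n * (c * P * u) * w ^ 2 * k := by gcongr
      _ = n * P * k * (c * u * w ^ 2) := by ring
      _ ≤ 2 * C * w ^ 8 * l ^ 2 * L * (c * u * w ^ 2) := by gcongr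
      _ = (2 * C * c * w ^ 10 * u) * (l ^ 2 * L) := by ring
      _ ≤ k * (l ^ 2 * L) := by gcongr
      _ = L * l * (l * k) := by ring
  exact le_of_mul_le_mul_right a2 (by positivity)

/-- admissible steps -/
def Adm (S : Sc) (d : ℕ) (C : ℝ) (s : ℝ × ℝ) : Prop := ∃ k : ℝ, 1 ≤ k ∧ k ≤ S.M ∧ S.s0 ≤ s.1 ∧ 10 * s.1 ≤ s.2 ∧
  k ^ 2 * s.2 ≤ S.l d ^ 2 ∧ S.w * (S.M + k ^ 2 * s.2 / S.M) ≤ s.1 ∧
  2 * C * 2 ^ d * S.w ^ 10 * (1 + S.s0 ^ 2 / s.1) ≤ k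

open Classical in
/-- few cubes violate an admissible step -/
theorem step {ψ : E d → ℝ} {N : ℕ} {C : ℝ} (hC : 1 ≤ C)
    (hS : ∀ (g : E d → ℂ) (M Λ y ρ ρ₂ K m T : ℝ) (A : Finset (E d × ℝ)), Bd 3 g → 1 ≤ M → 0 < Λ → 0 < y → 1 ≤ K →
      1 ≤ m → 0 < ρ → 10 * ρ ≤ ρ₂ → K * ρ₂ ≤ T → m * (M + K * ρ₂ / M) ≤ ρ → C * (m ^ N)⁻¹ * en g ≤ y →
      (∀ p ∈ A, 0 ≤ p.2 ∧ p.2 ≤ T ∧ C * Dn ψ M Λ g p ρ₂ + y ≤ Dn ψ M Λ g p ρ) →
      (#(A.image (cub ρ)) : ℝ) * ρ ^ (d + 1) * y ^ 2 ≤ C * T * M ^ d * (M⁻¹ + (√K)⁻¹) * Λ * en g)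
    (S : Sc) (g : E d → ℂ) (A : Finset (E d × ℝ)) (α : ℝ) (hg : Bd 3 g) (hα : 0 < α) (h0 : 0 ≤ en g)
    (he : en g ≤ S.w * S.Y0 d α * S.l d ^ (2 * d)) (hN : C * (S.w ^ N)⁻¹ * en g ≤ S.Ys d α) (s : ℝ × ℝ)
    (hs : Adm S d C s)
    (hA : ∀ p ∈ A, 0 ≤ p.2 ∧ p.2 ≤ S.l d ^ 2 ∧ C * S.D ψ g α p s.2 + S.Ys d α ≤ S.D ψ g α p s.1) :
    (#(A.image (cub s.1)) : ℝ) * prof d S.s0 s.1 * S.w ^ 2 ≤ S.l d ^ (2 * d + 1) := by
  obtain ⟨k, k1, kM, h1, h2, h3, h4, h5⟩ := hs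
  have hρ : 0 < s.1 := S.s0_pos.trans_le h1
  have hk : 0 < k := by linarith
  have hM := S.M_pos
  have hw := S.w_pos
  have hY := S.Y0_pos d hα
  have a1 := hS g S.M (S.Lam d α) (S.Ys d α) s.1 s.2 (k ^ 2) S.w (S.l d ^ 2) A hg S.one_le_M (S.Lam_pos d hα)
    (S.Ys_pos d hα) (one_le_pow₀ k1) S.one_le_w hρ h2 h3 h4 hN hA
  rw [Real.sqrt_sq hk.le] at a1
  have a2 : S.M⁻¹ + k⁻¹ ≤ 2 / k := by
    have : S.M⁻¹ ≤ k⁻¹ := inv_anti₀ hk kM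
    rw [div_eq_mul_inv]; linarith
  have a3 : S.M ^ d * S.Lam d α = S.w ^ 3 * S.Y0 d α := by unfold Sc.Lam; field_simp
  have a4 := prof_le (d := d) S.s0_pos h1
  rw [← S.l_eq] at a4
  rw [pow_succ (S.l d) (2 * d)]
  refine num_step (P := s.1 ^ (d + 1)) (Y := S.Y0 d α) (C := C) (e := en g) (by positivity) (S.l_pos d) hw hk hY
    (by linarith) (by positivity) (by have := S.s0_pos; positivity) (by positivity) _
    (by have := S.l_pos d; positivity) he ?_ a4 h5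
  refine a1.trans ?_
  calc C * S.l d ^ 2 * S.M ^ d * (S.M⁻¹ + k⁻¹) * S.Lam d α * en g
      = C * S.l d ^ 2 * (S.M⁻¹ + k⁻¹) * (S.M ^ d * S.Lam d α) * en g := by ring
    _ ≤ C * S.l d ^ 2 * (2 / k) * (S.w ^ 3 * S.Y0 d α) * en g := by
        rw [a3]; gcongr

theorem cor_near {τ : ℝ} (hτ : 0 < τ) (p : E d × ℝ) :
    ‖p.1 - (cor τ (cub τ p)).1‖ ≤ d * τ ∧ |p.2 - (cor τ (cub τ p)).2| ≤ τ := by
  have key : ∀ x : ℝ, |x - τ * (⌊x / τ⌋ : ℤ)| ≤ τ := by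
    intro x
    have h1 := Int.floor_le (x / τ)
    have h2 := Int.lt_floor_add_one (x / τ)
    rw [le_div_iff₀ hτ] at h1
    rw [div_lt_iff₀ hτ] at h2
    rw [abs_le]; constructor <;> nlinarith
  refine ⟨?_, key _⟩
  have h1 : ‖p.1 - (cor τ (cub τ p)).1‖ ^ 2 ≤ (d * τ) ^ 2 := by
    rw [EuclideanSpace.real_norm_sq_eq]
    calc ∑ i, (p.1 - (cor τ (cub τ p)).1) i ^ 2 ≤ ∑ _i : Fin d, τ ^ 2 := by
          refine sum_le_sum fun i _ => ?_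
          have := key (p.1 i)
          exact sq_le_sq' (abs_le.1 this).1 (abs_le.1 this).2
      _ = d * τ ^ 2 := by rw [sum_const, card_univ, Fintype.card_fin, nsmul_eq_mul]
      _ ≤ (d * τ) ^ 2 := by
          rw [mul_pow]
          have : (d : ℝ) ≤ (d : ℝ) ^ 2 := by exact_mod_cast Nat.le_self_pow (by norm_num) d
          gcongr
  exact (sq_le_sq₀ (norm_nonneg _) (by positivity)).1 h1

/-- the top scale -/
theorem top (hd : 1 ≤ d) (hB : BAS d) (hF : FS d) (hR : RORT d) {ψ : E d → ℝ} (hψ : Prt ψ) (N : ℕ) :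
    ∃ C : ℝ, 0 ≤ C ∧ ∀ (g : E d → ℂ) (M Λ τ m : ℝ) (p : E d × ℝ), Bd 3 g → 1 ≤ M → 1 ≤ m → 2 * m ≤ M → 2 * m * M ≤ τ →
      Dn ψ M Λ g p τ ≤ 4 * (lE g (cor τ (cub τ p)) (100 * d * τ) / τ ^ d) + C * (m ^ N)⁻¹ * en g := by
  have hd' : (1 : ℝ) ≤ d := by exact_mod_cast hd
  obtain ⟨C1, hC1, h1⟩ := hF d N (by linarith)
  obtain ⟨C2, hC2, h2⟩ := hR ψ N hψ
  refine ⟨C1 + 2 * C2 * (50 * d) ^ d, by positivity, fun g M Λ τ m p hg hM hm hmM hτ => ?_⟩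
  obtain ⟨b1, -, -, b4, -⟩ := hB
  obtain ⟨c1, c2, -⟩ := b4 ψ 3 M g hψ (by linarith) hg
  have hτ0 : 0 < τ := by nlinarith
  have hτ1 : m * M ≤ τ := by nlinarith
  obtain ⟨n1, n2⟩ := cor_near hτ0 p
  set p₀ := cor τ (cub τ p) with hp₀
  have hen : 0 ≤ en g := (b1 3 g hg).2.2.1
  have a1 : ∀ θ ∈ Th d M, lE (cp ψ M θ g) p τ ≤
      2 * lE (cp ψ M θ g) p₀ (50 * d * τ) + C1 * (m ^ N)⁻¹ * τ ^ d * en (cp ψ M θ g) := by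
    intro θ hθ
    have hc : ‖ce M θ‖ ≤ 4 := by
      unfold Th at hθ
      exact (mem_filter.1 hθ).2
    have e1 : ‖p.1 - (2 * (p.2 - p₀.2)) • ce M θ - p₀.1‖ ≤ d * τ + 8 * τ := by
      rw [sub_right_comm]
      refine (norm_sub_le _ _).trans (add_le_add n1 ?_)
      rw [norm_smul, Real.norm_eq_abs, abs_mul, abs_two]
      nlinarith [abs_nonneg (p.2 - p₀.2), norm_nonneg (ce M θ)]
    have e2 : m * (M + |p.2 - p₀.2| / M) ≤ τ := by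
      have : m * (|p.2 - p₀.2| / M) ≤ τ / 2 := by
        rw [← mul_div_assoc, div_le_iff₀ (by linarith)]
        nlinarith [abs_nonneg (p.2 - p₀.2)]
      nlinarith
    refine (h1 M (ce M θ) 3 _ p p₀ τ (50 * d * τ) m (by linarith) hm hτ0.le (c1 θ).1 (c1 θ).2 (by nlinarith)).trans ?_
    have e3 : 0 ≤ en (cp ψ M θ g) := (b1 3 _ (c1 θ).1).2.2.1
    have e4 : τ / M ≤ τ := div_le_self hτ0.le hM
    gcongr
  have a2 := h2 M 3 g p₀ (50 * d * τ) m hM hm (by positivity) hg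
  have a3 : lE g p₀ (50 * d * τ + m * M) ≤ lE g p₀ (100 * d * τ) :=
    (b1 3 g hg).2.2.2.2.2.1 _ _ _ (by nlinarith)
  have a4 := (c2 (Th d M)).2.2.1
  have a5 : ∑ θ ∈ Th d M, lE (cp ψ M θ g) p τ ≤
      4 * lE g p₀ (100 * d * τ) + (C1 + 2 * C2 * (50 * d) ^ d) * (m ^ N)⁻¹ * en g * τ ^ d := by
    refine (sum_le_sum a1).trans ?_
    rw [sum_add_distrib, ← mul_sum, ← mul_sum]
    have e1 : C1 * (m ^ N)⁻¹ * τ ^ d * ∑ θ ∈ Th d M, en (cp ψ M θ g) ≤ C1 * (m ^ N)⁻¹ * τ ^ d * en g := by gcongr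
    rw [mul_pow (50 * (d : ℝ)) τ] at a2
    nlinarith
  calc Dn ψ M Λ g p τ ≤ ∑ θ ∈ Th d M, lE (cp ψ M θ g) p τ / τ ^ d := sum_le_sum fun θ _ => min_le_left _ _
    _ = (∑ θ ∈ Th d M, lE (cp ψ M θ g) p τ) / τ ^ d := by rw [sum_div]
    _ ≤ (4 * lE g p₀ (100 * d * τ) + (C1 + 2 * C2 * (50 * d) ^ d) * (m ^ N)⁻¹ * en g * τ ^ d) / τ ^ d := by gcongr
    _ = _ := by field_simp

/-- rounding up the scale -/
theorem Dn_up (hB : BAS d) {ψ : E d → ℝ} (hψ : Prt ψ) {g : E d → ℂ} (hg : Bd 3 g) {M Λ ρ ρ' : ℝ} (hM : 0 < M)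
    (hΛ : 0 ≤ Λ) (p : E d × ℝ) (hρ : 0 < ρ) (h1 : ρ ≤ ρ') (h2 : ρ' ≤ 2 * ρ) :
    Dn ψ M Λ g p ρ ≤ 2 ^ d * Dn ψ M Λ g p ρ' := by
  obtain ⟨b1, -, -, b4, -⟩ := hB
  obtain ⟨c1, -, -⟩ := b4 ψ 3 M g hψ hM hg
  unfold Dn
  rw [mul_sum]
  refine sum_le_sum fun θ _ => ?_
  have hρ' : 0 < ρ' := hρ.trans_le h1
  have e1 := (b1 3 _ (c1 θ).1).2.2.2.2.2.1 p ρ ρ' h1
  have e2 := ((b1 3 _ (c1 θ).1).2.2.2.2.1 p ρ').1
  rw [mul_min_of_nonneg _ _ (by positivity)]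
  refine min_le_min ?_ (le_mul_of_one_le_left hΛ (one_le_pow₀ (by norm_num)))
  calc lE (cp ψ M θ g) p ρ / ρ ^ d ≤ lE (cp ψ M θ g) p ρ' / ρ ^ d := by gcongr
    _ = 2 ^ d * (lE (cp ψ M θ g) p ρ' / (2 * ρ) ^ d) := by rw [mul_pow]; field_simp
    _ ≤ _ := by gcongr

end Den

end Vale.Agent.P076N.KEY
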