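import Vale.Agent.P076N.KEY.Sc

/-!
# P076N / KEY : row K2, the blocks and the removed caps
-/

set_option linter.all false

open MeasureTheory Finset

namespace Vale.Agent.P076N.KEY

open Vale.Agent.P076 Vale.Agent.P076N Vale.Agent.P076T

noncomputable section

namespace K2x

open Classical

variable {d : ℕ}

theorem split {X Q κ : Type} [DecidableEq X] [DecidableEq Q] [Fintype κ] [DecidableEq κ] (A : Finset X)
    (col : X → κ) (f : X → Q) (a : ℝ) (b : Q → ℝ)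
    (h : ∀ k, ∃ A' ⊆ A.filter (fun p => col p = k), (#(A.filter (fun p => col p = k) \ A') : ℝ) ≤ a ∧
      ∀ q, (#(A'.filter fun p => f p = q) : ℝ) ≤ b q) :
    ∃ A' ⊆ A, (#(A \ A') : ℝ) ≤ Fintype.card κ * a ∧
      ∀ q, (#(A'.filter fun p => f p = q) : ℝ) ≤ Fintype.card κ * b q := by
  choose F h1 h2 h3 using h
  have key : ∀ (G : Finset X) (H : κ → Finset X) (c : ℝ), (∀ k, (#(H k) : ℝ) ≤ c) →
      (∀ p ∈ G, ∃ k, p ∈ H k) → (#G : ℝ) ≤ Fintype.card κ * c := fun G H c hc hG => by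
    have : #G ≤ ∑ k, #(H k) := (Finset.card_le_card fun p hp => by simpa using hG p hp).trans
      (Finset.card_biUnion_le (s := univ) (t := H))
    calc (#G : ℝ) ≤ ∑ k, (#(H k) : ℝ) := by exact_mod_cast this
      _ ≤ _ := (Finset.sum_le_card_nsmul _ _ _ fun k _ => hc k).trans (by simp)
  refine ⟨univ.biUnion F, fun p hp => ?_, key _ _ _ h2 fun p hp => ⟨col p, ?_⟩, fun q => key _ _ _ (h3 · q) ?_⟩
  · obtain ⟨k, -, hk⟩ := Finset.mem_biUnion.1 hp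
    exact (Finset.mem_filter.1 (h1 k hk)).1
  · simp only [Finset.mem_sdiff, Finset.mem_biUnion, Finset.mem_filter] at hp ⊢
    exact ⟨⟨hp.1, trivial⟩, fun h => hp.2 ⟨_, Finset.mem_univ _, h⟩⟩
  · intro p hp
    simp only [Finset.mem_biUnion, Finset.mem_filter] at hp ⊢
    obtain ⟨⟨k, -, hk⟩, e⟩ := hp
    exact ⟨k, hk, e⟩

theorem fl_near {τ x y : ℝ} (hτ : 0 < τ) (h : ⌊x / τ⌋ = ⌊y / τ⌋) : |y - x| ≤ τ := by
  have := Int.abs_sub_lt_one_of_floor_eq_floor h.symm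
  rw [← sub_div, abs_div, abs_of_pos hτ, div_lt_one hτ] at this
  exact this.le

theorem fl_far {τ x y : ℝ} (hτ : 0 < τ) (h : ⌊x / τ⌋ ≠ ⌊y / τ⌋)
    (h2 : ((⌊x / τ⌋ : ℤ) : ZMod 2) = ((⌊y / τ⌋ : ℤ) : ZMod 2)) : τ ≤ |y - x| := by
  have h3 := (ZMod.intCast_eq_intCast_iff_dvd_sub _ _ 2).1 h2
  have a1 := Int.floor_le (x / τ)
  have a2 := Int.lt_floor_add_one (x / τ)
  have a3 := Int.floor_le (y / τ)
  have a4 := Int.lt_floor_add_one (y / τ)
  have h4 : 1 ≤ |(y - x) / τ| := by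
    rw [sub_div, le_abs]
    rcases (by omega : ⌊x / τ⌋ + 2 ≤ ⌊y / τ⌋ ∨ ⌊y / τ⌋ + 2 ≤ ⌊x / τ⌋) with h | h
    · have : (⌊x / τ⌋ : ℝ) + 2 ≤ ⌊y / τ⌋ := by exact_mod_cast h
      left; linarith
    · have : (⌊y / τ⌋ : ℝ) + 2 ≤ ⌊x / τ⌋ := by exact_mod_cast h
      right; linarith
  rwa [abs_div, abs_of_pos hτ, one_le_div hτ] at h4

theorem cub_nb (hd : 1 ≤ d) {τ : ℝ} (hτ : 0 < τ) {p p' : E d × ℝ} (h : cub τ p = cub τ p') : Nb (d * τ) p p' :=
  ⟨norm_le_mul fun k => fl_near hτ (congrFun (congrArg Prod.fst h) k),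
    (fl_near hτ (congrArg Prod.snd h)).trans (le_mul_of_one_le_left hτ.le (by exact_mod_cast hd))⟩

/-- the colour of a point -/
def col (τ : ℝ) (p : E d × ℝ) : (Fin d → ZMod 2) × ZMod 2 :=
  (fun k => ((cub τ p).1 k : ZMod 2), ((cub τ p).2 : ZMod 2))

theorem col_sep {τ : ℝ} (hτ : 0 < τ) {p p' : E d × ℝ} (h : col τ p = col τ p') (h' : cub τ p ≠ cub τ p') :
    τ ≤ ‖p'.1 - p.1‖ ∨ τ ≤ |p'.2 - p.2| := by
  by_cases h2 : (cub τ p).2 = (cub τ p').2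
  · obtain ⟨k, hk⟩ := Function.ne_iff.1 fun e : (cub τ p).1 = (cub τ p').1 => h' (Prod.ext e h2)
    exact .inl ((fl_far hτ hk (congrFun (congrArg Prod.fst h) k)).trans (P076T.abs_apply_le (p'.1 - p.1) k))
  · exact .inr (fl_far hτ h2 (congrArg Prod.snd h))

theorem card_lat {L T : ℝ} (hL : 0 < L) (hT : 0 ≤ T) (Z : Finset (Zv d)) (x₀ : E d)
    (h : ∀ θ ∈ Z, ∀ k, |ce L θ k - x₀ k| ≤ T) : (#Z : ℝ) ≤ (2 * T * L + 2) ^ d := by
  have := card_ball (inv_pos.2 hL) hT Z (ce L) (fun i _ j _ e => funext fun k => by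
    simpa [ce, toV, mul_div_cancel_left₀ _ (inv_pos.2 hL).ne'] using e k) x₀ h
  rwa [div_inv_eq_mul] at this

variable (S : Sc)

theorem par_norm (hw : (d : ℝ) ≤ S.w) {θ : Zv d} (h : θ ∈ Th d S.M) : ‖ce S.r (S.par θ)‖ ≤ 5 := by
  have h1 := S.par_near θ
  have h2 : ‖ce S.M θ - ce S.r (S.par θ)‖ ≤ 1 :=
    le_of_mul_le_mul_left (by linarith [S.w_le_r]) S.r_pos
  have h3 := norm_sub_le (ce S.M θ) (ce S.M θ - ce S.r (S.par θ))
  rw [sub_sub_cancel] at h3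
  linarith [mem_Th_norm h]

theorem card_par (hw : (d : ℝ) ≤ S.w) {L : Finset (Zv d)} (h : L ⊆ Th d S.M) :
    (#(L.image S.par) : ℝ) ≤ 13 ^ d * S.r ^ d := by
  refine (card_lat S.r_pos (T := 5) (by norm_num) _ 0 fun c hc k => ?_).trans ?_
  · obtain ⟨θ, h1, rfl⟩ := Finset.mem_image.1 hc
    simpa using (P076T.abs_apply_le _ k).trans (par_norm S hw (h h1))
  · rw [← mul_pow]
    exact pow_le_pow_left₀ (by linarith [S.r_pos]) (by linarith [S.one_le_r]) _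

theorem card_pre (F T : Finset (Zv d)) (h : ∀ θ ∈ F, S.par θ ∈ T) :
    (#F : ℝ) * S.r ^ d ≤ 4 ^ d * S.M ^ d * #T := by
  have r0 := S.r_pos
  have h1 : ∀ c, (#(F.filter fun θ => S.par θ = c) : ℝ) ≤ (4 * S.M / S.r) ^ d := fun c => by
    refine (card_lat S.M_pos (T := S.r⁻¹) (by positivity) _ (ce S.r c) fun θ hθ k => ?_).trans ?_
    · obtain ⟨a, b⟩ := S.par_coord θ k
      rw [← (Finset.mem_filter.1 hθ).2, abs_of_nonneg a, ← one_div, le_div_iff₀' r0]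
      exact b
    · have : 1 ≤ S.r⁻¹ * S.M := by rw [← div_eq_inv_mul, one_le_div r0]; exact S.r_le_M
      refine pow_le_pow_left₀ (by linarith) ?_ _
      rw [div_eq_mul_inv]; linarith
  have h2 : (#F : ℝ) ≤ #T * (4 * S.M / S.r) ^ d := by
    rw [Finset.card_eq_sum_card_fiberwise (f := S.par) (t := T) fun θ hθ => h θ hθ, Nat.cast_sum]
    exact (Finset.sum_le_card_nsmul _ _ _ fun c _ => h1 c).trans (nsmul_eq_mul _ _).le
  rw [div_pow, mul_pow, ← mul_div_assoc, le_div_iff₀ (by positivity)] at h2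
  linarith

theorem prof_sub {A A' : Finset (E d × ℝ)} (h : S.Prof A) (hs : A' ⊆ A) : S.Prof A' := fun p τ a b =>
  le_trans (by exact_mod_cast Finset.card_le_card (Finset.filter_subset_filter _ hs)) (h p τ a b)

theorem wg_sub {B l : ℝ} {A A' : Finset (E d × ℝ)} (h : WG B l A) (hs : A' ⊆ A) : WG B l A' := fun y s =>
  le_trans (by exact_mod_cast Finset.card_le_card (Finset.filter_subset_filter _ hs)) (h y s)

theorem crw_nn (A : Finset (E d × ℝ)) (p : E d × ℝ) (c : E d) : 0 ≤ S.crw A p c :=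
  Finset.sum_nonneg fun _ _ => by positivity

theorem crw_mono {A A' : Finset (E d × ℝ)} (hs : A' ⊆ A) (p : E d × ℝ) (c : E d) :
    S.crw A' p c ≤ S.crw A p c :=
  Finset.sum_le_sum_of_subset_of_nonneg (Finset.filter_subset_filter _ hs) fun _ _ _ => by positivity

theorem blk_le (hd : 1 ≤ d) (hw : (d : ℝ) ≤ S.w) (hw' : 2 ^ d ≤ S.w) {A : Finset (E d × ℝ)} (h : S.Prof A)
    (p : E d × ℝ) (F : Finset (E d × ℝ)) (hF : ∀ p' ∈ F, p' ∈ A ∧ cub S.rb p' = cub S.rb p) :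
    (#F : ℝ) ≤ S.w ^ 3 := by
  have d1 : (1 : ℝ) ≤ d := by exact_mod_cast hd
  have a1 : d * S.rb ≤ S.s0 := S.mul_pw_le hw (by norm_num)
  have a2 : 1 ≤ S.s0 := S.one_le_pw _
  have h1 := h p (d * S.rb) (one_le_mul_of_one_le_of_one_le d1 (S.one_le_pw _))
    (a1.trans (le_self_pow₀ a2 two_ne_zero))
  have h2 : (1 + d * S.rb / S.s0) ^ d ≤ 2 ^ d := pow_le_pow_left₀
    (add_nonneg zero_le_one (div_nonneg (mul_nonneg (Nat.cast_nonneg d) S.rb_pos.le) S.s0_pos.le))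
    (by rw [← div_le_one S.s0_pos] at a1; linarith) _
  calc (#F : ℝ) ≤ #(A.filter (Nb (d * S.rb) p)) := by
        exact_mod_cast Finset.card_le_card fun p' hp =>
          Finset.mem_filter.2 ⟨(hF p' hp).1, cub_nb hd S.rb_pos (hF p' hp).2.symm⟩
    _ ≤ S.w ^ 2 * S.w := h1.trans (mul_le_mul_of_nonneg_left (h2.trans hw') (S.pw_pos _).le)
    _ = _ := by ring

variable (ψ : E d → ℝ) (g : E d → ℂ) (α : ℝ) (A : Finset (E d × ℝ)) (b : (Fin d → ℤ) × ℤ)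

/-- the base point of a block -/
def bse : E d × ℝ := if h : ∃ p ∈ A, cub S.rb p = b then h.choose else 0

/-- the heavy caps -/
def Hv : Finset (Zv d) :=
  (Th d S.M).filter fun θ => S.Lam d α * (5 * S.r0) ^ d < lE (cp ψ S.M θ g) (bse S A b) (5 * S.r0)

/-- the crowded caps -/
def Bc : Finset (Zv d) := ((Th d S.M).image S.par).filter fun c =>
  ∃ p ∈ A, cub S.rb p = b ∧ 1 < S.w ^ (2 * d) * S.crw A p (ce S.r c)

/-- the removed caps -/
def Sb : Finset (Zv d) := (Th d S.M).filter fun θ => θ ∈ Hv S ψ g α A b ∨ S.par θ ∈ Bc S A b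

variable {A}

theorem bse_mem {p : E d × ℝ} (h : p ∈ A) :
    bse S A (cub S.rb p) ∈ A ∧ cub S.rb (bse S A (cub S.rb p)) = cub S.rb p := by
  have h1 : ∃ p' ∈ A, cub S.rb p' = cub S.rb p := ⟨p, h, rfl⟩
  rw [bse, dif_pos h1]
  exact h1.choose_spec

theorem card_Hv (hα : 0 < α) (h0 : ∀ θ p ρ, 0 ≤ lE (cp ψ S.M θ g) p ρ) :
    #(Hv S ψ g α A b) * S.Lam d α ≤ S.D ψ g α (bse S A b) (5 * S.r0) := by
  have r0 : 0 < (5 * S.r0) ^ d := by have := S.r0_pos; positivity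
  refine le_trans ?_ (Finset.sum_le_sum_of_subset_of_nonneg (s := Hv S ψ g α A b) (Finset.filter_subset _ _)
    fun θ _ _ => le_min (div_nonneg (h0 _ _ _) r0.le) (S.Lam_pos d hα).le)
  rw [← nsmul_eq_mul]
  refine Finset.card_nsmul_le_sum _ _ _ fun θ hθ => le_min ?_ le_rfl
  rw [le_div_iff₀ r0]
  exact (Finset.mem_filter.1 hθ).2.le

theorem card_Bc (hd : 1 ≤ d) (hw : (d : ℝ) ≤ S.w) (hw' : 2 ^ d ≤ S.w) (h : S.Prof A) {p : E d × ℝ}
    (hb : ∀ (p : E d × ℝ) (I : Finset (Zv d)), (∀ c ∈ I, ‖ce S.r c‖ ≤ 5) →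
      S.w ^ (2 * d + 5) * ∑ c ∈ I, S.crw A p (ce S.r c) ≤ S.r ^ d) :
    #(Bc S A (cub S.rb p)) * S.w ^ 2 ≤ S.r ^ d := by
  set F := A.filter fun p' => cub S.rb p' = cub S.rb p with hF
  set I := Bc S A (cub S.rb p) with hI
  have h1 : (#I : ℝ) ≤ ∑ c ∈ I, ∑ p' ∈ F, S.w ^ (2 * d) * S.crw A p' (ce S.r c) := by
    rw [← mul_one (#I : ℝ), ← nsmul_eq_mul]
    refine Finset.card_nsmul_le_sum _ _ _ fun c hc => ?_
    obtain ⟨p', a1, a2, a3⟩ := (Finset.mem_filter.1 hc).2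
    exact a3.le.trans (Finset.single_le_sum (f := fun p' => S.w ^ (2 * d) * S.crw A p' (ce S.r c))
      (fun _ _ => mul_nonneg (S.pw_pos _).le (crw_nn S _ _ _)) (Finset.mem_filter.2 ⟨a1, a2⟩))
  have h2 : S.w ^ 5 * #I ≤ #F * S.r ^ d := by
    refine (mul_le_mul_of_nonneg_left h1 (S.pw_pos _).le).trans ?_
    rw [Finset.sum_comm, Finset.mul_sum, ← nsmul_eq_mul]
    refine Finset.sum_le_card_nsmul _ _ _ fun p' _ => ?_
    rw [← Finset.mul_sum, ← mul_assoc, ← pow_add, add_comm 5]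
    refine hb p' I fun c hc => ?_
    obtain ⟨θ, a, rfl⟩ := Finset.mem_image.1 (Finset.mem_filter.1 hc).1
    exact par_norm S hw a
  have h3 := mul_le_mul_of_nonneg_right (blk_le S hd hw hw' h p F fun p' hp => Finset.mem_filter.1 hp)
    (pow_pos S.r_pos d).le
  refine le_of_mul_le_mul_left ?_ (S.pw_pos 3)
  calc S.w ^ 3 * (#I * S.w ^ 2) = S.w ^ 5 * #I := by ring
    _ ≤ _ := h2.trans h3

theorem card_Sb {C₁ : ℝ} (hα : 0 < α) (hw : 4 * C₁ ≤ S.w) (hw' : 2 * 4 ^ d ≤ S.w)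
    (h1 : #(Hv S ψ g α A b) * S.Lam d α ≤ C₁ * (2 * (S.w * S.Y0 d α))) (h2 : #(Bc S A b) * S.w ^ 2 ≤ S.r ^ d) :
    #(Sb S ψ g α A b) * S.w ≤ S.M ^ d := by
  have w0 := S.w_pos
  have M0 := pow_pos S.M_pos d
  have r0 := pow_pos S.r_pos d
  have Y0 := S.Y0_pos d hα
  set F := (Th d S.M).filter fun θ => S.par θ ∈ Bc S A b with hF
  have a1 : (#(Sb S ψ g α A b) : ℝ) ≤ #(Hv S ψ g α A b) + #F := by
    rw [← Nat.cast_add, Nat.cast_le]
    refine le_trans (Finset.card_le_card fun θ hθ => ?_) (Finset.card_union_le _ _)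
    obtain ⟨x, y⟩ := Finset.mem_filter.1 hθ
    exact Finset.mem_union.2 (y.imp id fun y => Finset.mem_filter.2 ⟨x, y⟩)
  have a2 : #(Hv S ψ g α A b) * S.w ≤ S.M ^ d / 2 := by
    rw [Sc.Lam, ← mul_div_assoc, div_le_iff₀ M0] at h1
    refine le_of_mul_le_mul_right ?_ (by positivity : 0 < S.w ^ 2 * S.Y0 d α)
    have := mul_le_mul_of_nonneg_right hw (by positivity : 0 ≤ S.w * S.Y0 d α * S.M ^ d)
    nlinarith
  have a3 : #F * S.w ≤ S.M ^ d / 2 := by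
    have b1 := card_pre S F _ fun θ hθ => (Finset.mem_filter.1 hθ).2
    refine le_of_mul_le_mul_right ?_ (by positivity : 0 < S.w * S.r ^ d)
    have b2 := mul_le_mul_of_nonneg_right b1 (S.pw_pos 2).le
    have b3 := mul_le_mul_of_nonneg_left h2 (by positivity : 0 ≤ 4 ^ d * S.M ^ d)
    have b4 := mul_le_mul_of_nonneg_right hw' (by positivity : 0 ≤ S.M ^ d * S.r ^ d)
    nlinarith
  nlinarith

end K2x

end

end Vale.Agent.P076N.KEY
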