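import Vale.Agent.P076N.KEY.Sc

/-! # P076N / KEY : the count in one window (row K56) -/

set_option linter.all false

open MeasureTheory Finset

namespace Vale.Agent.P076N.KEY

open Vale.Agent.P076 Vale.Agent.P076N

noncomputable section

variable {d : ℕ}

namespace K56

theorem min_eq {a Λ s : ℝ} (hs : 0 < s) : min a (Λ * s) = s * min (a / s) Λ := by
  rw [mul_min_of_nonneg _ _ hs.le, mul_div_cancel₀ _ hs.ne', mul_comm Λ]

theorem lE_nonneg (g : E d → ℂ) (p : E d × ℝ) (ρ : ℝ) : 0 ≤ lE g p ρ := integral_nonneg fun _ => by positivity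

theorem ee_nonneg (S : Sc) (ψ : E d → ℝ) (g : E d → ℂ) {α : ℝ} (hα : 0 < α) (p : E d × ℝ) {ρ : ℝ} (hρ : 0 < ρ)
    (c : Zv d) : 0 ≤ S.Ee ψ g α p ρ c :=
  Finset.sum_nonneg fun θ _ => le_min (lE_nonneg _ _ _) (mul_nonneg (S.Lam_pos d hα).le (by positivity))

theorem ee_sum (S : Sc) (ψ : E d → ℝ) (g : E d → ℂ) {α : ℝ} (hα : 0 < α) (p : E d × ℝ) {ρ : ℝ} (hρ : 0 < ρ)
    (I : Finset (Zv d)) : ∑ c ∈ I, S.Ee ψ g α p ρ c ≤ S.D ψ g α p ρ * ρ ^ d := by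
  have h1 := Finset.sum_fiberwise_le_sum_of_sum_fiber_nonneg (s := Th d S.M) (t := I) (g := S.par)
    (f := fun θ => min (lE (cp ψ S.M θ g) p ρ) (S.Lam d α * ρ ^ d)) fun c _ => ee_nonneg S ψ g hα p hρ c
  refine le_trans h1 (le_of_eq ?_)
  unfold Sc.D Dn
  rw [Finset.sum_mul]
  exact Finset.sum_congr rfl fun θ _ => (min_eq (by positivity)).trans (mul_comm _ _)

theorem pow_rpow (hd : 2 ≤ d) {x : ℝ} (hx : 0 < x) : (x ^ d) ^ ((2 : ℝ) / d) = x ^ 2 := by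
  have h2 : (d : ℝ) ≠ 0 := by
    have : (2 : ℝ) ≤ d := by exact_mod_cast hd
    linarith
  rw [← Real.rpow_natCast, ← Real.rpow_mul hx.le, mul_div_cancel₀ _ h2, Real.rpow_two]

/-- the natural time scale -/
theorem scal (hd : 2 ≤ d) (S : Sc) {α Y : ℝ} (hα : 0 < α) (h1 : S.Ys d α ≤ Y) (h2 : Y ≤ S.w ^ 2 * S.Y0 d α) :
    ∃ s : ℝ, 0 < s ∧ Y * s ^ ((d : ℝ) / 2) = α ^ 2 ∧ Y / α ^ 2 / s = (Y / α ^ 2) ^ (((d : ℝ) + 2) / d) ∧
      S.w ^ 8 ≤ S.ts / s ∧ S.ts / s ≤ S.w ^ 12 := by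
  have hY : 0 < Y := (S.Ys_pos d hα).trans_le h1
  have hd0 : (2 : ℝ) ≤ d := by exact_mod_cast hd
  have hw := S.w_pos
  have hs0 := S.s0_pos
  have ht : 0 < α ^ 2 / Y := by positivity
  have hwd : S.w ^ 2 ≤ S.w ^ d := S.pw_le hd
  have a1 : α ^ 2 / Y ≤ (S.w * S.s0) ^ d := by
    unfold Sc.Ys Sc.Y0 at h1
    rw [div_div, div_le_iff₀ (by positivity)] at h1
    rw [div_le_iff₀ hY, mul_pow]
    calc α ^ 2 ≤ Y * (S.s0 ^ d * S.w ^ 2) := h1
      _ ≤ Y * (S.s0 ^ d * S.w ^ d) := by gcongr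
      _ = _ := by ring
  have a2 : (S.s0 / S.w) ^ d ≤ α ^ 2 / Y := by
    unfold Sc.Y0 at h2
    rw [mul_div_assoc', le_div_iff₀ (by positivity)] at h2
    rw [div_pow, div_le_div_iff₀ (by positivity) hY]
    calc S.s0 ^ d * Y = Y * S.s0 ^ d := by ring
      _ ≤ S.w ^ 2 * α ^ 2 := h2
      _ ≤ S.w ^ d * α ^ 2 := by gcongr
      _ = _ := by ring
  have b1 : (α ^ 2 / Y) ^ ((2 : ℝ) / d) ≤ (S.w * S.s0) ^ 2 :=
    (Real.rpow_le_rpow ht.le a1 (by positivity)).trans (pow_rpow hd (by positivity)).le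
  have b2 : (S.s0 / S.w) ^ 2 ≤ (α ^ 2 / Y) ^ ((2 : ℝ) / d) :=
    (pow_rpow hd (by positivity)).ge.trans (Real.rpow_le_rpow (by positivity) a2 (by positivity))
  have hs : 0 < (α ^ 2 / Y) ^ ((2 : ℝ) / d) := by positivity
  refine ⟨(α ^ 2 / Y) ^ ((2 : ℝ) / d), hs, ?_, ?_, ?_, ?_⟩
  · rw [← Real.rpow_mul ht.le, show (2 : ℝ) / d * (d / 2) = 1 by field_simp, Real.rpow_one]
    field_simp
  · rw [show ((d : ℝ) + 2) / d = 1 + 2 / d by field_simp, Real.rpow_add (by positivity), Real.rpow_one,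
      ← inv_div Y (α ^ 2), Real.inv_rpow (by positivity), div_inv_eq_mul]
  · rw [le_div_iff₀ hs]
    calc S.w ^ 8 * (α ^ 2 / Y) ^ ((2 : ℝ) / d) ≤ S.w ^ 8 * (S.w * S.s0) ^ 2 := by gcongr
      _ = S.ts := by unfold Sc.ts; ring
  · rw [div_le_iff₀ hs]
    calc S.ts = S.w ^ 12 * (S.s0 / S.w) ^ 2 := by unfold Sc.ts; field_simp
      _ ≤ _ := by gcongr

theorem wg_mono {B ℓ : ℝ} {A A' : Finset (E d × ℝ)} (h : WG B ℓ A) (hs : A' ⊆ A) : WG B ℓ A' := by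
  intro y s
  refine le_trans ?_ (h y s)
  exact_mod_cast Finset.card_le_card fun p hp =>
    Finset.mem_filter.2 ⟨hs (Finset.mem_filter.1 hp).1, (Finset.mem_filter.1 hp).2⟩

theorem ce_par (S : Sc) (hw : (d : ℝ) ≤ S.w) {θ : Zv d} (h : θ ∈ Th d S.M) : ‖ce S.r (S.par θ)‖ ≤ 5 := by
  have h1 := mem_Th_norm h
  have h2 := S.par_near θ
  have h3 : ‖ce S.M θ - ce S.r (S.par θ)‖ ≤ 1 := by
    have := hw.trans S.w_le_r
    have hr := S.r_pos
    nlinarith [norm_nonneg (ce S.M θ - ce S.r (S.par θ))]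
  calc ‖ce S.r (S.par θ)‖ = ‖ce S.M θ - (ce S.M θ - ce S.r (S.par θ))‖ := by congr 1; abel
    _ ≤ _ := (norm_sub_le _ _).trans (by linarith)

theorem slab {r t : ℝ} (hr : 0 < r) : r ^ 2 * ⌊t / r ^ 2⌋ ≤ t ∧ t ≤ r ^ 2 * ⌊t / r ^ 2⌋ + r ^ 2 := by
  have h0 : 0 < r ^ 2 := by positivity
  have h1 := (le_div_iff₀ h0).1 (Int.floor_le (t / r ^ 2))
  have h2 := (div_lt_iff₀ h0).1 (Int.lt_floor_add_one (t / r ^ 2))
  constructor <;> linarith

theorem cell_near {r : ℝ} (hr : 0 < r) {y y' : E d} (h : ∀ k, ⌊y k / r⌋ = ⌊y' k / r⌋) : ‖y - y'‖ ≤ d * r := by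
  refine P076T.norm_le_mul fun k => ?_
  have h1 := (le_div_iff₀ hr).1 (Int.floor_le (y k / r))
  have h2 := (div_lt_iff₀ hr).1 (Int.lt_floor_add_one (y k / r))
  have h3 := (le_div_iff₀ hr).1 (Int.floor_le (y' k / r))
  have h4 := (div_lt_iff₀ hr).1 (Int.lt_floor_add_one (y' k / r))
  rw [← h k] at h3 h4
  rw [PiLp.sub_apply, abs_le]
  constructor <;> linarith

/-- the data of one block in one slab -/
theorem hp_of (hd : 2 ≤ d) (hB : BAS d) {ψ : E d → ℝ} (hψ : Prt ψ) (S : Sc) {g : E d → ℂ} {α φ C₁ c₁ t : ℝ} {n : ℕ}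
    {A : Finset (E d × ℝ)} {L : Finset (Zv d)} {cl : Zv d → ℕ} (hg : Bd 3 g) (hα : 0 < α)
    (hen : en g ≤ S.l d ^ (2 * d) * α ^ 2) (hφ0 : 0 < φ) (hφ1 : φ ≤ 1) (hc : 0 < c₁) (hw1 : 13 ≤ S.w) (hw2 : C₁ ≤ S.w)
    (hw3 : 4 * 6 ^ d / c₁ ≤ S.w) (hn : 1 ≤ n) (hn2 : S.w ^ (1300 * (d + 2) * (2 * d)) ≤ 2 ^ n)
    (hI : (#(L.image S.par) : ℝ) ≤ 13 ^ d * φ * S.r ^ d) (ht : ∀ p ∈ A, t ≤ p.2 ∧ p.2 ≤ t + S.r ^ 2)
    (hcnt : ∀ i, (#((L.image S.par).filter fun k => cl k = i) : ℝ) * (φ⁻¹ * 2 ^ i) ≤ C₁ * S.r ^ d)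
    (hamp : ∀ p ∈ A, α / 4 ≤ ‖Uu (cs ψ S.M L g) p‖) :
    HP (2 * d) C₁ c₁ S.r S.w t φ⁻¹ (α / 4) (S.w ^ (52 * d + 1300 * (d + 2) * (2 * d)) * α ^ 2) n A (L.image S.par)
      (fun c => cs ψ S.M (L.filter fun θ => S.par θ = c) g) cl := by
  obtain ⟨B1, -, -, B4, -⟩ := hB
  obtain ⟨C1, C2, -⟩ := B4 ψ 3 S.M g hψ S.M_pos hg
  have hz : 1 ≤ φ⁻¹ := (one_le_inv₀ hφ0).2 hφ1
  have hr := S.r_pos
  have hw := S.w_pos
  have hrd : S.r ^ d ≤ S.w ^ (51 * d) := by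
    rw [pow_mul]; exact pow_le_pow_left₀ hr.le S.r_le d
  have hl2 : S.l d ^ (2 * d) = S.w ^ (1300 * (d + 2) * (2 * d)) := by unfold Sc.l; rw [← pow_mul]
  have hl1 : S.l d ^ d = S.w ^ (1300 * (d + 2) * d) := by unfold Sc.l; rw [← pow_mul]
  refine ⟨S.one_le_w, S.w_le_r, hz, by positivity, hn, ht, fun c hc' => ⟨(C2 _).1, ?_, ?_, fun y => ?_⟩, ?_, hcnt,
    fun p hp => ?_⟩
  · intro η hη
    obtain ⟨θ, h1, h2⟩ := Finset.exists_ne_zero_of_sum_ne_zero hη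
    have h3 := (C1 θ).2 η h2
    have h4 := S.par_near θ
    rw [(Finset.mem_filter.1 h1).2] at h4
    have h5 : ‖η - ce S.r c‖ ≤ ‖η - ce S.M θ‖ + ‖ce S.M θ - ce S.r c‖ := norm_sub_le_norm_sub_add_norm_sub _ _ _
    have h6 := mul_le_mul_of_nonneg_right S.r_le_M (norm_nonneg (η - ce S.M θ))
    have h7 := mul_le_mul_of_nonneg_left h5 hr.le
    linarith [mul_add S.r ‖η - ce S.M θ‖ ‖ce S.M θ - ce S.r c‖]
  · have h1 := hcnt (cl c)
    have h2 : (1 : ℝ) ≤ #((L.image S.par).filter fun k => cl k = cl c) := by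
      have h0 : c ∈ (L.image S.par).filter fun k => cl k = cl c := Finset.mem_filter.2 ⟨hc', rfl⟩
      exact_mod_cast Finset.card_pos.2 ⟨c, h0⟩
    have h3 : (2 : ℝ) ^ cl c ≤ C₁ * S.r ^ d := by
      calc (2 : ℝ) ^ cl c = 1 * (1 * 2 ^ cl c) := by ring
        _ ≤ _ := le_trans (by gcongr) h1
    have h4 : C₁ * S.r ^ d ≤ S.w ^ (51 * d + 1) := by
      calc C₁ * S.r ^ d ≤ S.w * S.w ^ (51 * d) := mul_le_mul hw2 hrd (by positivity) hw.le
        _ = _ := by ring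
    have h5 : 2 * S.w ^ (51 * d + 1) ≤ S.w ^ (1300 * (d + 2) * (2 * d)) := S.mul_pw_le S.two (by nlinarith)
    have h6 : (2 : ℝ) ^ (cl c + 1) ≤ 2 ^ n := by rw [pow_succ]; linarith
    exact (pow_le_pow_iff_right₀ (by norm_num : (1 : ℝ) < 2)).1 h6
  · obtain ⟨D1, D2, -⟩ := C2 (L.filter fun θ => S.par θ = c)
    have h1 := (B1 3 _ D1).2.2.2.2.2.2 3 1 0 (y, t) one_pos (by norm_num) (fun η hη => by simpa using D1.supp η hη)
    have h6 : (1 : ℝ) ≤ 6 ^ d := one_le_pow₀ (by norm_num)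
    have hlp := S.l_pos d
    have h2 : ‖Uu (cs ψ S.M (L.filter fun θ => S.par θ = c) g) (y, t)‖ ≤ 6 ^ d * S.l d ^ d * α := by
      refine le_of_sq_le_sq (h1.trans ?_) (by positivity)
      calc (2 * 3 / 1 : ℝ) ^ d * en (cs ψ S.M (L.filter fun θ => S.par θ = c) g)
          ≤ (2 * 3 / 1 : ℝ) ^ d * (S.l d ^ (2 * d) * α ^ 2) := mul_le_mul_of_nonneg_left (D2.trans hen) (by positivity)
        _ = 1 * (6 ^ d * (S.l d ^ d * α) ^ 2) := by norm_num; ring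
        _ ≤ 6 ^ d * (6 ^ d * (S.l d ^ d * α) ^ 2) := by gcongr
        _ = _ := by ring
    refine h2.trans ?_
    unfold am
    have h3 : 4 * 6 ^ d * S.r ^ d ≤ c₁ * S.l d ^ d := by
      rw [div_le_iff₀ hc] at hw3
      rw [hl1]
      calc 4 * 6 ^ d * S.r ^ d ≤ S.w * c₁ * S.w ^ (51 * d) := mul_le_mul hw3 hrd (by positivity) (by positivity)
        _ = c₁ * S.w ^ (51 * d + 1) := by ring
        _ ≤ _ := mul_le_mul_of_nonneg_left (S.pw_le (by nlinarith)) hc.le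
    have h4 : S.l d ^ d * S.l d ^ d ≤ 2 ^ n := by rw [← pow_add, ← two_mul, hl2]; exact hn2
    rw [Nat.cast_zero, mul_zero, zero_div, Real.rpow_zero, mul_one, div_mul_eq_mul_div, le_div_iff₀ (by positivity)]
    calc 6 ^ d * S.l d ^ d * α * S.r ^ d = (4 * 6 ^ d * S.r ^ d) * (S.l d ^ d * (α / 4)) := by ring
      _ ≤ (c₁ * S.l d ^ d) * (S.l d ^ d * (α / 4)) := by gcongr
      _ = c₁ * 1 * (α / 4) * (S.l d ^ d * S.l d ^ d) := by ring
      _ ≤ _ := by gcongr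
  · calc ∑ c ∈ L.image S.par, en (cs ψ S.M (L.filter fun θ => S.par θ = c) g)
        ≤ ∑ _c ∈ L.image S.par, S.l d ^ (2 * d) * α ^ 2 := Finset.sum_le_sum fun c _ => (C2 _).2.1.trans hen
      _ = #(L.image S.par) * (S.l d ^ (2 * d) * α ^ 2) := by rw [Finset.sum_const, nsmul_eq_mul]
      _ ≤ (S.w ^ d * 1 * S.w ^ (51 * d)) * (S.l d ^ (2 * d) * α ^ 2) := by
          have := S.l_pos d
          refine mul_le_mul_of_nonneg_right (hI.trans ?_) (by positivity)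
          gcongr
      _ = _ := by rw [hl2]; ring
  · have h1 : ∑ c ∈ L.image S.par, Uu (cs ψ S.M (L.filter fun θ => S.par θ = c) g) p = Uu (cs ψ S.M L g) p := by
      rw [(C2 L).2.2.2 p, ← Finset.sum_fiberwise_of_maps_to (g := S.par) (t := L.image S.par)
        fun θ h => Finset.mem_image_of_mem _ h]
      exact Finset.sum_congr rfl fun c _ => (C2 _).2.2.2 p
    rw [h1]
    exact hamp p hp

/-- two packets in the same slab and the same cell belong to the same block -/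
theorem same (S : Sc) (hw1 : 27 ≤ S.w) (hw2 : (d : ℝ) ≤ S.w) {c y y' : E d} {p p' : E d × ℝ} {t : ℝ} (hc : ‖c‖ ≤ 5)
    (h1 : t ≤ p.2 ∧ p.2 ≤ t + S.r ^ 2) (h2 : t ≤ p'.2 ∧ p'.2 ≤ t + S.r ^ 2)
    (h3 : ‖y - (p.1 - (2 * (p.2 - t)) • c)‖ ≤ (2 * S.w + d) * S.r)
    (h4 : ‖y' - (p'.1 - (2 * (p'.2 - t)) • c)‖ ≤ (2 * S.w + d) * S.r) (h5 : ‖y - y'‖ ≤ d * S.r) :
    ‖p'.1 - p.1‖ < S.rb ∧ |p'.2 - p.2| < S.rb := by
  have hr := S.r_pos
  have hwr := S.w_le_r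
  have a1 : 27 * S.r ^ 2 < S.rb := by
    have b1 : 27 * S.w ^ 102 ≤ S.w ^ 103 := S.mul_pw_le hw1 le_rfl
    have b2 : 2 * S.w ^ 103 ≤ S.w ^ 1250 := S.mul_pw_le S.two (by norm_num)
    have b3 := S.r2_le
    have b4 := S.pw_pos 103
    unfold Sc.rb
    linarith
  have a2 : |p'.2 - p.2| ≤ S.r ^ 2 := by rw [abs_le]; constructor <;> linarith [h1.1, h1.2, h2.1, h2.2]
  have a3 : (2 * S.w + d) * S.r ≤ 3 * S.r ^ 2 := by nlinarith
  have a4 : d * S.r ≤ S.r ^ 2 := by nlinarith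
  have a5 : ‖(2 * (p'.2 - p.2)) • c‖ ≤ 10 * S.r ^ 2 := by
    rw [norm_smul, Real.norm_eq_abs, abs_mul, abs_two]
    have := mul_le_mul a2 hc (norm_nonneg _) (by positivity)
    calc 2 * |p'.2 - p.2| * ‖c‖ = 2 * (|p'.2 - p.2| * ‖c‖) := by ring
      _ ≤ _ := by linarith
  have e : p'.1 - p.1 = (y - (p.1 - (2 * (p.2 - t)) • c)) - (y' - (p'.1 - (2 * (p'.2 - t)) • c)) - (y - y') +
      (2 * (p'.2 - p.2)) • c := by module
  have hr2 : 0 < S.r ^ 2 := by positivity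
  refine ⟨?_, by linarith⟩
  rw [e]
  refine lt_of_le_of_lt (norm_add_le _ _) ?_
  refine lt_of_le_of_lt (add_le_add_left (norm_sub_le _ _) _) ?_
  refine lt_of_le_of_lt (add_le_add_left (add_le_add_left (norm_sub_le _ _) _) _) ?_
  linarith

theorem am_pos {c₁ z α r : ℝ} (hc : 0 < c₁) (hz : 0 < z) (hα : 0 < α) (hr : 0 < r) (i j : ℕ) :
    0 < am d c₁ z α r i j := by unfold am; positivity

theorem am_sq {c₁ z α r : ℝ} (hr : 0 < r) (i j : ℕ) :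
    am d c₁ z α r i j ^ 2 * r ^ (2 * d) = c₁ ^ 2 * α ^ 2 * (z * 2 ^ i * ee z i j) := by
  unfold am ee
  have h1 : ((2 : ℝ) ^ (3 * (i : ℝ) / 4)) ^ 2 = 2 ^ i * 2 ^ ((i : ℝ) / 2) := by
    rw [← Real.rpow_natCast, ← Real.rpow_mul (by norm_num), ← Real.rpow_natCast, ← Real.rpow_add (by norm_num)]
    congr 1
    push_cast
    ring
  have h2 : ((2 : ℝ) ^ j) ^ 2 = 4 ^ j := by rw [← pow_mul, mul_comm, pow_mul]; norm_num
  rw [mul_pow, div_pow, mul_pow, mul_pow, mul_pow, h1, h2, ← pow_mul, mul_comm d 2]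
  field_simp

theorem am_ge (hd : 2 ≤ d) (S : Sc) {c₁ z α : ℝ} (hc : 0 < c₁) (hz : 1 ≤ z) (hα : 0 < α) (hw : 4 / c₁ ≤ S.w) (i j : ℕ) :
    α ≤ S.l d * am d c₁ z (α / 4) S.r i j := by
  have hr := S.r_pos
  have hw0 := S.w_pos
  have hrd : S.r ^ d ≤ S.w ^ (51 * d) := by
    rw [pow_mul]; exact pow_le_pow_left₀ hr.le S.r_le d
  have h1 : 4 * S.r ^ d ≤ c₁ * S.l d := by
    rw [div_le_iff₀ hc] at hw
    calc 4 * S.r ^ d ≤ S.w * c₁ * S.w ^ (51 * d) := mul_le_mul hw hrd (by positivity) (by positivity)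
      _ = c₁ * S.w ^ (51 * d + 1) := by ring
      _ ≤ _ := mul_le_mul_of_nonneg_left (S.pw_le (by omega)) hc.le
  have h2 : (1 : ℝ) ≤ 2 ^ (3 * (i : ℝ) / 4) := Real.one_le_rpow (by norm_num) (by positivity)
  have h3 : (1 : ℝ) ≤ 2 ^ j := one_le_pow₀ (by norm_num)
  have hl := S.l_pos d
  unfold am
  rw [div_mul_eq_mul_div, mul_div_assoc', le_div_iff₀ (by positivity)]
  calc α * S.r ^ d = (4 * S.r ^ d) * (α / 4) := by ring
    _ ≤ (c₁ * S.l d) * (α / 4) := by gcongr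
    _ = S.l d * (c₁ * 1 * 1 * (α / 4) * 1) := by ring
    _ ≤ _ := by gcongr

theorem fin_eq1 (a b x s u : ℝ) : a * (b / (x * s)) * u = a * (b / s) * u / x := by
  rw [mul_comm x s, ← div_div]
  ring

theorem fin_eq2 (Cp Cs Cn v t s Y α : ℝ) : Cp * (Cs * v) * (Cn * (t / s) * (Y * (20 * t) ^ d)) / (α / 4) ^ 2 =
    16 * Cp * Cn * 20 ^ d * Cs * v * t ^ (d + 1) * (Y / α ^ 2 / s) := by
  rw [mul_pow, pow_succ t]
  ring

theorem fin_sum {Ω : Type} {O : Finset Ω} {N : Ω → ℝ} {k : Ω → ℕ → ℕ → ℝ} {a w G x : ℕ → ℕ → ℝ} {n : ℕ}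
    {Cp β U V : ℝ} (hCp : 0 ≤ Cp) (hβ : 0 < β) (hU : 0 ≤ U) (hG : ∀ i j, 0 ≤ G i j) (hx : ∀ i j, 0 < x i j)
    (h1 : ∀ o ∈ O, N o ≤ Cp * ∑ i ∈ range n, ∑ j ∈ range n, G i j / w i j ^ 2 * (a i j * k o i j) / β)
    (h2 : ∀ i j, a i j * ∑ o ∈ O, k o i j ≤ U / x i j)
    (h3 : ∑ i ∈ range n, ∑ j ∈ range n, G i j / w i j ^ 2 / x i j ≤ V) : ∑ o ∈ O, N o ≤ Cp * V * U / β := by
  calc ∑ o ∈ O, N o ≤ ∑ o ∈ O, Cp * ∑ i ∈ range n, ∑ j ∈ range n, G i j / w i j ^ 2 * (a i j * k o i j) / β :=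
        Finset.sum_le_sum h1
    _ = Cp * ∑ i ∈ range n, ∑ j ∈ range n, G i j / w i j ^ 2 * (a i j * ∑ o ∈ O, k o i j) / β := by
        rw [← Finset.mul_sum, Finset.sum_comm]
        congr 1
        refine Finset.sum_congr rfl fun i _ => ?_
        rw [Finset.sum_comm]
        refine Finset.sum_congr rfl fun j _ => ?_
        rw [Finset.mul_sum, Finset.mul_sum, Finset.sum_div]
    _ ≤ Cp * ∑ i ∈ range n, ∑ j ∈ range n, G i j / w i j ^ 2 / x i j * (U / β) := by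
        refine mul_le_mul_of_nonneg_left (Finset.sum_le_sum fun i _ => Finset.sum_le_sum fun j _ => ?_) hCp
        have h4 := hG i j
        refine le_trans (div_le_div_of_nonneg_right (mul_le_mul_of_nonneg_left (h2 i j) (by positivity)) hβ.le)
          (le_of_eq ?_)
        ring
    _ = Cp * ((∑ i ∈ range n, ∑ j ∈ range n, G i j / w i j ^ 2 / x i j) * (U / β)) := by
        rw [Finset.sum_mul]
        simp only [Finset.sum_mul]
    _ ≤ Cp * (V * (U / β)) := mul_le_mul_of_nonneg_left (mul_le_mul_of_nonneg_right h3 (by positivity)) hCp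
    _ = _ := by ring

end K56

open K56 in
theorem k56 (d : ℕ) (hd : 2 ≤ d) : K56 d := by
  classical
  intro hB hC hP hN hS
  obtain ⟨δ, hδ, hδ2, HS⟩ := hS
  refine ⟨δ, hδ, hδ2, fun ψ B hψ => ?_⟩
  have hd0 : (2 : ℝ) ≤ d := by exact_mod_cast hd
  obtain ⟨CC, hCC, HC⟩ := hC
  obtain ⟨c₁, Cp, hc₁, hc₁', hCp, HP⟩ := hP (2 * d) CC B (52 * d + 1300 * (d + 2) * (2 * d) + 1) (by linarith)
    (by linarith)
  obtain ⟨c₂, Cn, wn, hc₂, hCn, HN⟩ := hN ψ hψ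
  obtain ⟨Cs, hCs, HS⟩ := HS (c₂ * c₁ ^ 2 / 16) Cp (by positivity) hCp
  obtain ⟨w1, Hlog⟩ := exists_log (1300 * (d + 2) * (2 * d)) (16 * Cp + Cs)
  refine ⟨16 * Cp * Cn * 20 ^ d * Cs, max (max wn w1) (max (max (27 + d) (CC + Cp)) (4 * 6 ^ d / c₁)), by positivity,
    fun S g α φ Y A β bl base L p₀ hw H => ?_⟩
  have w1' : wn ≤ S.w := le_trans (le_max_of_le_left (le_max_left _ _)) hw
  have w2 : w1 ≤ S.w := le_trans (le_max_of_le_left (le_max_right _ _)) hw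
  have w3 : 27 + (d : ℝ) ≤ S.w := le_trans (le_max_of_le_right (le_max_of_le_left (le_max_left _ _))) hw
  have w4 : CC + Cp ≤ S.w := le_trans (le_max_of_le_right (le_max_of_le_left (le_max_right _ _))) hw
  have w5 : 4 * 6 ^ d / c₁ ≤ S.w := le_trans (le_max_of_le_right (le_max_right _ _)) hw
  have w6 : 4 / c₁ ≤ S.w := by
    refine le_trans (div_le_div_of_nonneg_right ?_ hc₁.le) w5
    have : (1 : ℝ) ≤ 6 ^ d := one_le_pow₀ (by norm_num)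
    linarith
  obtain ⟨n, hn1, hn2, hn3⟩ := Hlog S.w w2
  have hn1' : (1 : ℝ) ≤ n := by exact_mod_cast hn1
  have hn46 : (n : ℝ) ^ 4 ≤ n ^ 6 := pow_le_pow_right₀ hn1' (by norm_num)
  have hn6 : (0 : ℝ) < n ^ 6 := by positivity
  have hα := H.pos
  have hφ := H.φ0
  have hr := S.r_pos
  have hw0 := S.w_pos
  have hts := S.ts_pos
  have hY : 0 < Y := (S.Ys_pos d hα).trans_le H.Y1
  have hz : 1 ≤ φ⁻¹ := (one_le_inv₀ hφ).2 H.φ1
  obtain ⟨s, hs, hs1, hs2, hs3, hs4⟩ := scal hd S hα H.Y1 H.Y2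
  have hX1 : 1 ≤ S.ts / s := (S.one_le_pw 8).trans hs3
  obtain ⟨w, G, x, hwG, hx, hw1, hsum⟩ := HS n φ⁻¹ (S.ts / s) (S.w ^ 3) (S.l d) hn1 hz hX1 (by positivity) (by
    have h1 : Cs * (n : ℝ) ^ 4 ≤ S.w := by nlinarith
    have h2 : (S.ts / s) ^ d ≤ S.w ^ (12 * d) := by
      rw [pow_mul]; exact pow_le_pow_left₀ (by positivity) hs4 d
    calc Cs * (n : ℝ) ^ 4 * (S.ts / s) ^ d ≤ S.w * S.w ^ (12 * d) := mul_le_mul h1 h2 (by positivity) hw0.le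
      _ ≤ _ := S.mul_pw_le le_rfl (by omega))
  -- a point and the density classes for each block
  have hcl : ∀ b : β, ∃ (pb : E d × ℝ) (cl : Zv d → ℕ), (∃ p ∈ A, bl p = b) → pb ∈ A ∧ bl pb = b ∧
      (∀ i, (#(((L b).image S.par).filter fun k => cl k = i) : ℝ) * (φ⁻¹ * 2 ^ i) ≤ CC * S.r ^ d) ∧
      ∀ k ∈ (L b).image S.par, ∀ ρ, S.r0 ≤ ρ → ρ ≤ 20 * S.ts →
        S.Ee ψ g α pb ρ k ≤ φ⁻¹ * 2 ^ cl k * Kw (ρ / (s / S.r)) * Y * ρ ^ d / S.r ^ d := by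
    intro b
    by_cases h : ∃ p ∈ A, bl p = b
    · obtain ⟨p, hp, rfl⟩ := h
      obtain ⟨cl, h1, h2⟩ := HC (Zv d) ((L (bl p)).image S.par) (fun k ρ => S.Ee ψ g α p ρ k) S.r0 (20 * S.ts) (s / S.r) Y
        (S.r ^ d) φ⁻¹ S.r0_pos (by positivity) hY (by positivity) (by positivity)
        (by
          have := mul_le_mul_of_nonneg_right (H.spr p hp) (by positivity : 0 ≤ φ⁻¹)
          refine le_trans (by convert this) (le_of_eq ?_)
          field_simp)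
        (fun k _ ρ hρ => ee_nonneg S ψ g hα p hρ k)
        (fun k _ ρ ρ' hρ hρ' => Finset.sum_le_sum fun θ _ => min_le_min
          ((hB.1 3 _ ((hB.2.2.2.1 ψ 3 S.M g hψ S.M_pos H.bd).1 θ).1).2.2.2.2.2.1 p ρ ρ' hρ')
          (mul_le_mul_of_nonneg_left (pow_le_pow_left₀ hρ.le hρ' d) (S.Lam_pos d hα).le))
        (fun ρ h1 h2 => (ee_sum S ψ g hα p (S.r0_pos.trans_le h1) _).trans
          (mul_le_mul_of_nonneg_right (H.den p hp ρ h1 (by linarith)) (pow_nonneg (S.r0_pos.trans_le h1).le d)))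
      exact ⟨p, cl, fun _ => ⟨hp, rfl, h1, h2⟩⟩
    · exact ⟨p₀, fun _ => 0, fun h' => absurd h' h⟩
  choose pb cl hcl using hcl
  -- the packets of each block and slab
  set key : E d × ℝ → β × ℤ := fun p => (bl p, ⌊p.2 / S.r ^ 2⌋) with hkey
  have hpk : ∀ o : β × ℤ, ∃ (P : Finset (Zv d × Zv d)) (y : Zv d × Zv d → E d) (jj : Zv d × Zv d → ℕ),
      o ∈ A.image key → Pk c₁ S.r S.w (S.r ^ 2 * o.2) φ⁻¹ (α / 4) n (A.filter fun p => key p = o) ((L o.1).image S.par)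
        (fun c => cs ψ S.M ((L o.1).filter fun θ => S.par θ = c) g) (cl o.1) P y jj ∧
      (#(A.filter fun p => key p = o) : ℝ) ≤ Cp * ∑ i ∈ range n, ∑ j ∈ range n, G i j / w i j ^ 2 *
        (am d c₁ φ⁻¹ (α / 4) S.r i j ^ 2 * S.r ^ d * #(P.filter fun u => cl o.1 u.1 = i ∧ jj u = j)) / (α / 4) ^ 2 := by
    intro o
    by_cases h : o ∈ A.image key
    · obtain ⟨p, hp, rfl⟩ := Finset.mem_image.1 h
      obtain ⟨P, y, jj, h1, h2⟩ := HP (S.l d) (S.w ^ 3) S.r S.w (S.r ^ 2 * (key p).2) φ⁻¹ (α / 4) _ n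
        (A.filter fun p' => key p' = key p) _ _ (cl (key p).1)
        (hp_of hd hB hψ S (L := L (bl p)) H.bd hα H.enl hφ H.φ1 hc₁ (by linarith) (by linarith) w5 hn1 hn2
          (by convert H.spr p hp)
          (fun p' hp' => by
            rw [← (Finset.mem_filter.1 hp').2]
            exact slab hr)
          (hcl (bl p) ⟨p, hp, rfl⟩).2.2.1
          (fun p' hp' => by
            have h3 : bl p' = bl p := congrArg Prod.fst (Finset.mem_filter.1 hp').2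
            rw [← h3]
            exact H.amp p' (Finset.mem_filter.1 hp').1))
        (by linarith [S.w_le_r])
        (by
          have h1 : 16 * Cp * (n : ℝ) ^ 4 ≤ S.w := by nlinarith
          calc Cp * (n : ℝ) ^ 4 * (S.w ^ (52 * d + 1300 * (d + 2) * (2 * d) + 1))⁻¹ *
                (S.w ^ (52 * d + 1300 * (d + 2) * (2 * d)) * α ^ 2) = (16 * Cp * (n : ℝ) ^ 4) / S.w * (α / 4) ^ 2 := by
                rw [pow_succ S.w (52 * d + 1300 * (d + 2) * (2 * d))]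
                have h0 := S.pw_pos (52 * d + 1300 * (d + 2) * (2 * d))
                generalize S.w ^ (52 * d + 1300 * (d + 2) * (2 * d)) = u at h0
                field_simp
                norm_num
            _ ≤ 1 * (α / 4) ^ 2 := mul_le_mul_of_nonneg_right ((div_le_one hw0).2 h1) (by positivity)
            _ = _ := one_mul _)
        (wg_mono H.wg (Finset.filter_subset _ _))
        (by
          refine le_trans ?_ (H.few p hp)
          exact_mod_cast Finset.card_le_card fun p' hp' => Finset.mem_filter.2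
            ⟨(Finset.mem_filter.1 hp').1, congrArg Prod.fst (Finset.mem_filter.1 hp').2⟩)
        (by
          calc (S.w ^ 3) ^ 8 = S.w ^ 24 := by ring
            _ ≤ S.w ^ 50 := S.pw_le (by norm_num)
            _ ≤ S.r := S.le_r
            _ ≤ _ := le_self_pow₀ S.one_le_r (by omega))
      exact ⟨P, y, jj, fun _ => ⟨h1, h2 w G hwG hw1⟩⟩
    · exact ⟨∅, fun _ => 0, fun _ => 0, fun h' => absurd h' h⟩
  choose P y jj hpk using hpk
  have hpt : ∀ (o : β × ℤ) (u : Zv d × Zv d), ∃ p : E d × ℝ, o ∈ A.image key → u ∈ P o → p ∈ A ∧ key p = o ∧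
      ‖y o u - (p.1 - (2 * (p.2 - S.r ^ 2 * o.2)) • ce S.r u.1)‖ ≤ (2 * S.w + d) * S.r := by
    intro o u
    by_cases h : o ∈ A.image key ∧ u ∈ P o
    · obtain ⟨p, h1, h2⟩ := ((hpk o h.1).1 u h.2).2.2.2.2
      exact ⟨p, fun _ _ => ⟨(Finset.mem_filter.1 h1).1, (Finset.mem_filter.1 h1).2, h2⟩⟩
    · exact ⟨p₀, fun h1 h2 => absurd ⟨h1, h2⟩ h⟩
  choose pt hpt using hpt
  have hpar : ∀ b, ∀ c ∈ (L b).image S.par, c ∈ (Th d S.M).image S.par := fun b c hc =>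
    Finset.image_subset_image (H.sub b) hc
  -- the number of packets of one class
  have hcount : ∀ i j, am d c₁ φ⁻¹ (α / 4) S.r i j ^ 2 * S.r ^ d *
      ∑ o ∈ A.image key, (#((P o).filter fun u => cl o.1 u.1 = i ∧ jj o u = j) : ℝ) ≤
        Cn * (S.ts / (x i j * s)) * (Y * (20 * S.ts) ^ d) := by
    intro i j
    obtain ⟨x1, x2, x3⟩ := hx i j
    set J := (A.image key).sigma fun o => (P o).filter fun u => cl o.1 u.1 = i ∧ jj o u = j with hJ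
    have hmem : ∀ v ∈ J, v.1 ∈ A.image key ∧ v.2 ∈ P v.1 ∧ cl v.1.1 v.2.1 = i ∧ jj v.1 v.2 = j := fun v hv => by
      obtain ⟨h1, h2⟩ := Finset.mem_sigma.1 hv
      exact ⟨h1, Finset.mem_filter.1 h2⟩
    have h1 : ∑ o ∈ A.image key, (#((P o).filter fun u => cl o.1 u.1 = i ∧ jj o u = j) : ℝ) =
        ∑ c ∈ (Th d S.M).image S.par, (#(J.filter fun v => v.2.1 = c) : ℝ) := by
      rw [← Nat.cast_sum, ← Nat.cast_sum, ← Finset.card_sigma, ← Finset.card_eq_sum_card_fiberwise]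
      intro v hv
      obtain ⟨h1, h2, -⟩ := hmem v hv
      exact hpar _ _ ((hpk v.1 h1).1 v.2 h2).1
    rw [h1, Finset.mul_sum]
    refine le_trans (Finset.sum_le_sum (g := fun c => Cn * (S.ts / (x i j * s)) * S.Ee ψ g α p₀ (20 * S.ts) c)
      fun c hc => ?_) ?_
    · have hc5 : ‖ce S.r c‖ ≤ 5 := by
        obtain ⟨θ, h2, rfl⟩ := Finset.mem_image.1 hc
        exact ce_par S (by linarith) h2
      have hall : ∀ v ∈ J.filter fun v => v.2.1 = c, v.1 ∈ A.image key ∧ v.2 ∈ P v.1 ∧ cl v.1.1 c = i ∧ jj v.1 v.2 = j ∧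
          v.2.1 = c ∧ pt v.1 v.2 ∈ A ∧ bl (pt v.1 v.2) = v.1.1 ∧
          (S.r ^ 2 * v.1.2 ≤ (pt v.1 v.2).2 ∧ (pt v.1 v.2).2 ≤ S.r ^ 2 * v.1.2 + S.r ^ 2) ∧
          ‖y v.1 v.2 - ((pt v.1 v.2).1 - (2 * ((pt v.1 v.2).2 - S.r ^ 2 * v.1.2)) • ce S.r c)‖ ≤
            (2 * S.w + d) * S.r := by
        intro v hv
        obtain ⟨h2, h3⟩ := Finset.mem_filter.1 hv
        obtain ⟨h4, h5, h6, h7⟩ := hmem v h2
        obtain ⟨h8, h9, h10⟩ := hpt v.1 v.2 h4 h5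
        refine ⟨h4, h5, h3 ▸ h6, h7, h3, h8, congrArg Prod.fst h9, ?_, h3 ▸ h10⟩
        have h11 : ⌊(pt v.1 v.2).2 / S.r ^ 2⌋ = v.1.2 := congrArg Prod.snd h9
        rw [← h11]
        exact slab hr
      refine HN S g α φ Y B A β bl base L p₀ c _ (J.filter fun v => v.2.1 = c)
        (fun v => (y v.1 v.2, S.r ^ 2 * v.1.2)) (fun v => pt v.1 v.2) (fun v => v.1.2) _ (φ⁻¹ * 2 ^ i) (s / S.r)
        (x i j * s) w1' H ⟨fun v hv => (hall v hv).2.2.2.2.2.1, fun v hv => ⟨rfl, (hall v hv).2.2.2.2.2.2.2.1⟩,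
          fun v hv => (hall v hv).2.2.2.2.2.2.2.2, ?_⟩ (am_ge hd S hc₁ hz hα w6 i j) ?_ (by positivity) (by positivity)
        (by positivity) ((le_div_iff₀ hs).1 x2) ?_ ?_
      · intro v hv v' hv' e1 e2
        obtain ⟨a1, a2, -, -, a5, a6, a7, a8, a9⟩ := hall v hv
        obtain ⟨b1, b2, -, -, b5, b6, b7, b8, b9⟩ := hall v' hv'
        rw [← e1] at b8 b9
        obtain ⟨g1, g2⟩ := same S (by linarith) (by linarith) hc5 a8 b8 a9 b9 (cell_near hr e2)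
        have e3 : v.1.1 = v'.1.1 := by
          rw [← a7, ← b7]
          by_contra h
          rcases H.sep _ a6 _ b6 h with h | h <;> linarith
        have e4 : v.2.2 = v'.2.2 := funext fun k => by
          rw [← ((hpk v.1 a1).1 v.2 a2).2.1 k, ← ((hpk v'.1 b1).1 v'.2 b2).2.1 k]
          exact e2 k
        exact Sigma.ext (Prod.ext e3 e1) (heq_of_eq (Prod.ext (a5.trans b5.symm) e4))
      · intro v hv
        obtain ⟨a1, a2, a3, a4, a5, a6, a7, -⟩ := hall v hv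
        have h2 := ((hpk v.1 a1).1 v.2 a2).2.2.2.1
        rw [a5, a3, a4] at h2
        rw [a7]
        exact h2
      · intro v hv
        obtain ⟨a1, a2, a3, a4, a5, a6, a7, -⟩ := hall v hv
        obtain ⟨g1, g2, -, g4⟩ := hcl v.1.1 ⟨_, a6, a7⟩
        refine ⟨pb v.1.1, g1, g2.trans a7.symm, fun ρ h2 h3 => ?_⟩
        have h4 := g4 c (a5 ▸ ((hpk v.1 a1).1 v.2 a2).1) ρ h2 h3
        rwa [a3] at h4
      · have e1 : x i j * s / (S.r * (s / S.r)) = x i j := by field_simp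
        rw [e1, Real.mul_rpow x1.le hs.le, mul_assoc c₂, am_sq hr]
        calc φ⁻¹ * 2 ^ i * Kw (x i j) * Y * (x i j ^ ((d : ℝ) / 2) * s ^ ((d : ℝ) / 2))
            = φ⁻¹ * 2 ^ i * (Kw (x i j) * x i j ^ ((d : ℝ) / 2)) * (Y * s ^ ((d : ℝ) / 2)) := by ring
          _ ≤ φ⁻¹ * 2 ^ i * (c₂ * c₁ ^ 2 / 16 * ee φ⁻¹ i j) * α ^ 2 := by rw [hs1]; gcongr
          _ = _ := by ring
    · rw [← Finset.mul_sum]
      refine mul_le_mul_of_nonneg_left ((ee_sum S ψ g hα p₀ (by positivity) _).trans ?_) (by positivity)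
      refine mul_le_mul_of_nonneg_right (H.den p₀ H.mem _ ?_ (by linarith)) (by positivity)
      have h2 := S.r0_le
      have h3 : S.w ^ 2534 ≤ S.w ^ 2610 := S.pw_le (by norm_num)
      rw [← S.ts_eq] at h3
      linarith
  -- the sum
  have hfin : φ⁻¹⁻¹ ^ δ + (n : ℝ) ^ 6 * S.w ^ 3 / (S.ts / s) ≤ φ ^ δ + (S.w ^ 4)⁻¹ := by
    rw [inv_inv]
    refine add_le_add le_rfl ?_
    have h1 : (n : ℝ) ^ 6 ≤ S.w := by nlinarith
    rw [div_le_iff₀ (by positivity)]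
    calc (n : ℝ) ^ 6 * S.w ^ 3 ≤ S.w * S.w ^ 3 := by gcongr
      _ = (S.w ^ 4)⁻¹ * S.w ^ 8 := by field_simp
      _ ≤ _ := by gcongr
  have hA : (#A : ℝ) = ∑ o ∈ A.image key, (#(A.filter fun p => key p = o) : ℝ) := by
    rw [← Nat.cast_sum, ← Finset.card_eq_sum_card_fiberwise fun p hp => Finset.mem_image_of_mem key hp]
  rw [hA]
  refine (fin_sum (U := Cn * (S.ts / s) * (Y * (20 * S.ts) ^ d)) (by linarith) (by positivity) (by positivity)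
    (fun i j => (hwG i j).2.2.1) (fun i j => (hx i j).1) (fun o ho => (hpk o ho).2)
    (fun i j => (hcount i j).trans (le_of_eq (fin_eq1 _ _ _ _ _)))
    (hsum.trans (mul_le_mul_of_nonneg_left hfin (by linarith)))).trans (le_of_eq ?_)
  rw [← hs2]
  exact fin_eq2 _ _ _ _ _ _ _ _

end

end Vale.Agent.P076N.KEY
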