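import Vale.Agent.P076N.KEY.Spec2
import Vale.Agent.P076N.KEY.Fsr

/-!
# P076N / KEY : tools for the row PK1 (helper83)
-/

set_option linter.all false

open MeasureTheory Finset

namespace Vale.Agent.P076N.KEY

open Vale.Agent.P076 Vale.Agent.P076N Vale.Agent.P076T

namespace Pk1

variable {d : ℕ}

theorem cls {X : Type} (f : X → ℝ) (s : X → Prop) {a : ℝ} {n : ℕ} (hn : 1 ≤ n) (h : ∀ y, f y ≤ a * 2 ^ n) :
    ∃ (j : ℕ) (y₀ : Option X), j ≤ n ∧ (j = n → ∀ y, s y → f y ≤ a) ∧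
      (j < n → (∃ y, y₀ = some y ∧ s y ∧ a * 2 ^ j ≤ f y) ∧ ∀ y, s y → f y ≤ 2 * (a * 2 ^ j)) := by
  classical
  by_cases h0 : ∃ y, s y ∧ a * 2 ^ 0 ≤ f y
  · set j := Nat.findGreatest (fun j => ∃ y, s y ∧ a * 2 ^ j ≤ f y) (n - 1) with hj
    have h1 : j ≤ n - 1 := Nat.findGreatest_le _
    obtain ⟨y₀, h2, h3⟩ := Nat.findGreatest_spec (P := fun j => ∃ y, s y ∧ a * 2 ^ j ≤ f y) (Nat.zero_le (n - 1)) h0
    refine ⟨j, some y₀, by omega, fun e => by omega, fun _ => ⟨⟨y₀, rfl, h2, h3⟩, fun y hy => ?_⟩⟩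
    rw [show 2 * (a * 2 ^ j) = a * 2 ^ (j + 1) by ring]
    by_cases e : j + 1 = n
    · rw [e]; exact h y
    · by_contra c
      exact Nat.findGreatest_is_greatest (P := fun j => ∃ y, s y ∧ a * 2 ^ j ≤ f y) (Nat.lt_succ_self j)
        (by omega : j + 1 ≤ n - 1) ⟨y, hy, (not_le.1 c).le⟩
  · refine ⟨n, none, le_rfl, fun _ y hy => ?_, fun e => absurd e (lt_irrefl n)⟩
    by_contra c
    exact h0 ⟨y, hy, by simpa using (not_le.1 c).le⟩

/-- the cell of a point -/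
noncomputable def kp (r : ℝ) (y : E d) : Zv d := fun l => ⌊y l / r⌋

theorem norm_le {v : E d} {b : ℝ} (hb : 0 ≤ b) (h : ∀ l, |v l| ≤ b) : ‖v‖ ≤ d * b := by
  rw [EuclideanSpace.norm_eq]
  refine Real.sqrt_le_iff.2 ⟨by positivity, (sum_le_card_nsmul _ _ (b ^ 2) fun l _ => ?_).trans ?_⟩
  · exact pow_le_pow_left₀ (norm_nonneg _) (h l) 2
  · have : (d : ℝ) ≤ d ^ 2 := by exact_mod_cast Nat.le_self_pow two_ne_zero d
    simp only [card_univ, Fintype.card_fin, nsmul_eq_mul, mul_pow]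
    exact mul_le_mul_of_nonneg_right this (by positivity)

theorem kp_near {r : ℝ} (hr : 0 < r) {y y' : E d} (h : kp r y = kp r y') : ‖y - y'‖ ≤ d * r := by
  refine norm_le hr.le fun l => ?_
  have := Int.abs_sub_lt_one_of_floor_eq_floor (congrFun h l)
  rw [← sub_div, abs_div, abs_of_pos hr, div_lt_one hr] at this
  exact this.le

theorem kp_self {r : ℝ} (hr : 0 < r) (k : Zv d) : kp r (r • toV k) = k := by
  funext l
  simp [kp, toV, mul_div_cancel_left₀ _ hr.ne']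

theorem om_sub {r : ℝ} (hr : 0 < r) (S : Finset (Zv d)) :
    kp r ⁻¹' (S : Set (Zv d)) ⊆ ⋃ k ∈ S, Metric.ball (r • toV k : E d) ((d + 1) * r) := fun y hy =>
  Set.mem_biUnion hy (mem_ball_iff_norm.2 ((kp_near hr (kp_self hr _).symm).trans_lt (by linarith)))

theorem om_mb {r : ℝ} (hr : 0 < r) (S : Finset (Zv d)) : MB (kp r ⁻¹' (S : Set (Zv d)) : Set (E d)) := by
  refine ⟨?_, ((Bornology.isBounded_biUnion_finset S).2 fun _ _ => Metric.isBounded_ball).subset (om_sub hr S)⟩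
  have : Measurable (kp r : E d → Zv d) := measurable_pi_lambda _ fun l => by unfold kp; fun_prop
  exact this S.measurableSet

theorem om_vol {r : ℝ} (hr : 0 < r) (S : Finset (Zv d)) :
    (volume : Measure (E d)).real (kp r ⁻¹' (S : Set (Zv d))) ≤
      #S * (((d + 1) * r) ^ d * (volume : Measure (E d)).real (Metric.ball 0 1)) := by
  refine (measureReal_mono (om_sub hr S) ?_).trans ((measureReal_biUnion_finset_le _ _).trans ?_)
  · exact ((Bornology.isBounded_biUnion_finset S).2 fun _ _ => Metric.isBounded_ball).measure_lt_top.ne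
  · rw [← nsmul_eq_mul]
    exact sum_le_card_nsmul _ _ _ fun k _ => Fsr.vol_ball _ (by positivity)

/-- the cells that meet a bounded set -/
theorem fin_cells {r : ℝ} (hr : 0 < r) {s : Set (E d)} (hs : Bornology.IsBounded s) : (kp r '' s).Finite := by
  obtain ⟨b, hb⟩ := hs.exists_norm_le
  refine (Fintype.piFinset fun _ : Fin d => Finset.Icc ⌊-b / r⌋ ⌊b / r⌋).finite_toSet.subset ?_
  rintro _ ⟨y, hy, rfl⟩
  refine Fintype.mem_piFinset.2 fun l => ?_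
  have := abs_le.1 ((PiLp.norm_apply_le y l).trans (hb y hy) : |y l| ≤ b)
  exact mem_Icc.2 ⟨Int.floor_mono (by gcongr; exact this.1), Int.floor_mono (by gcongr; exact this.2)⟩

theorem geo (n : ℕ) : ∑ i ∈ range n, (2 : ℝ) ^ (-(i : ℝ) / 4) ≤ 7 := by
  have h1 : (2 : ℝ) ^ (-(1 : ℝ) / 4) ≤ 6 / 7 := by
    refine le_of_pow_le_pow_left₀ (n := 4) (by norm_num) (by norm_num) ?_
    rw [← Real.rpow_natCast, ← Real.rpow_mul (by norm_num)]
    norm_num
  have h2 := geom_sum_eq (x := (6 : ℝ) / 7) (by norm_num) n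
  have h3 : (0 : ℝ) ≤ (6 / 7) ^ n := by positivity
  refine le_trans (sum_le_sum fun i _ => ?_) (h2.le.trans (by rw [div_le_iff_of_neg (by norm_num)]; linarith))
  rw [show -(i : ℝ) / 4 = -(1 : ℝ) / 4 * i by ring, Real.rpow_mul_natCast (by norm_num)]
  exact pow_le_pow_left₀ (by positivity) h1 i

theorem cut_bd' (hc : CUTS d) {a : E d → ℝ} (ha : Smo a) {R₀ r : ℝ} (hs : ∀ η, a η ≠ 0 → ‖η‖ ≤ 2 * R₀)
    (hr : 0 < r) (hR : 12 * R₀ ≤ r) {c : E d} (t₀ : ℝ) {Ω : Set (E d)} (hΩ : MB Ω) {h : E d → ℂ} (hh : Bd 3 h)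
    (hn : Nr R₀ r c h) : Bd (13 / 4) (cut (bp a r c) t₀ Ω h) := by
  have b := Fsr.cut_bd hc ha hs hr c t₀ hΩ hh
  refine ⟨b.meas, b.bdd, fun η hη => ?_⟩
  by_cases e : ∃ η', h η' ≠ 0
  · obtain ⟨η', e⟩ := e
    have h1 : ‖η' - c‖ ≤ R₀ / r := by rw [le_div_iff₀' hr]; exact hn η' e
    have h2 : ‖c‖ ≤ ‖η'‖ + ‖η' - c‖ := by simpa using norm_sub_le η' (η' - c)
    have h3 : R₀ / r ≤ 1 / 12 := by rw [div_le_iff₀ hr]; linarith
    have h4 := b.supp η hη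
    have h5 := hh.supp η' e
    rw [mul_div_assoc] at h4
    linarith
  · push Not at e
    exact absurd (by simp [cut, Uu, evo, e]) hη

theorem bp_mul {a : E d → ℝ} {R₀ R₁ r : ℝ} (ha : Bmp R₀ R₁ a) (hr : 0 < r) {c : E d} {h : E d → ℂ}
    (hn : Nr R₀ r c h) : (fun η => bp a r c η * h η) = h := by
  funext η
  by_cases hη : h η = 0
  · rw [hη, mul_zero]
  · rw [bp, ha.one _ (by simpa [norm_smul, abs_of_pos hr] using hn η hη), Complex.ofReal_one, one_mul]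

theorem cut_en (hc : CUTS d) {a : E d → ℝ} {R₀ R₁ R : ℝ} (ha : Bmp R₀ R₁ a) (r : ℝ) (c : E d) (t₀ : ℝ)
    {Ω : Set (E d)} (hΩ : MB Ω) {h : E d → ℂ} (hh : Bd R h) :
    en (cut (bp a r c) t₀ Ω h) ≤ ∫ y in Ω, ‖Uu h (y, t₀)‖ ^ 2 := by
  have := hc.2.1 Unit {()} (fun _ => bp a r c) t₀ R Ω h hΩ hh (fun _ _ => Fsr.bp_meas ha.smo r c) fun η => by
    rw [sum_singleton, bp, Complex.norm_real, Real.norm_of_nonneg (ha.nn _)]
    exact pow_le_one₀ (ha.nn _) (ha.le1 _)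
  simpa using this

end Pk1

end Vale.Agent.P076N.KEY
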