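import Vale.Agent.P076N.KEY.Spec2

/-!
# P076N / KEY : basic facts on the scales
-/

set_option linter.all false

open MeasureTheory Finset

namespace Vale.Agent.P076N.KEY

open Vale.Agent.P076 Vale.Agent.P076N

namespace Sc

variable (S : Sc) {d : ℕ}

theorem w_pos : 0 < S.w := by linarith [S.two]
theorem one_le_w : 1 ≤ S.w := by linarith [S.two]
theorem pw_pos (a : ℕ) : 0 < S.w ^ a := pow_pos S.w_pos a
theorem one_le_pw (a : ℕ) : 1 ≤ S.w ^ a := one_le_pow₀ S.one_le_w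
theorem pw_le {a b : ℕ} (h : a ≤ b) : S.w ^ a ≤ S.w ^ b := pow_le_pow_right₀ S.one_le_w h

/-- a constant below `w` costs one power -/
theorem mul_pw_le {c : ℝ} (hc : c ≤ S.w) {a b : ℕ} (h : a + 1 ≤ b) : c * S.w ^ a ≤ S.w ^ b :=
  calc c * S.w ^ a ≤ S.w * S.w ^ a := mul_le_mul_of_nonneg_right hc (S.pw_pos a).le
    _ = S.w ^ (a + 1) := by ring
    _ ≤ _ := S.pw_le h

theorem r_pos : 0 < S.r := by unfold r; positivity
theorem M_pos : 0 < S.M := by unfold M; positivity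
theorem le_r : S.w ^ 50 ≤ S.r := S.r1
theorem r_le : S.r ≤ S.w ^ 51 := S.r2.trans (S.mul_pw_le S.two le_rfl)
theorem le_M : S.w ^ 400 ≤ S.M := S.M1
theorem M_le : S.M ≤ S.w ^ 401 := S.M2.trans (S.mul_pw_le S.two le_rfl)
theorem one_le_r : 1 ≤ S.r := (S.one_le_pw 50).trans S.le_r
theorem one_le_M : 1 ≤ S.M := (S.one_le_pw 400).trans S.le_M
theorem r_le_M : S.r ≤ S.M := S.r_le.trans ((S.pw_le (by norm_num)).trans S.le_M)
theorem w_le_r : S.w ≤ S.r := by simpa using (S.pw_le (show 1 ≤ 50 by norm_num)).trans S.le_r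
theorem w_le_M : S.w ≤ S.M := S.w_le_r.trans S.r_le_M

theorem jr_le : S.jr ≤ S.jM := by
  have h := S.r_le_M
  unfold r M at h
  exact (pow_le_pow_iff_right₀ (by norm_num : (1 : ℝ) < 2)).1 h

theorem M_eq : S.M = 2 ^ (S.jM - S.jr) * S.r := by
  unfold M r
  rw [← pow_add, Nat.sub_add_cancel S.jr_le]

theorem r_div_M : S.r / S.M ≤ S.w⁻¹ := by
  rw [div_le_iff₀ S.M_pos, ← div_eq_inv_mul, le_div_iff₀ S.w_pos]
  calc S.r * S.w ≤ S.w ^ 51 * S.w := mul_le_mul_of_nonneg_right S.r_le S.w_pos.le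
    _ = S.w ^ 52 := by ring
    _ ≤ _ := (S.pw_le (by norm_num)).trans S.le_M

theorem s0_pos : 0 < S.s0 := S.pw_pos _
theorem l_pos (d : ℕ) : 0 < S.l d := S.pw_pos _
theorem one_le_l (d : ℕ) : 1 ≤ S.l d := S.one_le_pw _
theorem l_eq (d : ℕ) : S.l d = S.s0 ^ (d + 2) := by unfold l s0; rw [← pow_mul]
theorem s0_sq : S.s0 ^ 2 = S.w ^ 2600 := by unfold s0; rw [← pow_mul]

theorem l1_eq (d : ℕ) : S.l1 d = S.w ^ (2600 * d + 5176) := by
  unfold l1 l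
  rw [div_eq_iff (S.pw_pos _).ne', ← pow_mul, ← pow_add,
    show 2600 * d + 5176 + 24 = 1300 * (d + 2) * 2 by omega]

theorem l1_pos (d : ℕ) : 0 < S.l1 d := by rw [l1_eq]; exact S.pw_pos _
theorem l_le_l1 (d : ℕ) : S.l d ≤ S.l1 d := by rw [l1_eq]; exact S.pw_le (by omega)
theorem l1_mul (d : ℕ) : S.l1 d * S.w ^ 24 = S.l d ^ 2 := div_mul_cancel₀ _ (S.pw_pos _).ne'

theorem t0_eq : S.t0 = S.w ^ 2584 := by
  unfold t0
  rw [s0_sq, div_eq_iff (S.pw_pos _).ne', ← pow_add]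

theorem ts_eq : S.ts = S.w ^ 2610 := by
  unfold ts
  rw [s0_sq, ← pow_add]

theorem t0_pos : 0 < S.t0 := by rw [t0_eq]; exact S.pw_pos _
theorem ts_pos : 0 < S.ts := by rw [ts_eq]; exact S.pw_pos _
theorem rb_pos : 0 < S.rb := S.pw_pos _
theorem r0_pos : 0 < S.r0 := div_pos S.t0_pos S.r_pos
theorem r0_mul : S.r0 * S.r = S.t0 := div_mul_cancel₀ _ S.r_pos.ne'

theorem le_r0 : S.w ^ 2533 ≤ S.r0 := by
  unfold r0
  rw [le_div_iff₀ S.r_pos, t0_eq]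
  calc S.w ^ 2533 * S.r ≤ S.w ^ 2533 * S.w ^ 51 := mul_le_mul_of_nonneg_left S.r_le (S.pw_pos _).le
    _ = _ := by rw [← pow_add]

theorem r0_le : S.r0 ≤ S.w ^ 2534 := by
  unfold r0
  rw [div_le_iff₀ S.r_pos, t0_eq]
  calc S.w ^ 2584 = S.w ^ 2534 * S.w ^ 50 := by rw [← pow_add]
    _ ≤ _ := mul_le_mul_of_nonneg_left S.le_r (S.pw_pos _).le

theorem M3_le : S.M ^ 3 ≤ S.w ^ 1203 :=
  calc S.M ^ 3 ≤ (S.w ^ 401) ^ 3 := pow_le_pow_left₀ S.M_pos.le S.M_le 3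
    _ = _ := by rw [← pow_mul]

theorem r2_le : S.r ^ 2 ≤ S.w ^ 102 :=
  calc S.r ^ 2 ≤ (S.w ^ 51) ^ 2 := pow_le_pow_left₀ S.r_pos.le S.r_le 2
    _ = _ := by rw [← pow_mul]

theorem Y0_pos (d : ℕ) {α : ℝ} (h : 0 < α) : 0 < S.Y0 d α := div_pos (by positivity) (pow_pos S.s0_pos _)
theorem Ys_pos (d : ℕ) {α : ℝ} (h : 0 < α) : 0 < S.Ys d α := div_pos (S.Y0_pos d h) (S.pw_pos _)
theorem Lam_pos (d : ℕ) {α : ℝ} (h : 0 < α) : 0 < S.Lam d α :=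
  div_pos (mul_pos (S.pw_pos _) (S.Y0_pos d h)) (pow_pos S.M_pos _)

theorem l_rpow (d : ℕ) (a : ℝ) : S.l d ^ a = S.w ^ (1300 * ((d : ℝ) + 2) * a) := by
  unfold l
  rw [← Real.rpow_natCast, ← Real.rpow_mul S.w_pos.le]
  push_cast
  rfl

theorem l_rpow_w (d : ℕ) : S.l d ^ (1 / (1300 * ((d : ℝ) + 2))) = S.w := by
  rw [l_rpow, mul_one_div_cancel (by positivity), Real.rpow_one]

theorem l_rpow_s0 (d : ℕ) : S.l d ^ (1 / ((d : ℝ) + 2)) = S.s0 := by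
  rw [l_rpow]
  have : 1300 * ((d : ℝ) + 2) * (1 / ((d : ℝ) + 2)) = ((1300 : ℕ) : ℝ) := by
    push_cast
    field_simp
  rw [this, Real.rpow_natCast]
  rfl

theorem l_rpow_q (d : ℕ) : S.l d ^ (2 * ((d : ℝ) + 1) / (d + 2)) = S.l d * S.s0 ^ d := by
  rw [l_rpow]
  have : 1300 * ((d : ℝ) + 2) * (2 * ((d : ℝ) + 1) / (d + 2)) = ((1300 * (d + 2) + 1300 * d : ℕ) : ℝ) := by
    push_cast
    field_simp
    ring
  rw [this, Real.rpow_natCast, pow_add]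
  unfold l s0
  rw [← pow_mul]

/-- `(Y0 / α²) ^ ((d + 2) / d) = 1 / l` -/
theorem Y0_rpow (hd : 1 ≤ d) {α : ℝ} (h : 0 < α) : (S.Y0 d α / α ^ 2) ^ (((d : ℝ) + 2) / d) = (S.l d)⁻¹ := by
  have h1 : S.Y0 d α / α ^ 2 = S.s0⁻¹ ^ d := by
    unfold Y0
    have := S.s0_pos
    rw [inv_pow]
    field_simp
  have h2 : (d : ℝ) ≠ 0 := by
    have : (1 : ℝ) ≤ d := by exact_mod_cast hd
    linarith
  rw [h1, ← Real.rpow_natCast, ← Real.rpow_mul (inv_pos.2 S.s0_pos).le, mul_div_cancel₀ _ h2, l_eq, ← inv_pow,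
    ← Real.rpow_natCast]
  push_cast
  rfl

/-- the size of the exceptional sets, `lin / w` form -/
theorem xb_ge {κ : ℝ} (hκ : κ ≤ 1 / (1300 * ((d : ℝ) + 2))) (g : E d → ℂ) (α : ℝ) (hg : 0 ≤ en g) :
    S.l d * S.s0 ^ d / S.w * (en g / α ^ 2) ≤ S.xb κ g α := by
  unfold xb
  refine mul_le_mul_of_nonneg_right ?_ (by positivity)
  rw [← l_rpow_q, ← l_rpow_w S d, ← Real.rpow_sub (S.l_pos d)]
  exact Real.rpow_le_rpow_of_exponent_le (S.one_le_l d) (by linarith)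

theorem xb_mono {κ κ' : ℝ} (h : κ' ≤ κ) (g : E d → ℂ) (α : ℝ) (hg : 0 ≤ en g) : S.xb κ g α ≤ S.xb κ' g α := by
  unfold xb
  exact mul_le_mul_of_nonneg_right (Real.rpow_le_rpow_of_exponent_le (S.one_le_l d) (by linarith)) (by positivity)

theorem xb_nonneg (κ : ℝ) (g : E d → ℂ) (α : ℝ) (hg : 0 ≤ en g) : 0 ≤ S.xb κ g α :=
  mul_nonneg (Real.rpow_nonneg (S.l_pos d).le _) (by positivity)

/-- a fine cap and its parent, coordinatewise -/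
theorem par_coord (θ : Zv d) (k : Fin d) :
    0 ≤ ce S.M θ k - ce S.r (S.par θ) k ∧ S.r * (ce S.M θ k - ce S.r (S.par θ) k) ≤ 1 := by
  have hq : (0 : ℤ) < 2 ^ (S.jM - S.jr) := by positivity
  have h1 := Int.emod_nonneg (θ k) hq.ne'
  have h2 := Int.emod_lt_of_pos (θ k) hq
  have h3 := Int.emod_add_mul_ediv (θ k) (2 ^ (S.jM - S.jr))
  have hr := S.r_pos
  have hQ : (0 : ℝ) < 2 ^ (S.jM - S.jr) := by positivity
  have e : ce S.M θ k - ce S.r (S.par θ) k = ((θ k % 2 ^ (S.jM - S.jr) : ℤ) : ℝ) / (2 ^ (S.jM - S.jr) * S.r) := by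
    have h4 : ((θ k : ℤ) : ℝ) = ((θ k % 2 ^ (S.jM - S.jr) : ℤ) : ℝ) +
        2 ^ (S.jM - S.jr) * ((θ k / 2 ^ (S.jM - S.jr) : ℤ) : ℝ) := by exact_mod_cast h3.symm
    simp only [ce, toV, par, dv, PiLp.smul_apply, smul_eq_mul]
    rw [M_eq]
    generalize ((θ k % 2 ^ (S.jM - S.jr) : ℤ) : ℝ) = a at h4 ⊢
    generalize ((θ k / 2 ^ (S.jM - S.jr) : ℤ) : ℝ) = b at h4 ⊢
    rw [h4]
    field_simp
    ring
  rw [e]
  have h5 : (0 : ℝ) ≤ ((θ k % 2 ^ (S.jM - S.jr) : ℤ) : ℝ) := by exact_mod_cast h1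
  have h6 : ((θ k % 2 ^ (S.jM - S.jr) : ℤ) : ℝ) ≤ 2 ^ (S.jM - S.jr) := by exact_mod_cast h2.le
  refine ⟨by positivity, ?_⟩
  rw [mul_div_assoc', div_le_one (by positivity)]
  nlinarith

/-- a fine cap and its parent -/
theorem par_near (θ : Zv d) : S.r * ‖ce S.M θ - ce S.r (S.par θ)‖ ≤ d := by
  have h := P076T.norm_le_mul (v := ce S.M θ - ce S.r (S.par θ)) (r := S.r⁻¹) fun k => by
    obtain ⟨h0, h1⟩ := S.par_coord θ k
    rw [PiLp.sub_apply, abs_of_nonneg h0, ← one_div, le_div_iff₀ S.r_pos]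
    linarith
  have hr := S.r_pos
  calc S.r * ‖ce S.M θ - ce S.r (S.par θ)‖ ≤ S.r * (d * S.r⁻¹) := mul_le_mul_of_nonneg_left h hr.le
    _ = d := by field_simp

end Sc

theorem mem_Th_norm {d : ℕ} {M : ℝ} {θ : Zv d} (h : θ ∈ Th d M) : ‖ce M θ‖ ≤ 4 := by
  classical
  unfold Th at h
  exact (Finset.mem_filter.1 h).2

/-- logarithms are below any power: `w ^ k ≤ 2 ^ n` and `C n ^ 6 ≤ w` -/
theorem exists_log (k : ℕ) (C : ℝ) : ∃ w₀ : ℝ, ∀ w : ℝ, w₀ ≤ w → ∃ n : ℕ, 1 ≤ n ∧ w ^ k ≤ 2 ^ n ∧ C * n ^ 6 ≤ w := by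
  have h := (isLittleO_log_rpow_rpow_atTop (6 : ℝ) (s := 1) one_pos).bound
    (c := (|C| * (2 * k + 2) ^ 6 + 1)⁻¹) (by positivity)
  obtain ⟨w₁, hw₁⟩ := Filter.eventually_atTop.1 h
  refine ⟨max w₁ 3, fun w hw => ?_⟩
  have h3 : 3 ≤ w := (le_max_right _ _).trans hw
  have hl : 1 ≤ Real.log w := by
    rw [Real.le_log_iff_exp_le (by linarith)]
    linarith [Real.exp_one_lt_d9]
  have h2 : 1 / 2 ≤ Real.log 2 := by linarith [Real.log_two_gt_d9]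
  refine ⟨⌈2 * k * Real.log w⌉₊ + 1, by omega, ?_, ?_⟩
  · have a1 := Nat.le_ceil (2 * k * Real.log w)
    rw [← Real.log_le_log_iff (by positivity) (by positivity), Real.log_pow, Real.log_pow]
    push_cast
    have : (0 : ℝ) ≤ k * Real.log w := by positivity
    nlinarith
  · have a1 := (Nat.ceil_lt_add_one (show 0 ≤ 2 * k * Real.log w by positivity)).le
    have a2 : ((⌈2 * k * Real.log w⌉₊ + 1 : ℕ) : ℝ) ≤ (2 * k + 2) * Real.log w := by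
      push_cast
      nlinarith
    have a3 := hw₁ w ((le_max_left _ _).trans hw)
    rw [Real.rpow_one, Real.norm_of_nonneg (by positivity), Real.norm_of_nonneg (by linarith),
      show (6 : ℝ) = ((6 : ℕ) : ℝ) by norm_num, Real.rpow_natCast, ← div_eq_inv_mul, le_div_iff₀ (by positivity)] at a3
    calc C * ((⌈2 * k * Real.log w⌉₊ + 1 : ℕ) : ℝ) ^ 6 ≤ |C| * ((2 * k + 2) * Real.log w) ^ 6 :=
          mul_le_mul (le_abs_self C) (pow_le_pow_left₀ (by positivity) a2 6) (by positivity) (abs_nonneg C)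
      _ = Real.log w ^ 6 * (|C| * (2 * k + 2) ^ 6) := by ring
      _ ≤ Real.log w ^ 6 * (|C| * (2 * k + 2) ^ 6 + 1) := by gcongr; linarith
      _ ≤ w := a3

end Vale.Agent.P076N.KEY
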