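import Vale.Agent.P076N.KEY.Spec1

/-!
# P076N / KEY : the scales, the main rows and the assembly (notes/P076/key.md)
-/

set_option linter.all false

open MeasureTheory Finset
open scoped RealInnerProductSpace

namespace Vale.Agent.P076N.KEY

open Vale.Agent.P076 Vale.Agent.P076N Vale.Agent.P076T

noncomputable section

variable {d : ℕ}

/-- the scales: everything is a power of `w` (two scales are dyadic) -/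
structure Sc where
  w : ℝ
  jr : ℕ
  jM : ℕ
  two : 2 ≤ w
  r1 : w ^ 50 ≤ 2 ^ jr
  r2 : (2 : ℝ) ^ jr ≤ 2 * w ^ 50
  M1 : w ^ 400 ≤ 2 ^ jM
  M2 : (2 : ℝ) ^ jM ≤ 2 * w ^ 400

namespace Sc

variable (S : Sc)

def r : ℝ := 2 ^ S.jr
def M : ℝ := 2 ^ S.jM
def s0 : ℝ := S.w ^ 1300
def l (d : ℕ) : ℝ := S.w ^ (1300 * (d + 2))
def l1 (d : ℕ) : ℝ := S.l d ^ 2 / S.w ^ 24
def t0 : ℝ := S.s0 ^ 2 / S.w ^ 16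
def r0 : ℝ := S.t0 / S.r
def rb : ℝ := S.w ^ 1250
def ts : ℝ := S.s0 ^ 2 * S.w ^ 10
def Y0 (d : ℕ) (α : ℝ) : ℝ := α ^ 2 / S.s0 ^ d
def Lam (d : ℕ) (α : ℝ) : ℝ := S.w ^ 3 * S.Y0 d α / S.M ^ d
def Ys (d : ℕ) (α : ℝ) : ℝ := S.Y0 d α / S.w ^ 2

/-- the cap of size `1 / r` above a cap of size `1 / M` -/
def par (θ : Zv d) : Zv d := dv (2 ^ (S.jM - S.jr)) θ

/-- the size of the exceptional sets -/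
def xb (κ : ℝ) (g : E d → ℂ) (α : ℝ) : ℝ := S.l d ^ (2 * ((d : ℝ) + 1) / (d + 2) - κ) * (en g / α ^ 2)

/-- the energy density at the cube `q` of side `l1` -/
def Yq (g : E d → ℂ) (q : (Fin d → ℤ) × ℤ) : ℝ := lE g (cor (S.l1 d) q) (100 * d * S.l1 d) / S.l1 d ^ d

open Classical in
/-- the profile of a lattice -/
def Prof (A : Finset (E d × ℝ)) : Prop :=
  ∀ (p : E d × ℝ) (τ : ℝ), 1 ≤ τ → τ ≤ S.s0 ^ 2 → (#(A.filter (Nb τ p)) : ℝ) ≤ S.w ^ 2 * (1 + τ / S.s0) ^ d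

open Classical in
/-- the points of `A` on the tube through `p` with velocity `2 c`, short range -/
def crw (A : Finset (E d × ℝ)) (p : E d × ℝ) (c : E d) : ℝ :=
  ∑ p' ∈ A.filter (fun p' => S.r ^ 2 ≤ |p'.2 - p.2| ∧ |p'.2 - p.2| ≤ 2 * S.t0 ∧
    ‖p'.1 - p.1 - (2 * (p'.2 - p.2)) • c‖ ≤ S.w ^ 2 * |p'.2 - p.2| / S.r), (S.r ^ 2 / |p'.2 - p.2|) ^ ((d : ℝ) / 2)

/-- the truncated density -/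
def D (ψ : E d → ℝ) (g : E d → ℂ) (α : ℝ) (p : E d × ℝ) (ρ : ℝ) : ℝ := Dn ψ S.M (S.Lam d α) g p ρ

/-- the truncated energy of the cap `c` of size `1 / r` -/
def Ee (ψ : E d → ℝ) (g : E d → ℂ) (α : ℝ) (p : E d × ℝ) (ρ : ℝ) (c : Zv d) : ℝ :=
  ∑ θ ∈ (Th d S.M).filter (fun θ => S.par θ = c), min (lE (cp ψ S.M θ g) p ρ) (S.Lam d α * ρ ^ d)

/-- few directions near the cube `q` -/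
def Sp (g : E d → ℂ) (α φ : ℝ) (q : (Fin d → ℤ) × ℤ) : Prop :=
  ∃ h : E d → ℂ, Bd 3 h ∧ en h ≤ S.l d ^ (20 * d) * α ^ 2 ∧
    (volume : Measure (E d)).real (Metric.thickening (S.w ^ 48)⁻¹ (Function.support h)) ≤ φ ∧
    lE (g - h) (cor (S.l1 d) q) (100 * d * S.l1 d) ≤ (S.l d ^ (10 * d))⁻¹ * α ^ 2

end Sc

/-! ## first half -/

open Classical in
/-- **[OVL]** counting -/
def OVL (d : ℕ) : Prop := ∃ C : ℝ, 1 ≤ C ∧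
  (∀ (R τ : ℝ) (n : ℕ) (g : E d → ℂ) (J : Finset ((Fin d → ℤ) × ℤ)), Bd R g → 0 < τ → (∀ q ∈ J, 0 ≤ q.2 ∧ q.2 < n) →
    ∑ q ∈ J, lE g (cor τ q) (100 * d * τ) ≤ C * n * en g) ∧
  (∀ (B ℓ τ : ℝ) (A : Finset (E d × ℝ)) q, 0 ≤ B → 1 ≤ ℓ → ℓ ≤ τ → WG B ℓ A →
    (#(A.filter fun p => cub τ p = q) : ℝ) ≤ C * B * τ ^ (d + 1) / ℓ) ∧
  ∀ (τ T : ℝ) (A : Finset (E d × ℝ)) (p₀ : E d × ℝ), 0 < τ → τ ≤ T → (∀ p ∈ A, Nb T p₀ p) →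
    (#(A.image (cub τ)) : ℝ) ≤ (4 * T / τ) ^ (d + 1)

open Classical in
def FEWS (d : ℕ) : Prop := ∃ κ : ℝ, 0 < κ ∧ ∀ B : ℝ, ∃ C w₀ : ℝ, 0 ≤ C ∧ ∀ (S : Sc) (g : E d → ℂ)
  (A : Finset (E d × ℝ)) (α : ℝ), w₀ ≤ S.w → Bd 3 g → 0 < α → WG B (S.l d) A → Big g A α (S.l d ^ 2) →
    (#A * S.w ≤ S.l d ^ (2 * d + 1) → (#A : ℝ) ≤ C * S.xb κ g α) ∧
    (∀ τ : ℝ, 1 ≤ τ → #(A.image (cub τ)) * prof d S.s0 τ * S.w ^ 2 ≤ S.l d ^ (2 * d + 1) → (#A : ℝ) ≤ C * S.xb κ g α) ∧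
    ∃ A' ⊆ A, (#(A \ A') : ℝ) ≤ C * S.xb κ g α ∧ S.Prof A'

/-- **[FEW]** -/
def FEW (d : ℕ) : Prop := T3 d → FEWS d

open Classical in
def DENS (d : ℕ) : Prop := ∃ κ : ℝ, 0 < κ ∧ ∀ (ψ : E d → ℝ) (B : ℝ), Prt ψ → ∃ C w₀ : ℝ, 1 ≤ C ∧
  ∀ (S : Sc) (g : E d → ℂ) (A : Finset (E d × ℝ)) (α : ℝ), w₀ ≤ S.w → Bd 3 g → 0 < α → WG B (S.l d) A →
    Big g A α (S.l d ^ 2) → en g ≤ S.w * S.Y0 d α * S.l d ^ (2 * d) →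
    ∃ A' ⊆ A, (#(A \ A') : ℝ) ≤ C * S.xb κ g α ∧ ∀ p ∈ A', ∀ ρ, S.r0 ≤ ρ → ρ ≤ 40 * S.ts →
      S.D ψ g α p ρ ≤ C * (S.Yq g (cub (S.l1 d) p) + S.Ys d α)

/-- **[DEN]** -/
def DEN (d : ℕ) : Prop := BAS d → FS d → RORT d → STP d → FEWS d → DENS d

def T4S (d : ℕ) : Prop := ∃ κ : ℝ, 0 < κ ∧ ∀ (ψ : E d → ℝ) (B : ℝ), Prt ψ → ∃ C w₀ : ℝ, 0 ≤ C ∧
  ∀ (S : Sc) (g : E d → ℂ) (A : Finset (E d × ℝ)) (α : ℝ) (Sf : E d × ℝ → Finset (Zv d)), w₀ ≤ S.w → Bd 3 g → 0 < α →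
    WG B (S.l d) A → (∀ p ∈ A, 0 ≤ p.2 ∧ p.2 ≤ S.l d ^ 2 ∧ #(Sf p) * S.w ≤ S.M ^ d ∧ α ≤ ‖Uu (cs ψ S.M (Sf p) g) p‖) →
    (∀ p ∈ A, ∀ p' ∈ A, ‖p'.1 - p.1‖ < S.rb → |p'.2 - p.2| < S.rb → Sf p = Sf p') → (#A : ℝ) ≤ C * S.xb κ g α

/-- **[T4X]** -/
def T4X (d : ℕ) : Prop := BAS d → T4 d → T4S d

/-- **[BAD]** few crowded caps -/
def BAD (d : ℕ) : Prop := ∃ w₀ : ℝ, ∀ (S : Sc) (A : Finset (E d × ℝ)) (p : E d × ℝ) (I : Finset (Zv d)), w₀ ≤ S.w →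
  S.Prof A → (∀ c ∈ I, ‖ce S.r c‖ ≤ 5) → S.w ^ (2 * d + 5) * ∑ c ∈ I, S.crw A p (ce S.r c) ≤ S.r ^ d

def ABSS (d : ℕ) : Prop := ∀ ψ : E d → ℝ, Prt ψ → ∃ w₀ : ℝ, ∀ (S : Sc) (g : E d → ℂ) (α φ : ℝ) (q : (Fin d → ℤ) × ℤ),
  w₀ ≤ S.w → Bd 3 g → 0 < α → en g ≤ S.l d ^ (2 * d) * α ^ 2 → S.Sp g α φ q →
    ∃ Z : Finset (Zv d), (#(Z.image S.par) : ℝ) ≤ φ * S.r ^ d ∧
      ∀ T ⊆ Th d S.M, Disjoint T Z → ∀ p, cub (S.l1 d) p = q → ‖Uu (cs ψ S.M T g) p‖ ≤ α / 4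

/-- **[ABS]** absent caps -/
def ABS (d : ℕ) : Prop := BAS d → CUTS d → TLS d → ABSS d

open Classical in
def K1S (d : ℕ) : Prop := ∃ κ : ℝ, 0 < κ ∧ ∀ (ψ : E d → ℝ) (B : ℝ), Prt ψ → 0 ≤ B → ∃ C w₀ : ℝ, 1 ≤ C ∧
  ∀ (S : Sc) (g : E d → ℂ) (A : Finset (E d × ℝ)) (α : ℝ), w₀ ≤ S.w → Bd 3 g → 0 < α → WG B (S.l d) A →
    Big g A α (S.l d ^ 2) → (∀ p ∈ A, ‖p.1‖ ≤ S.l d ^ 2) →
    ∃ A' ⊆ A, (#(A \ A') : ℝ) ≤ C * S.xb κ g α ∧ (A'.Nonempty → en g ≤ S.l d ^ (2 * d) * α ^ 2) ∧ S.Prof A' ∧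
      ∀ p ∈ A', S.Yq g (cub (S.l1 d) p) ≤ S.w * S.Y0 d α ∧ ∀ ρ, S.r0 ≤ ρ → ρ ≤ 40 * S.ts →
        S.D ψ g α p ρ ≤ C * (S.Yq g (cub (S.l1 d) p) + S.Ys d α)

/-- **[K1]** -/
def K1 (d : ℕ) : Prop := BAS d → OVL d → FEWS d → DENS d → K1S d

/-! ## second half -/

open Classical in
/-- the data of the second half -/
structure HK (S : Sc) (ψ : E d → ℝ) (g : E d → ℂ) (α φ Y B : ℝ) (A : Finset (E d × ℝ)) {β : Type}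
    (bl : E d × ℝ → β) (base : β → E d × ℝ) (L : β → Finset (Zv d)) (p₀ : E d × ℝ) : Prop where
  bd : Bd 3 g
  pos : 0 < α
  enl : en g ≤ S.l d ^ (2 * d) * α ^ 2
  wg : WG B (S.l d) A
  mem : p₀ ∈ A
  diam : ∀ p ∈ A, Nb S.ts p₀ p
  nb : ∀ p ∈ A, Nb (d * S.rb) (base (bl p)) p
  sep : ∀ p ∈ A, ∀ p' ∈ A, bl p ≠ bl p' → S.rb ≤ ‖p'.1 - p.1‖ ∨ S.rb ≤ |p'.2 - p.2|
  few : ∀ p ∈ A, (#(A.filter fun p' => bl p' = bl p) : ℝ) ≤ S.w ^ 3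
  sub : ∀ b, L b ⊆ Th d S.M
  amp : ∀ p ∈ A, α / 4 ≤ ‖Uu (cs ψ S.M (L (bl p)) g) p‖
  φ0 : 0 < φ
  φ1 : φ ≤ 1
  spr : ∀ p ∈ A, (#((L (bl p)).image S.par) : ℝ) ≤ 13 ^ d * φ * S.r ^ d
  lt : ∀ p ∈ A, ∀ θ ∈ L (bl p), lE (cp ψ S.M θ g) (base (bl p)) (5 * S.r0) ≤ S.Lam d α * (5 * S.r0) ^ d
  den : ∀ p ∈ A, ∀ ρ, S.r0 ≤ ρ → ρ ≤ 40 * S.ts → S.D ψ g α p ρ ≤ Y
  Y1 : S.Ys d α ≤ Y
  Y2 : Y ≤ S.w ^ 2 * S.Y0 d α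
  good : ∀ p ∈ A, ∀ θ ∈ L (bl p), S.w ^ (2 * d) * S.crw A p (ce S.r (S.par θ)) ≤ 1

/-- the weight over the scales -/
def Kw (x : ℝ) : ℝ := x ^ (1 / 4 : ℝ) + x⁻¹ ^ (1 / 4 : ℝ)

/-- **[CLS]** density classes -/
def CLS (d : ℕ) : Prop := ∃ C : ℝ, 1 ≤ C ∧ ∀ (κ : Type) (I : Finset κ) (e : κ → ℝ → ℝ) (a b u Y v z : ℝ),
  0 < a → 0 < u → 0 < Y → 0 < v → 0 < z → #I * z ≤ 13 ^ d * v → (∀ k ∈ I, ∀ ρ, 0 < ρ → 0 ≤ e k ρ) →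
  (∀ k ∈ I, ∀ ρ ρ', 0 < ρ → ρ ≤ ρ' → e k ρ ≤ e k ρ') → (∀ ρ, a ≤ ρ → ρ ≤ 2 * b → ∑ k ∈ I, e k ρ ≤ Y * ρ ^ d) →
  ∃ cl : κ → ℕ, (∀ i, (#(I.filter fun k => cl k = i) : ℝ) * (z * 2 ^ i) ≤ C * v) ∧
    ∀ k ∈ I, ∀ ρ, a ≤ ρ → ρ ≤ b → e k ρ ≤ z * 2 ^ cl k * Kw (ρ / u) * Y * ρ ^ d / v

/-- the amplitude of the class `(i, j)` -/
def am (d : ℕ) (c₁ z α r : ℝ) (i j : ℕ) : ℝ := c₁ * z * 2 ^ (3 * (i : ℝ) / 4) * α / r ^ d * 2 ^ j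

/-- the local energy of the class `(i, j)` -/
def ee (z : ℝ) (i j : ℕ) : ℝ := z * 2 ^ ((i : ℝ) / 2) * 4 ^ j

/-- the data of one block in one time slab -/
structure HP (R₀ C₁ c₁ r m ts z α Q : ℝ) (n : ℕ) (A : Finset (E d × ℝ)) (I : Finset (Zv d)) (h : Zv d → E d → ℂ)
    (cl : Zv d → ℕ) : Prop where
  m1 : 1 ≤ m
  mr : m ≤ r
  z1 : 1 ≤ z
  pos : 0 < α
  n1 : 1 ≤ n
  tm : ∀ p ∈ A, ts ≤ p.2 ∧ p.2 ≤ ts + r ^ 2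
  bd : ∀ θ ∈ I, Bd 3 (h θ) ∧ Nr R₀ r (ce r θ) (h θ) ∧ cl θ < n ∧ ∀ y, ‖Uu (h θ) (y, ts)‖ ≤ am d c₁ z α r 0 n
  enQ : ∑ θ ∈ I, en (h θ) ≤ Q
  cnt : ∀ i, (#(I.filter fun θ => cl θ = i) : ℝ) * (z * 2 ^ i) ≤ C₁ * r ^ d
  amp : ∀ p ∈ A, α ≤ ‖∑ θ ∈ I, Uu (h θ) p‖

/-- the packets `u = (cap, cell)` with anchors `y u` and amplitude classes `jj u` -/
def Pk (c₁ r m ts z α : ℝ) (n : ℕ) (A : Finset (E d × ℝ)) (I : Finset (Zv d)) (h : Zv d → E d → ℂ) (cl : Zv d → ℕ)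
    (P : Finset (Zv d × Zv d)) (y : Zv d × Zv d → E d) (jj : Zv d × Zv d → ℕ) : Prop :=
  ∀ u ∈ P, u.1 ∈ I ∧ (∀ k, ⌊y u k / r⌋ = u.2 k) ∧ jj u < n ∧
    am d c₁ z α r (cl u.1) (jj u) ≤ ‖Uu (h u.1) (y u, ts)‖ ∧
    ∃ p ∈ A, ‖y u - (p.1 - (2 * (p.2 - ts)) • ce r u.1)‖ ≤ (2 * m + d) * r

def PKV (d : ℕ) : Prop := ∀ (R₀ C₁ : ℝ) (N : ℕ), 0 < R₀ → 0 < C₁ → ∃ c₁ C : ℝ, 0 < c₁ ∧ c₁ ≤ 1 ∧ 1 ≤ C ∧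
  ∀ (r m ts z α Q : ℝ) (n : ℕ) (A : Finset (E d × ℝ)) (I : Finset (Zv d)) (h : Zv d → E d → ℂ) (cl : Zv d → ℕ),
    HP R₀ C₁ c₁ r m ts z α Q n A I h cl → C ≤ r → C * n * (m ^ N)⁻¹ * Q ≤ α ^ 2 →
    ∃ (P : Finset (Zv d × Zv d)) (y : Zv d × Zv d → E d) (jj : Zv d × Zv d → ℕ) (V : ℕ → ℕ → E d → ℂ),
      Pk c₁ r m ts z α n A I h cl P y jj ∧
      (∀ i j, Bd (13 / 4) (V i j) ∧ en (V i j) ≤ C * Q ∧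
        en (V i j) ≤ C * am d c₁ z α r i j ^ 2 * r ^ d * #(P.filter fun u => cl u.1 = i ∧ jj u = j) ∧
        ∀ p ∈ A, lE (V i j) p r ≤ C * ee z i j * α ^ 2) ∧
      ∀ p ∈ A, α / 2 ≤ ∑ i ∈ range n, ∑ j ∈ range n, ‖Uu (V i j) p‖

/-- **[PK1]** wave packets -/
def PK1 (d : ℕ) : Prop := BAS d → BMP d → CUTS d → TLS d → ORTC d → PKV d

def PKS (d : ℕ) : Prop := ∀ (R₀ C₁ B : ℝ) (N : ℕ), 0 < R₀ → 0 < C₁ → ∃ c₁ C : ℝ, 0 < c₁ ∧ c₁ ≤ 1 ∧ 1 ≤ C ∧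
  ∀ (ℓ m₀ r m ts z α Q : ℝ) (n : ℕ) (A : Finset (E d × ℝ)) (I : Finset (Zv d)) (h : Zv d → E d → ℂ) (cl : Zv d → ℕ),
    HP R₀ C₁ c₁ r m ts z α Q n A I h cl → C ≤ r → C * n ^ 4 * (m ^ N)⁻¹ * Q ≤ α ^ 2 → WG B ℓ A → (#A : ℝ) ≤ m₀ →
    m₀ ^ 8 ≤ r ^ d →
    ∃ (P : Finset (Zv d × Zv d)) (y : Zv d × Zv d → E d) (jj : Zv d × Zv d → ℕ), Pk c₁ r m ts z α n A I h cl P y jj ∧
      ∀ w G : ℕ → ℕ → ℝ, (∀ i j, 1 / (2 * (n : ℝ) ^ 2) ≤ w i j ∧ w i j ≤ 1 ∧ 0 ≤ G i j ∧ (m₀ ≤ G i j ∨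
          (C * ee z i j / w i j ^ 2 ≤ ℓ ∧ (ee z i j / w i j ^ 2) ^ (8 / (4 * (d : ℝ) + 3)) ≤ G i j))) →
        ∑ i ∈ range n, ∑ j ∈ range n, w i j ≤ 1 →
        (#A : ℝ) ≤ C * ∑ i ∈ range n, ∑ j ∈ range n, G i j / w i j ^ 2 *
          (am d c₁ z α r i j ^ 2 * r ^ d * #(P.filter fun u => cl u.1 = i ∧ jj u = j)) / α ^ 2

/-- **[PK2]** the points served by each class -/
def PK2 (d : ℕ) : Prop := BAS d → LCP d → PKV d → PKS d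

/-- a family of packets of the cap with centre `c`: anchors `p i`, points `pt i`, slabs `sl i` -/
structure Fm (S : Sc) (A : Finset (E d × ℝ)) (c : E d) {ι : Type} (I : Finset ι) (p pt : ι → E d × ℝ)
    (sl : ι → ℤ) : Prop where
  mem : ∀ i ∈ I, pt i ∈ A
  tm : ∀ i ∈ I, (p i).2 = S.r ^ 2 * sl i ∧ (p i).2 ≤ (pt i).2 ∧ (pt i).2 ≤ (p i).2 + S.r ^ 2
  nr : ∀ i ∈ I, ‖(p i).1 - ((pt i).1 - (2 * ((pt i).2 - (p i).2)) • c)‖ ≤ (2 * S.w + d) * S.r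
  inj : ∀ i ∈ I, ∀ j ∈ I, sl i = sl j → (∀ k, ⌊(p i).1 k / S.r⌋ = ⌊(p j).1 k / S.r⌋) → i = j

open Classical in
/-- **[SR]** the short range Schur sum -/
def SR (d : ℕ) : Prop := ∀ N : ℕ, 2 * d ≤ N → ∃ C w₀ : ℝ, 0 ≤ C ∧ ∀ (S : Sc) (A : Finset (E d × ℝ)) (c : E d)
  (ι β : Type) (I : Finset ι) (p pt : ι → E d × ℝ) (sl : ι → ℤ) (bl : ι → β), w₀ ≤ S.w → Fm S A c I p pt sl →
    (∀ i ∈ I, S.w ^ (2 * d) * S.crw A (pt i) c ≤ 1) → (#I : ℝ) ≤ S.w ^ N →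
    ∀ i ∈ I, ∑ j ∈ I.filter (fun j => |(p j).2 - (p i).2| ≤ S.t0), kk N (8 * d) S.r c p bl i j ≤ C

def CNS (d : ℕ) : Prop := ∀ ψ : E d → ℝ, Prt ψ → ∃ c₂ C w₀ : ℝ, 0 < c₂ ∧ 0 ≤ C ∧
  ∀ (S : Sc) (g : E d → ℂ) (α φ Y B : ℝ) (A : Finset (E d × ℝ)) (β : Type) (bl : E d × ℝ → β) (base : β → E d × ℝ)
    (L : β → Finset (Zv d)) (p₀ : E d × ℝ) (c : Zv d) (ι : Type) (I : Finset ι) (p pt : ι → E d × ℝ) (sl : ι → ℤ)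
    (a lam u τm : ℝ), w₀ ≤ S.w → HK S ψ g α φ Y B A bl base L p₀ → Fm S A (ce S.r c) I p pt sl →
    α ≤ S.l d * a → (∀ i ∈ I, a ≤ ‖Uu (cs ψ S.M ((L (bl (pt i))).filter fun θ => S.par θ = c) g) (p i)‖) →
    0 < lam → 0 < u → 0 < τm → τm ≤ S.ts →
    (∀ i ∈ I, ∃ p' ∈ A, bl p' = bl (pt i) ∧ ∀ ρ, S.r0 ≤ ρ → ρ ≤ 20 * S.ts →
      S.Ee ψ g α p' ρ c ≤ lam * Kw (ρ / u) * Y * ρ ^ d / S.r ^ d) →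
    lam * Kw (τm / (S.r * u)) * Y * τm ^ ((d : ℝ) / 2) ≤ c₂ * a ^ 2 * S.r ^ (2 * d) →
    a ^ 2 * S.r ^ d * #I ≤ C * (S.ts / τm) * S.Ee ψ g α p₀ (20 * S.ts) c

/-- **[CNT]** the number of packets of one class in one cap -/
def CNT (d : ℕ) : Prop := BAS d → LBS d → REC d → SR d → CNS d

/-- **[SUM]** the sum over the classes -/
def SUM (d : ℕ) : Prop := ∃ δ : ℝ, 0 < δ ∧ δ ≤ 1 / 2 ∧ ∀ c₃ C₀ : ℝ, 0 < c₃ → 1 ≤ C₀ → ∃ C : ℝ, 1 ≤ C ∧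
  ∀ (n : ℕ) (z X m₀ ℓ : ℝ), 1 ≤ n → 1 ≤ z → 1 ≤ X → 0 ≤ m₀ → C * n ^ 4 * X ^ d ≤ ℓ → ∃ w G x : ℕ → ℕ → ℝ,
    (∀ i j, 1 / (2 * (n : ℝ) ^ 2) ≤ w i j ∧ w i j ≤ 1 ∧ 0 ≤ G i j ∧ (m₀ ≤ G i j ∨
      (C₀ * ee z i j / w i j ^ 2 ≤ ℓ ∧ (ee z i j / w i j ^ 2) ^ (8 / (4 * (d : ℝ) + 3)) ≤ G i j))) ∧
    (∀ i j, 0 < x i j ∧ x i j ≤ X ∧ Kw (x i j) * x i j ^ ((d : ℝ) / 2) ≤ c₃ * ee z i j) ∧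
    ∑ i ∈ range n, ∑ j ∈ range n, w i j ≤ 1 ∧
    ∑ i ∈ range n, ∑ j ∈ range n, G i j / w i j ^ 2 / x i j ≤ C * (z⁻¹ ^ δ + n ^ 6 * m₀ / X)

def K56S (d : ℕ) : Prop := ∃ δ : ℝ, 0 < δ ∧ δ ≤ 1 / 2 ∧ ∀ (ψ : E d → ℝ) (B : ℝ), Prt ψ → ∃ C w₀ : ℝ, 0 ≤ C ∧
  ∀ (S : Sc) (g : E d → ℂ) (α φ Y : ℝ) (A : Finset (E d × ℝ)) (β : Type) (bl : E d × ℝ → β) (base : β → E d × ℝ)
    (L : β → Finset (Zv d)) (p₀ : E d × ℝ), w₀ ≤ S.w → HK S ψ g α φ Y B A bl base L p₀ →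
    (#A : ℝ) ≤ C * (φ ^ δ + (S.w ^ 4)⁻¹) * S.ts ^ (d + 1) * (Y / α ^ 2) ^ (((d : ℝ) + 2) / d)

/-- **[K56]** -/
def K56 (d : ℕ) : Prop := BAS d → CLS d → PKS d → CNS d → SUM d → K56S d

open Classical in
def K2S (d : ℕ) : Prop := ∃ κ δ : ℝ, 0 < κ ∧ 0 < δ ∧ δ ≤ 1 / 2 ∧ ∀ (ψ : E d → ℝ) (B C₁ : ℝ), Prt ψ → 1 ≤ C₁ →
  ∃ C w₀ : ℝ, 0 ≤ C ∧ ∀ (S : Sc) (g : E d → ℂ) (A : Finset (E d × ℝ)) (α φ : ℝ), w₀ ≤ S.w → Bd 3 g → 0 < α → 0 ≤ φ →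
    WG B (S.l d) A → Big g A α (S.l d ^ 2) → en g ≤ S.l d ^ (2 * d) * α ^ 2 → S.Prof A →
    (∀ p ∈ A, S.Yq g (cub (S.l1 d) p) ≤ S.w * S.Y0 d α ∧ S.Sp g α φ (cub (S.l1 d) p) ∧
      ∀ ρ, S.r0 ≤ ρ → ρ ≤ 40 * S.ts → S.D ψ g α p ρ ≤ C₁ * (S.Yq g (cub (S.l1 d) p) + S.Ys d α)) →
    ∃ A' ⊆ A, (#(A \ A') : ℝ) ≤ C * S.xb κ g α ∧ ∀ q, (#(A'.filter fun p => cub (S.l1 d) p = q) : ℝ) ≤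
      C * (min φ 1 ^ δ + (S.w ^ 4)⁻¹) * S.l1 d ^ (d + 1) * ((S.Yq g q + S.Ys d α) / α ^ 2) ^ (((d : ℝ) + 2) / d)

/-- **[K2]** -/
def K2 (d : ℕ) : Prop := BAS d → OVL d → T4S d → BAD d → ABSS d → K56S d → K2S d

/-- **[K3]** -/
def K3 (d : ℕ) : Prop := BAS d → BMP d → OVL d → FEWS d → K1S d → K2S d → KEY d

/-- the rows -/
structure Rows (d : ℕ) : Prop where
  bmp : BMP d
  bas : BAS d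
  ker : KER d
  cut : CUT d
  tl : TL d
  fsr : FSR d
  ortc : ORTC d
  va1 : VA1 d
  va2 : VA2 d
  step : STEP d
  ttl : TTL d
  locp : LOCP d
  ksum : KSUM d
  bes : BES d
  lb : LB d
  rc : REC d
  ovl : OVL d
  few : FEW d
  den : DEN d
  t4x : T4X d
  bad : BAD d
  abs : ABS d
  k1 : K1 d
  cls : CLS d
  pk1 : PK1 d
  pk2 : PK2 d
  sr : SR d
  cnt : CNT d
  sum : SUM d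
  k56 : K56 d
  k2 : K2 d
  k3 : K3 d

theorem key_of (h : Rows d) (h1 : T1 d) (h3 : T3 d) (h4 : T4 d) : KEY d := by
  have c := h.cut h.bas h.ker
  have t := h.tl h.bas h.ker c
  obtain ⟨lz, fs, ro⟩ := h.fsr h.bas h.bmp c t
  have f := h.few h3
  have lb := h.lb h.bas lz fs (h.bes h.bas h.bmp h.ker (h.ksum h.ker))
  have pk := h.pk2 h.bas (h.locp h.bas lz (h.ttl h.bas h.bmp h.ker h1)) (h.pk1 h.bas h.bmp c t h.ortc)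
  exact h.k3 h.bas h.bmp h.ovl f
    (h.k1 h.bas h.ovl f (h.den h.bas fs ro (h.step h.bas fs (h.va2 h.bas h.va1)) f))
    (h.k2 h.bas h.ovl (h.t4x h.bas h4) h.bad (h.abs h.bas c t)
      (h.k56 h.bas h.cls pk (h.cnt h.bas lb h.rc h.sr) h.sum))

end

end Vale.Agent.P076N.KEY
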