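import Vale.Agent.P076N.KEY.Spec1

/-!
# P076N / KEY : row STEP, measure theoretic lemmas
-/

set_option linter.all false

open MeasureTheory Finset Metric
open scoped RealInnerProductSpace Convolution

namespace Vale.Agent.P076N.KEY.STx

open Vale.Agent.P076 Vale.Agent.P076N

noncomputable section

variable {d : ℕ}

/-- the volume of the unit ball -/
def cv (d : ℕ) : ℝ := (volume : Measure (E d)).real (Metric.ball 0 1)

lemma cv_pos (d : ℕ) : 0 < cv d :=
  ENNReal.toReal_pos (measure_ball_pos volume _ one_pos).ne' measure_ball_lt_top.ne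

lemma vol_ball (x : E d) {r : ℝ} (hr : 0 < r) : (volume : Measure (E d)).real (Metric.ball x r) = r ^ d * cv d := by
  unfold cv
  rw [measureReal_def, measureReal_def, Measure.addHaar_ball_of_pos volume x hr, ENNReal.toReal_mul,
    ENNReal.toReal_ofReal (by positivity), finrank_euclideanSpace_fin]

lemma conv_eq (f : E d → ℝ) (r : ℝ) (z : E d) :
    ∫ x in Metric.ball z r, f x = (f ⋆[ContinuousLinearMap.mul ℝ ℝ, volume] (Metric.ball (0 : E d) r).indicator 1) z := by
  rw [convolution_def, ← integral_indicator measurableSet_ball]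
  refine integral_congr_ae (Filter.Eventually.of_forall fun x => ?_)
  simp only [ContinuousLinearMap.mul_apply']
  have e : z - x ∈ Metric.ball (0 : E d) r ↔ x ∈ Metric.ball z r := by
    rw [mem_ball_zero_iff, mem_ball, dist_comm, dist_eq_norm]
  by_cases h : x ∈ Metric.ball z r
  · rw [Set.indicator_of_mem h, Set.indicator_of_mem (e.2 h), Pi.one_apply, mul_one]
  · rw [Set.indicator_of_notMem h, Set.indicator_of_notMem (fun c => h (e.1 c)), mul_zero]

lemma ind_int (r : ℝ) : Integrable ((Metric.ball (0 : E d) r).indicator (1 : E d → ℝ)) volume :=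
  (integrableOn_const (measure_ball_lt_top.ne)).integrable_indicator measurableSet_ball

lemma ball_int {f : E d → ℝ} (hf : Integrable f) (r : ℝ) : Integrable (fun z => ∫ x in Metric.ball z r, f x) := by
  simp only [conv_eq]
  exact hf.integrable_convolution _ (ind_int r)

lemma ball_integral {f : E d → ℝ} (hf : Integrable f) {r : ℝ} (hr : 0 < r) :
    ∫ z, ∫ x in Metric.ball z r, f x = r ^ d * cv d * ∫ x, f x := by
  simp only [conv_eq]
  rw [integral_convolution _ hf (ind_int r), ContinuousLinearMap.mul_apply', integral_indicator_one measurableSet_ball,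
    vol_ball _ hr, mul_comm]

lemma ball_meas {f : E d → ℝ} (hf : Measurable f) (r : ℝ) : Measurable (fun z => ∫ x in Metric.ball z r, f x) := by
  have h1 : ∀ z : E d, ∫ x in Metric.ball z r, f x =
      ∫ x, {q : E d × E d | dist q.2 q.1 < r}.indicator (fun q => f q.2) (z, x) := by
    intro z
    rw [← integral_indicator measurableSet_ball]
    rfl
  simp only [h1]
  refine (StronglyMeasurable.integral_prod_right' (f := fun q : E d × E d =>
    {q : E d × E d | dist q.2 q.1 < r}.indicator (fun q => f q.2) q) ?_).measurable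
  refine Measurable.stronglyMeasurable ((hf.comp measurable_snd).indicator ?_)
  exact (isOpen_lt (continuous_snd.dist continuous_fst) continuous_const).measurableSet

lemma ball_local {f : E d → ℝ} (hf : Integrable f) (h0 : ∀ x, 0 ≤ f x) {r : ℝ} (hr : 0 < r) (z : E d) (lam : ℝ) :
    ∫ z' in Metric.ball z lam, ∫ x in Metric.ball z' r, f x ≤ r ^ d * cv d * ∫ x in Metric.ball z (lam + r), f x := by
  have h1 : Integrable ((Metric.ball z (lam + r)).indicator f) := hf.indicator measurableSet_ball
  rw [← integral_indicator measurableSet_ball (s := Metric.ball z (lam + r)), ← ball_integral h1 hr]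
  have h2 : ∫ z' in Metric.ball z lam, ∫ x in Metric.ball z' r, f x =
      ∫ z' in Metric.ball z lam, ∫ x in Metric.ball z' r, (Metric.ball z (lam + r)).indicator f x := by
    refine setIntegral_congr_fun measurableSet_ball fun z' hz' => ?_
    refine setIntegral_congr_fun measurableSet_ball fun x hx => ?_
    rw [Set.indicator_of_mem]
    rw [mem_ball] at hz' hx ⊢
    linarith [dist_triangle x z' z]
  rw [h2]
  exact setIntegral_le_integral (ball_int h1 r) (Filter.Eventually.of_forall fun z' =>
    integral_nonneg fun x => Set.indicator_nonneg (fun y _ => h0 y) x)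

lemma avg_le {F G : E d → ℝ} (hF : Integrable F) (hG : Integrable G) {Λ B lam : ℝ} (hl : 0 < lam) (z : E d)
    (h1 : ∀ x, F x ≤ Λ) (h2 : ∀ x, F x ≤ G x) (h3 : ∫ x in Metric.ball z lam, G x ≤ B * (lam ^ d * cv d)) :
    ⨍ x in Metric.ball z lam, F x ≤ min B Λ := by
  have hp : 0 < lam ^ d * cv d := mul_pos (by positivity) (cv_pos d)
  rw [setAverage_eq, vol_ball z hl, smul_eq_mul, inv_mul_le_iff₀ hp, mul_min_of_nonneg _ _ hp.le]
  refine le_min ?_ ?_
  · rw [mul_comm]
    exact (setIntegral_mono hF.integrableOn hG.integrableOn h2).trans h3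
  · refine (setIntegral_mono hF.integrableOn (integrableOn_const measure_ball_lt_top.ne) h1).trans ?_
    rw [setIntegral_const, vol_ball z hl, smul_eq_mul]

open Classical in
/-- bounded overlap -/
lemma overlap {X ι : Type} [MeasurableSpace X] (μ : Measure X) (Q : Finset ι) (N : ι → Set X) (S : Set X) (B : ℕ)
    (v : ENNReal) (hm : ∀ q ∈ Q, MeasurableSet (N q)) (hS : ∀ q ∈ Q, N q ⊆ S) (hv : ∀ q ∈ Q, v ≤ μ (N q))
    (hB : ∀ x, #(Q.filter fun q => x ∈ N q) ≤ B) : #Q * v ≤ B * μ S := by
  have hU : MeasurableSet (⋃ q ∈ Q, N q) := Finset.measurableSet_biUnion Q hm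
  calc (#Q : ENNReal) * v = ∑ _q ∈ Q, v := by rw [Finset.sum_const, nsmul_eq_mul]
    _ ≤ ∑ q ∈ Q, μ (N q) := Finset.sum_le_sum hv
    _ = ∑ q ∈ Q, ∫⁻ x, (N q).indicator 1 x ∂μ :=
        Finset.sum_congr rfl fun q hq => (lintegral_indicator_one (hm q hq)).symm
    _ = ∫⁻ x, ∑ q ∈ Q, (N q).indicator 1 x ∂μ :=
        (lintegral_finset_sum Q fun q hq => measurable_one.indicator (hm q hq)).symm
    _ ≤ ∫⁻ x, (⋃ q ∈ Q, N q).indicator (fun _ => (B : ENNReal)) x ∂μ := by
        refine lintegral_mono fun x => ?_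
        by_cases hx : x ∈ ⋃ q ∈ Q, N q
        · rw [Set.indicator_of_mem hx]
          simp only [Set.indicator_apply, Pi.one_apply]
          rw [Finset.sum_boole]
          exact_mod_cast hB x
        · rw [Set.indicator_of_notMem hx]
          refine le_of_eq (Finset.sum_eq_zero fun q hq => Set.indicator_of_notMem ?_ _)
          exact fun c => hx (Set.mem_biUnion hq c)
    _ = B * μ (⋃ q ∈ Q, N q) := by rw [lintegral_indicator_const hU]
    _ ≤ B * μ S := by
        gcongr
        exact Set.iUnion₂_subset hS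

lemma floor_near {a b ρ : ℝ} (hρ : 0 < ρ) (h : |a - b| ≤ ρ) : ⌊a / ρ⌋ ∈ Finset.Icc (⌊b / ρ⌋ - 1) (⌊b / ρ⌋ + 1) := by
  have h1 := abs_le.1 h
  rw [Finset.mem_Icc, ← Int.floor_sub_one, ← Int.floor_add_one]
  constructor
  · apply Int.floor_mono
    rw [sub_le_iff_le_add, div_add_one hρ.ne', div_le_div_iff_of_pos_right hρ]
    linarith [h1.1]
  · apply Int.floor_mono
    rw [div_add_one hρ.ne', div_le_div_iff_of_pos_right hρ]
    linarith [h1.2]

open Classical in
/-- cubes whose points have a neighbourhood in `S` -/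
lemma cubes (A : Finset (E d × ℝ)) (S : Set (E d × ℝ)) {ρ t₀ V : ℝ} (hρ : 0 < ρ) (hV : 0 ≤ V)
    (hS : ∀ p ∈ A, ∀ q : E d × ℝ, ‖q.1 - p.1‖ ≤ ρ / 20 → |q.2 + t₀ - p.2| ≤ ρ / 20 → q ∈ S)
    (hv : volume S ≤ ENNReal.ofReal V) :
    (#(A.image (cub ρ)) : ℝ) * ((ρ / 20) ^ d * cv d * (ρ / 10)) ≤ 3 ^ (d + 1) * V := by
  have hex : ∀ c : (Fin d → ℤ) × ℤ, ∃ p : E d × ℝ, c ∈ A.image (cub ρ) → p ∈ A ∧ cub ρ p = c := by
    intro c
    by_cases hc : c ∈ A.image (cub ρ)
    · obtain ⟨p, hp, e⟩ := Finset.mem_image.1 hc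
      exact ⟨p, fun _ => ⟨hp, e⟩⟩
    · exact ⟨0, fun h => absurd h hc⟩
  choose pt hpt using hex
  have hp : 0 ≤ (ρ / 20) ^ d * cv d * (ρ / 10) := by have := cv_pos d; positivity
  have key := overlap (volume : Measure (E d × ℝ)) (A.image (cub ρ))
    (fun c => Metric.ball (pt c).1 (ρ / 20) ×ˢ Metric.ball ((pt c).2 - t₀) (ρ / 20)) S (3 ^ (d + 1))
    (ENNReal.ofReal ((ρ / 20) ^ d * cv d * (ρ / 10))) (fun _ _ => measurableSet_ball.prod measurableSet_ball)
    (fun c hc q hq => by
      obtain ⟨h1, h2⟩ := hq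
      rw [mem_ball, dist_eq_norm] at h1 h2
      refine hS _ (hpt c hc).1 q h1.le ?_
      rw [Real.norm_eq_abs] at h2
      have e : q.2 + t₀ - (pt c).2 = q.2 - ((pt c).2 - t₀) := by ring
      rw [e]
      exact h2.le)
    (fun c _ => by
      rw [Measure.volume_eq_prod, Measure.prod_prod, Real.volume_ball, ← vol_ball (pt c).1 (by positivity),
        ENNReal.ofReal_mul measureReal_nonneg, ofReal_measureReal measure_ball_lt_top.ne]
      exact le_of_eq (by congr 2; ring))
    (fun x => by
      refine le_trans (Finset.card_le_card (t := (Fintype.piFinset fun l =>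
        Finset.Icc (⌊x.1 l / ρ⌋ - 1) (⌊x.1 l / ρ⌋ + 1)) ×ˢ
          Finset.Icc (⌊(x.2 + t₀) / ρ⌋ - 1) (⌊(x.2 + t₀) / ρ⌋ + 1)) fun c hc => ?_) ?_
      · simp only [Finset.mem_filter] at hc
        obtain ⟨hc1, h1, h2⟩ := hc
        rw [mem_ball, dist_comm, dist_eq_norm] at h1 h2
        rw [← (hpt c hc1).2, Finset.mem_product, Fintype.mem_piFinset]
        refine ⟨fun l => floor_near hρ ?_, floor_near hρ ?_⟩
        · have := PiLp.norm_apply_le ((pt c).1 - x.1) l
          rw [PiLp.sub_apply, Real.norm_eq_abs] at this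
          linarith
        · rw [Real.norm_eq_abs] at h2
          have e : (pt c).2 - (x.2 + t₀) = (pt c).2 - t₀ - x.2 := by ring
          rw [e]
          linarith
      · rw [Finset.card_product, Fintype.card_piFinset]
        have e : ∀ a : ℤ, #(Finset.Icc (a - 1) (a + 1)) = 3 := fun a => by
          rw [Int.card_Icc]
          have : a + 1 + 1 - (a - 1) = 3 := by ring
          rw [this]
          rfl
        simp only [e, Finset.prod_const, Finset.card_univ, Fintype.card_fin]
        rw [pow_succ])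
  have k2 := key.trans (mul_le_mul_right hv _)
  rw [← ENNReal.ofReal_natCast, ← ENNReal.ofReal_natCast, ← ENNReal.ofReal_mul (by positivity),
    ← ENNReal.ofReal_mul (by positivity), ENNReal.ofReal_le_ofReal_iff (by positivity)] at k2
  exact_mod_cast k2

end

end Vale.Agent.P076N.KEY.STx
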