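import Vale.Agent.P076N.KEY.Spec1

/-!
# P076N / KEY : row TTL, the restricted `TT*` bound with time windows
-/

set_option linter.all false

open MeasureTheory Finset
open scoped RealInnerProductSpace ComplexConjugate

namespace Vale.Agent.P076N.KEY

open Vale.Agent.P076 Vale.Agent.P076N Vale.Agent.P076T
open Vale.Agent.P122.H84 (ee norm_ee ee_add conj_ee)
open Vale.Agent.P076.H791 (sft norm_sft evo_sft)

noncomputable section

namespace TtlP

variable {d : ℕ} {χ : E d → ℝ} {c : E d × ℝ → ℂ} {S A : Finset (E d × ℝ)} {G V : E d → ℂ} {R B ℓ : ℝ}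

open Classical in
/-- weak `L²` gives `L¹` on a finite set -/
theorem weak {ι : Type} (f : ι → ℝ) (h0 : ∀ i, 0 ≤ f i) {W : ℝ} (hW : 0 ≤ W) (S : Finset ι) :
    (∀ T ⊆ S, ∀ α, 0 ≤ α → (∀ i ∈ T, α ≤ f i) → α ^ 2 * #T ≤ W) → ∑ i ∈ S, f i ≤ 2 * √W * √(#S) := by
  induction S using Finset.induction_on_min_value f with
  | empty => simp
  | insert a s ha hm ih =>
    intro h
    have h1 := ih fun T hT => h T (hT.trans (subset_insert _ _))
    have h2 := h _ subset_rfl (f a) (h0 a) (fun i hi => by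
      rcases mem_insert.1 hi with rfl | hi
      exacts [le_rfl, hm i hi])
    rw [sum_insert ha]
    rw [card_insert_of_notMem ha] at h2 ⊢
    push_cast at h2 ⊢
    have n0 : (0 : ℝ) ≤ #s := Nat.cast_nonneg _
    have e1 := Real.sq_sqrt n0
    have e2 := Real.sq_sqrt (show (0 : ℝ) ≤ #s + 1 by linarith)
    have u0 := Real.sqrt_nonneg (#s : ℝ)
    have v0 : 0 < √((#s : ℝ) + 1) := Real.sqrt_pos.2 (by linarith)
    have w0 := Real.sqrt_nonneg W
    have h3 : f a * √((#s : ℝ) + 1) ≤ √W := Real.le_sqrt_of_sq_le (by rw [mul_pow, e2]; exact h2)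
    have h4 : 1 ≤ 2 * (√((#s : ℝ) + 1) - √(#s : ℝ)) * √((#s : ℝ) + 1) := by
      nlinarith [sq_nonneg (√((#s : ℝ) + 1) - √(#s : ℝ))]
    have h5 : f a ≤ 2 * √W * (√((#s : ℝ) + 1) - √(#s : ℝ)) :=
      le_of_mul_le_mul_right (by nlinarith [mul_le_mul_of_nonneg_left h4 w0]) v0
    linarith

theorem mem2 (h : Bd R G) (p : ENNReal) : MemLp G p :=
  memLp_of_bdd h.meas h.bdd (η0 := 0) (r := R) (fun η e => by simpa using h.supp η e) p

theorem en0 (G : E d → ℂ) : 0 ≤ en G := integral_nonneg fun _ => by positivity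

theorem cs {F : E d → ℂ} {R' : ℝ} (hG : Bd R G) (hF : Bd R' F) :
    ‖∫ η, G η * conj (F η)‖ ≤ √(en G) * √(en F) := by
  refine (norm_integral_le_integral_norm _).trans ?_
  have := integral_mul_norm_le_Lp_mul_Lq Real.HolderConjugate.two_two (mem2 hG _) (mem2 hF _)
  simp only [Real.rpow_two, ← Real.sqrt_eq_rpow] at this
  simpa only [norm_mul, Complex.norm_conj, en] using this

theorem en_eq (G : E d → ℂ) : ((en G : ℝ) : ℂ) = ∫ η, G η * conj (G η) := by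
  rw [en, ← integral_complex_ofReal]
  refine integral_congr_ae (.of_forall fun η => ?_)
  simp [Complex.mul_conj, Complex.normSq_eq_norm_sq]

/-- the phase -/
def ph (p : E d × ℝ) (η : E d) : ℝ := ⟪p.1, η⟫ - p.2 * ‖η‖ ^ 2

theorem Uu_eq (G : E d → ℂ) (p : E d × ℝ) : Uu G p = ∫ η, G η * ee (ph p η) := evo_ee G p.1 p.2

/-- the adjoint -/
def ad (χ : E d → ℝ) (c : E d × ℝ → ℂ) (S : Finset (E d × ℝ)) (η : E d) : ℂ :=
  χ η * ∑ p ∈ S, c p * ee (-ph p η)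

theorem bd_mul (hχ : Bmp (7 / 2) 4 χ) (hm : Measurable G) (hb : ∃ b : ℝ, ∀ η, ‖G η‖ ≤ b) :
    Bd 4 fun η => χ η * G η := by
  obtain ⟨b, hb⟩ := hb
  refine ⟨(Complex.measurable_ofReal.comp hχ.smo.cd.continuous.measurable).mul hm, ⟨b, fun η => ?_⟩,
    fun η h => hχ.supp η fun e => h (by simp [e])⟩
  rw [norm_mul, Complex.norm_real, Real.norm_of_nonneg (hχ.nn η)]
  exact (mul_le_of_le_one_left (norm_nonneg _) (hχ.le1 η)).trans (hb η)

theorem bd_ad (hχ : Bmp (7 / 2) 4 χ) : Bd 4 (ad χ c S) := by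
  refine bd_mul hχ (Finset.measurable_sum _ fun p _ => ?_) ⟨∑ p ∈ S, ‖c p‖, fun η => ?_⟩
  · unfold ph; fun_prop
  · exact (norm_sum_le _ _).trans (le_of_eq (sum_congr rfl fun p _ => by rw [norm_mul, norm_ee, mul_one]))

theorem en_mul (hχ : Bmp (7 / 2) 4 χ) (hG : Bd R G) : en (fun η => χ η * G η) ≤ en G := by
  refine integral_mono_of_nonneg (.of_forall fun _ => by positivity)
    ((memLp_two_iff_integrable_sq_norm hG.meas.aestronglyMeasurable).1 (mem2 hG 2)) (.of_forall fun η => ?_)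
  refine pow_le_pow_left₀ (norm_nonneg _) ?_ 2
  rw [norm_mul, Complex.norm_real, Real.norm_of_nonneg (hχ.nn η)]
  exact mul_le_of_le_one_left (norm_nonneg _) (hχ.le1 η)

theorem pair (hχ : Bmp (7 / 2) 4 χ) (hG : Bd R G) :
    ∫ η, G η * conj (ad χ c S η) = ∑ p ∈ S, conj (c p) * Uu (fun η => χ η * G η) p := by
  have hi := memLp_one_iff_integrable.1 (mem2 (bd_mul hχ hG.meas hG.bdd) 1)
  simp only [Uu_eq, ← integral_const_mul, ph]
  rw [← integral_finsetSum _ fun p _ => (mod_int hi p.1 p.2).const_mul (conj (c p))]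
  refine integral_congr_ae (.of_forall fun η => ?_)
  simp only [ad, map_mul, map_sum, Complex.conj_ofReal, conj_ee, neg_neg, mul_sum, ph]
  exact sum_congr rfl fun p _ => by ring

/-- the kernel -/
def kr (χ : E d → ℝ) (q p : E d × ℝ) : ℂ := evo (bp (fun η => χ η ^ 2) 1 0) (q.1 - p.1) (q.2 - p.2) 0

theorem uu_ad (hχ : Bmp (7 / 2) 4 χ) (q : E d × ℝ) :
    Uu (fun η => χ η * ad χ c S η) q = ∑ p ∈ S, c p * kr χ q p := by
  have e : bp (fun η => χ η ^ 2) 1 0 = fun η => (χ η : ℂ) * χ η := by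
    ext η; simp [bp, sq]
  have hi := memLp_one_iff_integrable.1 (mem2 (bd_mul (G := fun η => χ η) hχ
    (Complex.measurable_ofReal.comp hχ.smo.cd.continuous.measurable) ⟨1, fun η => by
      rw [Complex.norm_real, Real.norm_of_nonneg (hχ.nn η)]; exact hχ.le1 η⟩) 1)
  simp only [Uu_eq, kr, evo_ee, ← integral_const_mul, e]
  rw [← integral_finsetSum _ fun p _ => (mod_int hi _ _).const_mul (c p)]
  refine integral_congr_ae (.of_forall fun η => ?_)
  simp only [ad, mul_sum, sum_mul]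
  refine sum_congr rfl fun p _ => ?_
  rw [show ⟪q.1 - p.1, η⟫ - (q.2 - p.2) * ‖η‖ ^ 2 = -ph p η + ph q η by
    simp only [ph, inner_sub_left]; ring, ee_add]
  ring

theorem en_ad (hχ : Bmp (7 / 2) 4 χ) :
    ((en (ad χ c S) : ℝ) : ℂ) = ∑ q ∈ S, conj (c q) * ∑ p ∈ S, c p * kr χ q p := by
  rw [en_eq, pair hχ (bd_ad hχ)]
  simp only [uu_ad hχ]

theorem wg_mono (h : WG B ℓ A) (hS : S ⊆ A) : WG B ℓ S := fun y s => by
  classical
  refine le_trans ?_ (h y s)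
  exact_mod_cast card_le_card (filter_subset_filter _ hS)

/-- the lossy bound in a time window -/
theorem t1s (h : T1 d) {ε : ℝ} (hε : 0 < ε) (B : ℝ) : ∃ C : ℝ, 0 ≤ C ∧ ∀ (R s ℓ α : ℝ) (G : E d → ℂ)
    (A : Finset (E d × ℝ)), 1 ≤ R → R ≤ ℓ → 0 ≤ α → Bd 4 G → WG B ℓ A →
    (∀ p ∈ A, s ≤ p.2 ∧ p.2 ≤ s + R ∧ α ≤ ‖Uu G p‖) →
    α ^ 2 * #A ≤ C * R ^ ((d : ℝ) / (d + 1) + ε) * en G := by
  classical
  obtain ⟨C, hC⟩ := h ε hε B
  refine ⟨max C 0, le_max_right _ _, fun R s ℓ α G A h1 h2 h3 hG hW hA => ?_⟩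
  have inj : Function.Injective fun p : E d × ℝ => (p.1, p.2 - s) := fun p q e => by
    simp only [Prod.mk.injEq, sub_left_inj] at e
    exact Prod.ext e.1 e.2
  have := hC R (sft s G) (A.image fun p => (p.1, p.2 - s)) α h1 h3 ⟨measurable_sft s hG.meas,
    by simpa only [norm_sft] using hG.bdd, fun η e => hG.supp η (sft_ne e)⟩ (fun y => ?_) fun p hp => ?_
  · rw [card_image_of_injective _ inj, show en (sft s G) = en G by simp only [en, norm_sft]] at this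
    exact this.trans (mul_le_mul_of_nonneg_right (mul_le_mul_of_nonneg_right (le_max_left _ _)
      (by positivity)) (en0 G))
  · refine le_trans ?_ (hW y s)
    rw [filter_image, card_image_of_injective _ inj]
    refine Nat.cast_le.2 (card_le_card fun p hp => ?_)
    obtain ⟨a, b⟩ := mem_filter.1 hp
    exact mem_filter.2 ⟨a, b, abs_le.2 ⟨by linarith [(hA p a).1], by linarith [(hA p a).2.1]⟩⟩
  · obtain ⟨q, a, rfl⟩ := mem_image.1 hp
    refine ⟨by linarith [(hA q a).1], by linarith [(hA q a).2.1], ?_⟩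
    simpa only [Uu, evo_sft, sub_add_cancel] using (hA q a).2.2

/-- one window -/
theorem diag (hχ : Bmp (7 / 2) 4 χ) (hc : ∀ p, ‖c p‖ = 1) {D : ℝ} (hD : 0 ≤ D)
    (h : ∀ (G : E d → ℂ), Bd 4 G → ∀ T ⊆ S, ∀ α, 0 ≤ α → (∀ p ∈ T, α ≤ ‖Uu G p‖) → α ^ 2 * #T ≤ D * en G) :
    en (ad χ c S) ≤ 4 * D * #S := by
  have b := bd_ad (c := c) (S := S) hχ
  have e0 := en0 (ad χ c S)
  have h1 := weak (fun p => ‖Uu (fun η => χ η * ad χ c S η) p‖) (fun _ => norm_nonneg _)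
    (mul_nonneg hD e0) S fun T hT α h0 hα => (h _ (bd_mul hχ b.meas b.bdd) T hT α h0 hα).trans
      (mul_le_mul_of_nonneg_left (en_mul hχ b) hD)
  have h2 : en (ad χ c S) ≤ ∑ p ∈ S, ‖Uu (fun η => χ η * ad χ c S η) p‖ := by
    rw [← Real.norm_of_nonneg e0, ← Complex.norm_real, en_eq, pair hχ b]
    exact (norm_sum_le _ _).trans (le_of_eq (sum_congr rfl fun p _ => by
      rw [norm_mul, Complex.norm_conj, hc, one_mul]))
  have h3 := pow_le_pow_left₀ e0 (h2.trans h1) 2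
  rw [mul_pow, mul_pow, Real.sq_sqrt (mul_nonneg hD e0), Real.sq_sqrt (Nat.cast_nonneg _)] at h3
  rcases e0.eq_or_lt with e | e
  · rw [← e]; positivity
  · exact le_of_mul_le_mul_right (by nlinarith) e

theorem kr_le (hk : KER d) (hχ : Bmp (7 / 2) 4 χ) : ∃ C : ℝ, 0 ≤ C ∧ ∀ (q p : E d × ℝ) (τ : ℝ), 0 < τ →
    (τ ≤ |q.2 - p.2| ∨ τ ≤ ‖q.1 - p.1‖) → ‖kr χ q p‖ ≤ C * τ ^ (-(d : ℝ) / 2) := by
  obtain ⟨C, C0, h⟩ := hk (fun η => χ η ^ 2) ⟨hχ.smo.cd.pow 2, hχ.smo.cs.comp_left (g := fun x => x ^ 2)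
    (by simp)⟩ d
  refine ⟨C, C0, fun q p τ h0 hτ => (h 1 0 _ _ one_pos).trans ?_⟩
  simp only [one_pow, inv_one, mul_one, div_one, smul_zero, sub_zero, mul_assoc]
  refine mul_le_mul_of_nonneg_left ?_ C0
  have a := abs_nonneg (q.2 - p.2)
  have b := norm_nonneg (q.1 - p.1)
  have d0 : (0 : ℝ) ≤ d := Nat.cast_nonneg d
  refine (mul_le_mul_of_nonneg_left (wE_anti (show (d : ℝ) / 2 ≤ d by linarith) (by positivity) _)
    (by positivity)).trans ?_
  rw [wE, ← neg_div, ← Real.mul_rpow (by positivity) (by positivity)]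
  refine Real.rpow_le_rpow_of_nonpos h0 ?_ (by linarith)
  rw [mul_add, mul_div_cancel₀ _ (by positivity)]
  rcases hτ with h | h <;> linarith

open Classical in
/-- the windows are separated -/
theorem main (hχ : Bmp (7 / 2) 4 χ) (w : E d × ℝ → ℤ) {D X β : ℝ} (hD : 0 ≤ D) (hX : 0 ≤ X) (hβ : 0 ≤ β)
    (hV : Bd (7 / 2) V) (hA : ∀ p ∈ A, β ≤ ‖Uu V p‖)
    (h : ∀ k, ∀ (G : E d → ℂ), Bd 4 G → ∀ T ⊆ A.filter (w · = k), ∀ α, 0 ≤ α → (∀ p ∈ T, α ≤ ‖Uu G p‖) →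
      α ^ 2 * #T ≤ D * en G)
    (hx : ∀ q ∈ A, ∑ p ∈ A.filter (fun p => ¬ w p = w q), ‖kr χ q p‖ ≤ X) :
    β ^ 2 * #A ≤ (4 * D + X) * en V := by
  choose c' hc' hc using fun p => Complex.exists_norm_eq_mul_self (Uu V p)
  obtain ⟨c, hc1, hc2⟩ : ∃ c : E d × ℝ → ℂ, (∀ p, ‖c p‖ = 1) ∧ ∀ p, conj (c p) * Uu V p = ‖Uu V p‖ :=
    ⟨fun p => conj (c' p), fun p => by simp [hc'], fun p => by simp [hc]⟩
  have e0 := en0 (ad χ c A)
  have h1 : β * #A ≤ √(en V) * √(en (ad χ c A)) := by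
    refine le_trans ?_ (cs hV (bd_ad hχ))
    rw [pair hχ hV, show (fun η => χ η * V η) = V from funext fun η => by
      by_cases e : V η = 0
      · simp [e]
      · simp [hχ.one η (hV.supp η e)]]
    simp only [hc2]
    rw [← Complex.ofReal_sum, Complex.norm_real, mul_comm, ← nsmul_eq_mul]
    exact (card_nsmul_le_sum _ _ _ hA).trans (le_abs_self _)
  have h2 : en (ad χ c A) ≤ (4 * D + X) * #A := by
    have e : ((en (ad χ c A) : ℝ) : ℂ) = (∑ k ∈ A.image w, en (ad χ c (A.filter (w · = k))) : ℝ) +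
        ∑ q ∈ A, conj (c q) * ∑ p ∈ A.filter (fun p => ¬ w p = w q), c p * kr χ q p := by
      rw [Complex.ofReal_sum, sum_congr rfl fun k _ => (en_ad hχ).trans (sum_congr rfl
        (g := fun q => conj (c q) * ∑ p ∈ A.filter (w · = w q), c p * kr χ q p) fun q hq => by
          rw [(mem_filter.1 hq).2]), sum_fiberwise_of_maps_to fun q => mem_image_of_mem w, en_ad hχ,
        ← sum_add_distrib]
      exact sum_congr rfl fun q _ => by rw [← mul_add, sum_filter_add_sum_filter_not]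
    rw [← Real.norm_of_nonneg e0, ← Complex.norm_real, e, add_mul]
    refine (norm_add_le _ _).trans (add_le_add ?_ ((norm_sum_le _ _).trans ?_))
    · rw [Complex.norm_real, Real.norm_of_nonneg (sum_nonneg fun _ _ => en0 _), card_eq_sum_card_image w,
        Nat.cast_sum, mul_sum]
      exact sum_le_sum fun k _ => diag hχ hc1 hD (h k)
    · rw [mul_comm, ← nsmul_eq_mul]
      refine sum_le_card_nsmul _ _ _ fun q hq => le_trans ?_ (hx q hq)
      rw [norm_mul, Complex.norm_conj, hc1, one_mul]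
      exact (norm_sum_le _ _).trans (le_of_eq (sum_congr rfl fun p _ => by rw [norm_mul, hc1, one_mul]))
  have h3 := pow_le_pow_left₀ (by positivity) h1 2
  rw [mul_pow, mul_pow, Real.sq_sqrt (en0 V), Real.sq_sqrt e0] at h3
  rcases (Nat.cast_nonneg (α := ℝ) #A).eq_or_lt with e | e
  · rw [← e, mul_zero]; exact mul_nonneg (by positivity) (en0 V)
  · exact le_of_mul_le_mul_right (by nlinarith [mul_le_mul_of_nonneg_left h2 (en0 V)]) e

theorem win {τ t t' : ℝ} (h0 : 0 < τ) (h : ⌊t / τ⌋ % 2 = ⌊t' / τ⌋ % 2) (hn : ¬ ⌊t / τ⌋ = ⌊t' / τ⌋) :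
    τ ≤ |t' - t| := by
  have key : ∀ a b : ℝ, ⌊a / τ⌋ + 2 ≤ ⌊b / τ⌋ → τ ≤ b - a := fun a b e => by
    have e' : ((⌊a / τ⌋ : ℤ) : ℝ) + 2 ≤ ⌊b / τ⌋ := by exact_mod_cast e
    have : 1 ≤ (b - a) / τ := by
      rw [sub_div]; linarith [Int.floor_le (b / τ), Int.lt_floor_add_one (a / τ)]
    rwa [one_le_div h0] at this
  rcases (show ⌊t / τ⌋ + 2 ≤ ⌊t' / τ⌋ ∨ ⌊t' / τ⌋ + 2 ≤ ⌊t / τ⌋ by omega) with e | e
  · exact (key _ _ e).trans (le_abs_self _)
  · rw [abs_sub_comm]; exact (key _ _ e).trans (le_abs_self _)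

end TtlP

open TtlP Classical in
/-- `TTS` with `0 ≤ n₁` -/
theorem tts0 (d : ℕ) (hb : BMP d) (hk : KER d) (ht : T1 d) : ∀ ε B : ℝ, 0 < ε → ∃ C : ℝ, 0 ≤ C ∧
    ∀ (ℓ τ₁ ρ n₁ n₂ β : ℝ) (V : E d → ℂ) (A : Finset (E d × ℝ)), 1 ≤ τ₁ → τ₁ ≤ ℓ → 1 ≤ ρ → 0 ≤ β → 0 ≤ n₁ →
    Bd (7 / 2) V → WG B ℓ A → (∀ p ∈ A, β ≤ ‖Uu V p‖) → (#A : ℝ) ≤ n₂ →
    (∀ p ∈ A, (#(A.filter (Nb ρ p)) : ℝ) ≤ n₁) →
    β ^ 2 * #A ≤ C * (τ₁ ^ ((d : ℝ) / (d + 1) + ε) + n₁ * τ₁ ^ (-(d : ℝ) / 2) + n₂ * ρ ^ (-(d : ℝ) / 2)) * en V := by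
  intro ε B hε
  obtain ⟨χ, hχ⟩ := hb.1 (7 / 2) 4 (by norm_num) (by norm_num)
  obtain ⟨C, C0, hC⟩ := t1s ht hε B
  obtain ⟨K, K0, hK⟩ := kr_le hk hχ
  refine ⟨2 * (4 * C + K), by positivity, fun ℓ τ ρ n₁ n₂ β V A h1 h2 h3 hβ n1 hV hW hA m2 m1 => ?_⟩
  have τ0 : 0 < τ := by linarith
  have n2 : 0 ≤ n₂ := (Nat.cast_nonneg _).trans m2
  have key : ∀ S ⊆ A, (∀ p ∈ S, ∀ q ∈ S, ⌊p.2 / τ⌋ % 2 = ⌊q.2 / τ⌋ % 2) → β ^ 2 * #S ≤
      (4 * (C * τ ^ ((d : ℝ) / (d + 1) + ε)) + K * (n₁ * τ ^ (-(d : ℝ) / 2) + n₂ * ρ ^ (-(d : ℝ) / 2))) *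
        en V := fun S hS hp => by
    refine main hχ (fun p => ⌊p.2 / τ⌋) (by positivity) (by positivity) hβ hV (fun p e => hA p (hS e))
      (fun k G hG T hT α h0 hα => hC τ (τ * k) ℓ α G T h1 h2 h0 hG
        (wg_mono hW (hT.trans ((filter_subset _ _).trans hS))) fun p e => ⟨?_, ?_, hα p e⟩) fun q hq => ?_
    · have := Int.floor_le (p.2 / τ)
      rw [show ⌊p.2 / τ⌋ = k from (mem_filter.1 (hT e)).2, le_div_iff₀ τ0] at this
      linarith
    · have := Int.lt_floor_add_one (p.2 / τ)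
      rw [show ⌊p.2 / τ⌋ = k from (mem_filter.1 (hT e)).2, div_lt_iff₀ τ0] at this
      linarith
    rw [← sum_filter_add_sum_filter_not _ (Nb ρ q), mul_add, mul_left_comm, mul_left_comm K]
    refine add_le_add ((sum_le_card_nsmul _ _ _ fun p e => hK q p τ τ0 (.inl ?_)).trans ?_)
      ((sum_le_card_nsmul _ _ _ fun p e => hK q p ρ (by linarith) ?_).trans ?_)
    · have := mem_filter.1 (mem_filter.1 e).1
      exact win τ0 (hp p this.1 q hq) this.2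
    · rw [nsmul_eq_mul]
      refine mul_le_mul_of_nonneg_right (le_trans ?_ (m1 q (hS hq))) (by positivity)
      exact Nat.cast_le.2 (card_le_card (filter_subset_filter _ ((filter_subset _ _).trans hS)))
    · have := (mem_filter.1 e).2
      rw [Nb, not_and_or, not_le, not_le, norm_sub_rev, abs_sub_comm] at this
      exact this.symm.imp le_of_lt le_of_lt
    · rw [nsmul_eq_mul]
      refine mul_le_mul_of_nonneg_right (le_trans ?_ m2) (by positivity)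
      exact Nat.cast_le.2 (card_le_card ((filter_subset _ _).trans ((filter_subset _ _).trans hS)))
  have a := key (A.filter fun p => ⌊p.2 / τ⌋ % 2 = 0) (filter_subset _ _) fun p e q e' =>
    (mem_filter.1 e).2.trans (mem_filter.1 e').2.symm
  have b := key (A.filter fun p => ¬ ⌊p.2 / τ⌋ % 2 = 0) (filter_subset _ _) fun p e q e' => by
    have := (mem_filter.1 e).2
    have := (mem_filter.1 e').2
    omega
  rw [← card_filter_add_card_filter_not (fun p => ⌊p.2 / τ⌋ % 2 = 0), Nat.cast_add, mul_add]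
  refine (add_le_add a b).trans ?_
  rw [← add_mul]
  refine mul_le_mul_of_nonneg_right ?_ (en0 V)
  have x : 0 ≤ τ ^ ((d : ℝ) / (d + 1) + ε) := by positivity
  have y : 0 ≤ n₁ * τ ^ (-(d : ℝ) / 2) + n₂ * ρ ^ (-(d : ℝ) / 2) := by positivity
  nlinarith [mul_nonneg C0 y, mul_nonneg K0 x]

theorem ttl (d : ℕ) : TTL d := fun _ hb hk ht => tts0 d hb hk ht

end

end Vale.Agent.P076N.KEY
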